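import Mathlib

/-!
Euclidean Steinitz constant: removal of `log N` (helper50).
Definitions shared by the modules of `Vale.Agent.Lib.P262.St`.
-/

namespace Vale.Agent.Lib.P262.St

open scoped RealInnerProductSpace

/-- Banaszczyk's 2012 theorem with constant `C`: every zero-sum family of `N` vectors in the
Euclidean unit ball of `ℝ^k` can be ordered so that all partial sums have norm at most
`C (√k + √(log (N+1)))`. -/
def BanBound (C : ℝ) : Prop :=
  ∀ (k N : ℕ) (v : Fin N → EuclideanSpace ℝ (Fin k)),
    (∀ i, ‖v i‖ ≤ 1) → ∑ i, v i = 0 →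
    ∃ π : Equiv.Perm (Fin N), ∀ m : ℕ, m ≤ N →
      ‖∑ i ∈ Finset.univ.filter (fun i : Fin N => i.val < m), v (π i)‖
        ≤ C * (Real.sqrt k + Real.sqrt (Real.log (N + 1)))

section
variable {E : Type*} [NormedAddCommGroup E]

/-- Every prefix of the list has sum of norm at most `b`. -/
def PrefixBd (l : List E) (b : ℝ) : Prop := ∀ k : ℕ, ‖(l.take k).sum‖ ≤ b

end

section
variable {J : Type*} {E : Type*} [NormedAddCommGroup E] [NormedSpace ℝ E]

/-- Number of events of class `j` up to time `t`. -/
noncomputable def cnt (ev : J → Finset ℝ) (j : J) (t : ℝ) : ℕ := ((ev j).filter (fun x => x ≤ t)).card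

/-- Offset at time `t` of the schedule `ev` from the uniform motion, for the classes in `S`. -/
noncomputable def Off (c : J → E) (y : J → ℕ) (ev : J → Finset ℝ) (S : Finset J) (t : ℝ) : E :=
  ∑ j ∈ S, ((cnt ev j t : ℝ) - t * y j) • c j

end

/-- The bound of the few-distinct-vectors lemma for at most `n` classes. -/
noncomputable def Tb (C : ℝ) (n : ℕ) : ℝ :=
  Real.sqrt n * (7 + 4 * C * (1 + Real.sqrt (Real.log (648 * (n : ℝ) ^ 2)))) + 1

end Vale.Agent.Lib.P262.St
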