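import Vale.Agent.Lib.P262.St.Defs

/-!
Banaszczyk's bound for finite labelled lists spanning a finite-dimensional subspace.
-/

namespace Vale.Agent.Lib.P262.St

open scoped RealInnerProductSpace

variable {E : Type*} [NormedAddCommGroup E] [InnerProductSpace ℝ E]

lemma sum_take_ofFn {N : ℕ} {A : Type*} [AddCommMonoid A] (g : Fin N → A) (m : ℕ) :
    ((List.ofFn g).take m).sum = ∑ i ∈ Finset.univ.filter (fun i : Fin N => i.val < m), g i := by
  induction N generalizing m with
  | zero => simp
  | succ n ih =>
    cases m with
    | zero => simp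
    | succ m =>
      rw [List.ofFn_succ, List.take_succ_cons, List.sum_cons, ih]
      rw [Finset.sum_filter, Finset.sum_filter, Fin.sum_univ_succ]
      simp

/-- Banaszczyk's bound for labelled lists whose vectors span a subspace of small dimension. -/
theorem ban_labelled {C : ℝ} (hC : 0 ≤ C) (H : BanBound C) {α : Type*} (f : α → E) (ls : List α)
    (ρ : ℝ) (hρ : 0 ≤ ρ) (hf : ∀ a ∈ ls, ‖f a‖ ≤ ρ) (hs : (ls.map f).sum = 0)
    (V : Submodule ℝ E) [FiniteDimensional ℝ V] (hV : ∀ a ∈ ls, f a ∈ V) (k : ℕ)
    (hk : Module.finrank ℝ V ≤ k) :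
    ∃ ls' : List α, ls'.Perm ls ∧
      PrefixBd (ls'.map f) (ρ * (C * (Real.sqrt k + Real.sqrt (Real.log (ls.length + 1))))) := by
  classical
  rcases hρ.eq_or_lt with h0 | hpos
  · -- the zero radius
    refine ⟨ls, List.Perm.refl _, ?_⟩
    have hz : ∀ a ∈ ls, f a = 0 := by
      intro a ha
      have := hf a ha
      rw [← h0] at this
      exact norm_le_zero_iff.1 this
    intro m
    have : ((ls.map f).take m).sum = 0 := by
      apply List.sum_eq_zero
      intro x hx
      have := List.mem_of_mem_take hx
      obtain ⟨a, ha, rfl⟩ := List.mem_map.1 this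
      exact hz a ha
    rw [this, ← h0]
    simp
  · set N := ls.length with hN
    let r := Module.finrank ℝ V
    let φ := (stdOrthonormalBasis ℝ V).repr
    let g : Fin N → V := fun i => ⟨f (ls.get i), hV _ (List.get_mem _ _)⟩
    let w : Fin N → EuclideanSpace ℝ (Fin r) := fun i => ρ⁻¹ • φ (g i)
    have hw1 : ∀ i, ‖w i‖ ≤ 1 := by
      intro i
      simp only [w]
      rw [norm_smul, LinearIsometryEquiv.norm_map, Real.norm_eq_abs, abs_of_pos (inv_pos.2 hpos)]
      have h1 : ‖g i‖ = ‖f (ls.get i)‖ := rfl
      rw [h1, inv_mul_le_iff₀ hpos, mul_one]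
      exact hf _ (List.get_mem _ _)
    have hg0 : ∑ i, g i = 0 := by
      apply Subtype.ext
      have h1 : ((∑ i, g i : V) : E) = ∑ i : Fin N, f (ls.get i) := by
        simp [g]
      rw [h1]
      have h2 : ∑ i : Fin N, f (ls.get i) = (ls.map f).sum := by
        have h3 : (ls.map f) = List.ofFn (fun i : Fin N => f (ls.get i)) := by
          apply List.ext_getElem
          · simp [hN]
          · intro i h1 h2
            simp
        rw [h3, List.sum_ofFn]
      rw [h2, hs]
      rfl
    have hw2 : ∑ i, w i = 0 := by
      simp only [w]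
      rw [← Finset.smul_sum, ← map_sum, hg0, map_zero, smul_zero]
    obtain ⟨π, hπ⟩ := H r N w hw1 hw2
    refine ⟨List.ofFn (fun i => ls.get (π i)), ?_, ?_⟩
    · have h1 := Equiv.Perm.ofFn_comp_perm π (fun i : Fin N => ls.get i)
      have h2 : List.ofFn (fun i : Fin N => ls.get i) = ls := by
        exact List.ofFn_get ls
      rw [h2] at h1
      exact h1
    · intro m
      have hbound : ∀ m' : ℕ, m' ≤ N →
          ‖((List.ofFn (fun i => f (ls.get (π i)))).take m').sum‖ ≤
            ρ * (C * (Real.sqrt k + Real.sqrt (Real.log ((N : ℝ) + 1)))) := by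
        intro m' hm'
        rw [sum_take_ofFn]
        have h3 := hπ m' hm'
        have hsum : ∑ i ∈ Finset.univ.filter (fun i : Fin N => i.val < m'), f (ls.get (π i))
            = ((∑ i ∈ Finset.univ.filter (fun i : Fin N => i.val < m'), g (π i) : V) : E) := by
          simp [g]
        rw [hsum]
        have h4 : ‖((∑ i ∈ Finset.univ.filter (fun i : Fin N => i.val < m'), g (π i) : V) : E)‖
            = ρ * ‖∑ i ∈ Finset.univ.filter (fun i : Fin N => i.val < m'), w (π i)‖ := by
          have h5 : ∑ i ∈ Finset.univ.filter (fun i : Fin N => i.val < m'), w (π i)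
              = ρ⁻¹ • φ (∑ i ∈ Finset.univ.filter (fun i : Fin N => i.val < m'), g (π i)) := by
            simp only [w]
            rw [← Finset.smul_sum, map_sum]
          rw [h5, norm_smul, LinearIsometryEquiv.norm_map, Real.norm_eq_abs,
            abs_of_pos (inv_pos.2 hpos), ← mul_assoc, mul_inv_cancel₀ hpos.ne', one_mul]
          rfl
        rw [h4]
        apply mul_le_mul_of_nonneg_left _ hρ
        refine h3.trans ?_
        apply mul_le_mul_of_nonneg_left _ hC
        have h6 : Real.sqrt (r : ℝ) ≤ Real.sqrt k := by
          apply Real.sqrt_le_sqrt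
          exact_mod_cast hk
        linarith
      have hmap : (List.ofFn (fun i : Fin N => ls.get (π i))).map f
          = List.ofFn (fun i => f (ls.get (π i))) := by
        rw [List.map_ofFn]
        rfl
      rw [hmap]
      rcases Nat.le_total m N with hm | hm
      · exact hbound m hm
      · have h7 : (List.ofFn (fun i => f (ls.get (π i)))).take m
            = (List.ofFn (fun i => f (ls.get (π i)))).take N := by
          rw [List.take_of_length_le (by simpa using hm),
            List.take_of_length_le (by simp)]
        rw [h7]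
        exact hbound N le_rfl

end Vale.Agent.Lib.P262.St
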