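import Vale.Agent.Lib.P262.St.Defs

/-!
Grid cells in Euclidean space (module M7).
-/

namespace Vale.Agent.Lib.P262.St

/-- Cell of the cubical grid of side `h` containing `v`. -/
noncomputable def cellOf {d : ℕ} (h : ℝ) (v : EuclideanSpace ℝ (Fin d)) : Fin d → ℤ :=
  fun i => ⌊v i / h⌋

theorem cell_dist {d : ℕ} {h : ℝ} (hh : 0 < h) {v w : EuclideanSpace ℝ (Fin d)}
    (hvw : cellOf h v = cellOf h w) : ‖v - w‖ ≤ h * Real.sqrt d := by
  have hco : ∀ i, |v i - w i| ≤ h := by
    intro i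
    have h1 : ⌊v i / h⌋ = ⌊w i / h⌋ := congrFun hvw i
    have h2 := Int.floor_le (v i / h)
    have h3 := Int.lt_floor_add_one (v i / h)
    have h4 := Int.floor_le (w i / h)
    have h5 := Int.lt_floor_add_one (w i / h)
    rw [h1] at h2 h3
    have h6 : |v i / h - w i / h| ≤ 1 := by
      rw [abs_le]
      constructor <;> linarith
    have h7 : v i - w i = (v i / h - w i / h) * h := by
      field_simp
    rw [h7, abs_mul, abs_of_pos hh]
    nlinarith [abs_nonneg (v i / h - w i / h)]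
  rw [EuclideanSpace.norm_eq]
  have h8 : ∑ i, ‖(v - w) i‖ ^ 2 ≤ (d : ℝ) * h ^ 2 := by
    calc ∑ i, ‖(v - w) i‖ ^ 2 ≤ ∑ _i : Fin d, h ^ 2 := by
          refine Finset.sum_le_sum fun i _ => ?_
          have : ‖(v - w) i‖ = |v i - w i| := by
            simp [Real.norm_eq_abs]
          rw [this]
          have h9 := hco i
          have h10 := abs_nonneg (v i - w i)
          gcongr
      _ = (d : ℝ) * h ^ 2 := by simp
  calc Real.sqrt (∑ i, ‖(v - w) i‖ ^ 2) ≤ Real.sqrt ((d : ℝ) * h ^ 2) := Real.sqrt_le_sqrt h8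
    _ = h * Real.sqrt d := by
        rw [Real.sqrt_mul (by positivity), Real.sqrt_sq hh.le, mul_comm]

theorem cell_range {d : ℕ} {h : ℝ} (hh : 0 < h) (ρ : ℝ) (hρ : 0 ≤ ρ) :
    ∃ K : Finset (Fin d → ℤ), K.card ≤ (2 * ⌈ρ / h⌉₊ + 3) ^ d ∧
      ∀ v : EuclideanSpace ℝ (Fin d), ‖v‖ ≤ ρ → cellOf h v ∈ K := by
  set n : ℕ := ⌈ρ / h⌉₊ with hn
  refine ⟨Fintype.piFinset (fun _ : Fin d => Finset.Icc (-(n : ℤ) - 1) ((n : ℤ) + 1)), ?_, ?_⟩
  · rw [Fintype.card_piFinset]
    simp only [Finset.prod_const, Int.card_Icc, Finset.card_univ, Fintype.card_fin]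
    apply le_of_eq
    congr 1
    omega
  · intro v hv
    rw [Fintype.mem_piFinset]
    intro i
    have h1 : |v i| ≤ ρ := by
      have := PiLp.norm_apply_le v i
      simp only [Real.norm_eq_abs] at this
      linarith
    have h2 : ρ / h ≤ n := Nat.le_ceil _
    have h3 : |v i / h| ≤ n := by
      rw [abs_div, abs_of_pos hh]
      exact le_trans (by gcongr) h2
    have h4 := (abs_le.mp h3).1
    have h5 := (abs_le.mp h3).2
    rw [Finset.mem_Icc]
    unfold cellOf
    constructor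
    · rw [Int.le_floor]
      push_cast
      linarith
    · have := Int.floor_le (v i / h)
      have h6 : ((⌊v i / h⌋ : ℤ) : ℝ) ≤ (n : ℝ) + 1 := by linarith
      exact_mod_cast h6

end Vale.Agent.Lib.P262.St
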