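import Vale.Agent.Lib.P262.St.Order

/-!
Preparing a class of nearly equal vectors: centroid and ordering of the noise.
-/

namespace Vale.Agent.Lib.P262.St

variable {E : Type*} [NormedAddCommGroup E] [NormedSpace ℝ E]

lemma norm_sum_map_le' {α : Type*} (f : α → E) (a : ℝ) (l : List α) (hl : ∀ x ∈ l, ‖f x‖ ≤ a) :
    ‖(l.map f).sum‖ ≤ l.length * a := by
  induction l with
  | nil => simp
  | cons x l ih =>
    simp only [List.map_cons, List.sum_cons, List.length_cons]
    push_cast
    have h1 := hl x (by simp)
    have h2 := ih (fun j hj => hl j (by simp [hj]))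
    calc ‖f x + (l.map f).sum‖ ≤ ‖f x‖ + ‖(l.map f).sum‖ := norm_add_le _ _
      _ ≤ _ := by linarith

lemma sum_map_add_const (c : E) (l : List E) :
    (l.map (fun v => v + c)).sum = l.sum + (l.length : ℝ) • c := by
  induction l with
  | nil => simp
  | cons x l ih =>
    simp only [List.map_cons, List.sum_cons, ih, List.length_cons]
    push_cast
    rw [add_smul, one_smul]
    abel

lemma sum_map_sub_const' (c : E) (l : List E) :
    (l.map (fun v => v - c)).sum = l.sum - (l.length : ℝ) • c := by
  induction l with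
  | nil => simp
  | cons x l ih =>
    simp only [List.map_cons, List.sum_cons, ih, List.length_cons]
    push_cast
    rw [add_smul, one_smul]
    abel

/-- If a zero-sum family has small diameter, then it consists of small vectors. -/
lemma small_of_diam (l : List E) (hs : l.sum = 0) (ε : ℝ) (v : E) (hv : v ∈ l)
    (hd : ∀ w ∈ l, ‖v - w‖ ≤ ε) : ‖v‖ ≤ ε := by
  have h1 := norm_sum_map_le' (fun w => v - w) ε l hd
  have h2 : (l.map (fun w => v - w)).sum = (l.length : ℝ) • v := by
    have h3 : ∀ l' : List E, (l'.map (fun w => v - w)).sum = (l'.length : ℝ) • v - l'.sum := by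
      intro l'
      induction l' with
      | nil => simp
      | cons x l' ih =>
        simp only [List.map_cons, List.sum_cons, ih, List.length_cons]
        push_cast
        rw [add_smul, one_smul]
        abel
    rw [h3, hs, sub_zero]
  rw [h2, norm_smul, Real.norm_eq_abs, abs_of_nonneg (by positivity)] at h1
  have hpos : (0 : ℝ) < l.length := by
    have : 0 < l.length := List.length_pos_of_mem hv
    exact_mod_cast this
  exact le_of_mul_le_mul_left h1 hpos

/-- Centroid and ordered class. -/
lemma class_prep (L : List E) (ε B : ℝ) (hnorm : ∀ v ∈ L, ‖v‖ ≤ 1)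
    (hdiam : ∀ v ∈ L, ∀ w ∈ L, ‖v - w‖ ≤ ε)
    (IH : ∀ l' : List E, l'.length = L.length → (∀ v ∈ l', ‖v‖ ≤ ε) → l'.sum = 0 →
      ∃ l'' : List E, l''.Perm l' ∧ PrefixBd l'' (ε * B)) :
    ∃ (c : E) (L' : List E), L'.Perm L ∧ ‖c‖ ≤ 1 ∧ (L.length : ℝ) • c = L.sum ∧
      ∀ k, k ≤ L.length → ‖(L'.take k).sum - (k : ℝ) • c‖ ≤ ε * B := by
  set n := L.length with hn
  let c : E := (n : ℝ)⁻¹ • L.sum
  have hnc : (n : ℝ) • c = L.sum := by
    by_cases h0 : n = 0
    · have : L = [] := List.length_eq_zero_iff.1 h0
      simp [this, h0]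
    · have h0' : (n : ℝ) ≠ 0 := by exact_mod_cast h0
      simp only [c]
      rw [smul_smul, mul_inv_cancel₀ h0', one_smul]
  have hcn : ‖c‖ ≤ 1 := by
    by_cases h0 : n = 0
    · simp [c, h0]
    · have h0' : (0 : ℝ) < n := by exact_mod_cast Nat.pos_of_ne_zero h0
      simp only [c]
      rw [norm_smul, Real.norm_eq_abs, abs_of_pos (inv_pos.2 h0'), inv_mul_le_iff₀ h0', mul_one]
      have := norm_sum_map_le' (fun v : E => v) 1 L hnorm
      simpa using this
  have hnoise : ∀ v ∈ L, ‖v - c‖ ≤ ε := by
    intro v hv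
    have h0 : n ≠ 0 := by
      have : 0 < L.length := List.length_pos_of_mem hv
      omega
    have h0' : (0 : ℝ) < n := by exact_mod_cast Nat.pos_of_ne_zero h0
    have h1 := norm_sum_map_le' (fun w => v - w) ε L (fun w hw => hdiam v hv w hw)
    have h2 : (L.map (fun w => v - w)).sum = (n : ℝ) • v - L.sum := by
      have h3 : ∀ l' : List E, (l'.map (fun w => v - w)).sum = (l'.length : ℝ) • v - l'.sum := by
        intro l'
        induction l' with
        | nil => simp
        | cons x l' ih =>
          simp only [List.map_cons, List.sum_cons, ih, List.length_cons]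
          push_cast
          rw [add_smul, one_smul]
          abel
      rw [h3]
    rw [h2, ← hnc, ← smul_sub, norm_smul, Real.norm_eq_abs, abs_of_pos h0'] at h1
    exact le_of_mul_le_mul_left h1 h0'
  obtain ⟨N', hperm, hpre⟩ := IH (L.map (fun v => v - c)) (by simp [hn])
    (by
      intro v hv
      obtain ⟨w, hw, rfl⟩ := List.mem_map.1 hv
      exact hnoise w hw)
    (by rw [sum_map_sub_const', ← hn, hnc, sub_self])
  refine ⟨c, N'.map (fun v => v + c), ?_, hcn, hnc, ?_⟩
  · have h1 := hperm.map (fun v => v + c)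
    rw [List.map_map] at h1
    have h2 : (fun v => v + c) ∘ (fun v => v - c) = (id : E → E) := by
      funext v
      simp
    rw [h2, List.map_id] at h1
    exact h1
  · intro k hk
    have hlen : N'.length = n := by
      rw [hperm.length_eq]
      simp [hn]
    rw [← List.map_take, sum_map_add_const]
    have h1 : (N'.take k).length = k := by
      rw [List.length_take, hlen]
      omega
    rw [h1, add_sub_cancel_right]
    exact hpre k

/-- Segment of a class order. -/
lemma segment_bound (L : List E) (c : E) (δ : ℝ)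
    (hG : ∀ k, k ≤ L.length → ‖(L.take k).sum - (k : ℝ) • c‖ ≤ δ) (a b : ℕ) (hab : a + b ≤ L.length)
    (m : ℕ) (hm : m ≤ b) : ‖(((L.drop a).take b).take m).sum - (m : ℝ) • c‖ ≤ 2 * δ := by
  rw [List.take_take, min_eq_left hm]
  have h1 : (L.take (a + m)).sum = (L.take a).sum + ((L.drop a).take m).sum := by
    rw [List.take_add, List.sum_append]
  have h2 : ((L.drop a).take m).sum - (m : ℝ) • c
      = ((L.take (a + m)).sum - ((a + m : ℕ) : ℝ) • c) - ((L.take a).sum - (a : ℝ) • c) := by
    rw [h1]
    push_cast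
    rw [add_smul]
    abel
  rw [h2]
  calc _ ≤ ‖(L.take (a + m)).sum - ((a + m : ℕ) : ℝ) • c‖ + ‖(L.take a).sum - (a : ℝ) • c‖ :=
        norm_sub_le _ _
    _ ≤ δ + δ := add_le_add (hG _ (by omega)) (hG _ (by omega))
    _ = 2 * δ := by ring

end Vale.Agent.Lib.P262.St
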