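import Vale.Agent.Lib.P262.St.Defs

/-!
Caratheodory for cones: a nonnegative relation is a sum of at most `|K|` nonnegative relations
with supports of size at most `d + 1` (module M8).
-/

namespace Vale.Agent.Lib.P262.St

variable {d : ℕ} {J : Type*} [DecidableEq J]

/-- A nonzero nonnegative relation contains a nonzero nonnegative relation of small support. -/
theorem exists_small_relation (K : Finset J) (c : J → EuclideanSpace ℝ (Fin d)) (n : J → ℝ)
    (hn : ∀ j ∈ K, 0 ≤ n j) (hz : ∑ j ∈ K, n j • c j = 0) (hne : ∃ j ∈ K, n j ≠ 0) :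
    ∃ x : J → ℝ, (∀ j ∈ K, 0 ≤ x j) ∧ (∀ j ∈ K, n j = 0 → x j = 0) ∧ (∃ j ∈ K, x j ≠ 0) ∧
      ∑ j ∈ K, x j • c j = 0 ∧ (K.filter (fun j => x j ≠ 0)).card ≤ d + 1 := by
  classical
  -- minimal support among admissible relations
  let Adm : ℕ → Prop := fun m => ∃ x : J → ℝ, (∀ j ∈ K, 0 ≤ x j) ∧ (∀ j ∈ K, n j = 0 → x j = 0) ∧
      (∃ j ∈ K, x j ≠ 0) ∧ ∑ j ∈ K, x j • c j = 0 ∧ (K.filter (fun j => x j ≠ 0)).card = m
  have hex : ∃ m, Adm m := ⟨_, n, hn, fun _ _ h => h, hne, hz, rfl⟩
  obtain ⟨x, hx0, hxn, hxne, hxz, hxm⟩ := Nat.find_spec hex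
  have hmin : ∀ m, m < Nat.find hex → ¬ Adm m := fun m hm => Nat.find_min hex hm
  refine ⟨x, hx0, hxn, hxne, hxz, ?_⟩
  by_contra hbig
  push Not at hbig
  set T := K.filter (fun j => x j ≠ 0) with hT
  obtain ⟨j₀, hj₀K, hj₀⟩ := hxne
  have hj₀T : j₀ ∈ T := Finset.mem_filter.mpr ⟨hj₀K, hj₀⟩
  set T' := T.erase j₀ with hT'
  have hcard' : d + 1 ≤ T'.card := by
    rw [hT', Finset.card_erase_of_mem hj₀T]
    omega
  -- a linear relation on `T'`
  have hdep : ¬ LinearIndepOn ℝ c (T' : Set J) := by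
    intro hli
    have h1 : Fintype.card (T' : Set J) ≤ Module.finrank ℝ (EuclideanSpace ℝ (Fin d)) :=
      LinearIndependent.fintype_card_le_finrank hli
    simp only [finrank_euclideanSpace, Fintype.card_fin, Finset.coe_sort_coe, Fintype.card_coe] at h1
    omega
  rw [linearIndepOn_finset_iff] at hdep
  push Not at hdep
  obtain ⟨w₀, hw₀, i₀, hi₀, hi₀ne⟩ := hdep
  -- normalise: extend by zero off `T'`, some positive entry
  obtain ⟨w, hw, i₁, hi₁, hi₁pos⟩ : ∃ w : J → ℝ, ∑ j ∈ T', w j • c j = 0 ∧ ∃ i ∈ T', 0 < w i := by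
    rcases lt_or_gt_of_ne hi₀ne with h | h
    · refine ⟨fun j => - w₀ j, ?_, i₀, hi₀, by simpa using h⟩
      simp only [neg_smul, Finset.sum_neg_distrib, hw₀, neg_zero]
    · exact ⟨w₀, hw₀, i₀, hi₀, h⟩
  -- the ratio test
  set P := T'.filter (fun j => 0 < w j) with hP
  have hPne : P.Nonempty := ⟨i₁, Finset.mem_filter.mpr ⟨hi₁, hi₁pos⟩⟩
  obtain ⟨i₂, hi₂P, hi₂min⟩ := Finset.exists_min_image P (fun j => x j / w j) hPne
  have hi₂T' : i₂ ∈ T' := (Finset.mem_filter.mp hi₂P).1
  have hi₂pos : 0 < w i₂ := (Finset.mem_filter.mp hi₂P).2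
  have hT'T : T' ⊆ T := Finset.erase_subset _ _
  have hTK : T ⊆ K := Finset.filter_subset _ _
  set t := x i₂ / w i₂ with ht
  have htnn : 0 ≤ t := div_nonneg (hx0 _ (hTK (hT'T hi₂T'))) hi₂pos.le
  -- the new relation
  set x' : J → ℝ := fun j => if j ∈ T' then x j - t * w j else x j with hx'
  have hx'nn : ∀ j ∈ K, 0 ≤ x' j := by
    intro j hj
    simp only [hx']
    split_ifs with h
    · by_cases hpos : 0 < w j
      · have h1 := hi₂min j (Finset.mem_filter.mpr ⟨h, hpos⟩)
        have h2 : t * w j ≤ x j := by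
          rwa [le_div_iff₀ hpos] at h1
        linarith
      · push Not at hpos
        have h3 := hx0 j hj
        nlinarith
    · exact hx0 j hj
  have hx'zero : ∀ j ∈ K, x j = 0 → x' j = 0 := by
    intro j hj hxj
    simp only [hx']
    split_ifs with h
    · exact absurd hxj (Finset.mem_filter.mp (hT'T h)).2
    · exact hxj
  have hx'j₀ : x' j₀ ≠ 0 := by
    have : j₀ ∉ T' := Finset.notMem_erase _ _
    simp only [hx', this, if_false]
    exact hj₀
  have hx'i₂ : x' i₂ = 0 := by
    simp only [hx', hi₂T', if_true, ht]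
    field_simp
    ring
  have hx'rel : ∑ j ∈ K, x' j • c j = 0 := by
    have h1 : ∀ j ∈ K, x' j • c j = x j • c j - (if j ∈ T' then t • (w j • c j) else 0) := by
      intro j _
      simp only [hx']
      split_ifs with h
      · rw [sub_smul, mul_smul]
      · simp
    rw [Finset.sum_congr rfl h1, Finset.sum_sub_distrib, hxz, zero_sub, neg_eq_zero]
    rw [← Finset.sum_filter, show K.filter (fun j => j ∈ T') = T' from ?_, ← Finset.smul_sum, hw,
      smul_zero]
    ext j
    simp only [Finset.mem_filter]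
    exact ⟨fun h => h.2, fun h => ⟨hTK (hT'T h), h⟩⟩
  -- strictly smaller support
  have hsub : K.filter (fun j => x' j ≠ 0) ⊂ T := by
    rw [Finset.ssubset_iff_of_subset]
    · refine ⟨i₂, hT'T hi₂T', ?_⟩
      simp [hx'i₂]
    · intro j hj
      have hj1 := Finset.mem_filter.mp hj
      refine Finset.mem_filter.mpr ⟨hj1.1, fun h => hj1.2 (hx'zero j hj1.1 h)⟩
  have hlt := Finset.card_lt_card hsub
  rw [hxm] at hlt
  refine hmin _ hlt ⟨x', hx'nn, fun j hj h => hx'zero j hj (hxn j hj h), ⟨j₀, hj₀K, hx'j₀⟩, hx'rel, rfl⟩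

/-- M8 -/
theorem cone_decomp {d : ℕ} {J : Type*} [DecidableEq J] (K : Finset J)
    (c : J → EuclideanSpace ℝ (Fin d)) (n : J → ℝ) (hn : ∀ j ∈ K, 0 ≤ n j)
    (hz : ∑ j ∈ K, n j • c j = 0) :
    ∃ (R : ℕ) (x : Fin R → J → ℝ), R ≤ K.card ∧ (∀ r, ∀ j ∈ K, 0 ≤ x r j) ∧
      (∀ j ∈ K, ∑ r, x r j = n j) ∧ (∀ r, ∑ j ∈ K, x r j • c j = 0) ∧
      (∀ r, (K.filter (fun j => x r j ≠ 0)).card ≤ d + 1) := by
  classical
  suffices hmain : ∀ (m : ℕ) (n : J → ℝ), (∀ j ∈ K, 0 ≤ n j) → ∑ j ∈ K, n j • c j = 0 →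
      (K.filter (fun j => n j ≠ 0)).card ≤ m →
      ∃ (R : ℕ) (x : Fin R → J → ℝ), R ≤ m ∧ (∀ r, ∀ j ∈ K, 0 ≤ x r j) ∧
        (∀ j ∈ K, ∑ r, x r j = n j) ∧ (∀ r, ∑ j ∈ K, x r j • c j = 0) ∧
        (∀ r, (K.filter (fun j => x r j ≠ 0)).card ≤ d + 1) from
    hmain K.card n hn hz (Finset.card_filter_le _ _)
  intro m
  induction m with
  | zero =>
    intro n _ _ hcard
    refine ⟨0, fun r => r.elim0, le_rfl, fun r => r.elim0, ?_, fun r => r.elim0, fun r => r.elim0⟩
    intro j hj
    have h1 : K.filter (fun j => n j ≠ 0) = ∅ := Finset.card_eq_zero.mp (Nat.le_zero.mp hcard)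
    have h2 : ¬ (n j ≠ 0) := by
      intro h
      have : j ∈ K.filter (fun j => n j ≠ 0) := Finset.mem_filter.mpr ⟨hj, h⟩
      rw [h1] at this
      simp at this
    simp only [Finset.univ_eq_empty, Finset.sum_empty]
    exact (not_not.mp h2).symm
  | succ m ih =>
    intro n hn hz hcard
    by_cases hne : ∃ j ∈ K, n j ≠ 0
    · obtain ⟨x, hx0, hxn, hxne, hxz, hxs⟩ := exists_small_relation K c n hn hz hne
      set P := K.filter (fun j => x j ≠ 0) with hP
      have hPne : P.Nonempty := by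
        obtain ⟨j, hj, hj'⟩ := hxne
        exact ⟨j, Finset.mem_filter.mpr ⟨hj, hj'⟩⟩
      obtain ⟨i, hiP, himin⟩ := Finset.exists_min_image P (fun j => n j / x j) hPne
      have hiK : i ∈ K := (Finset.mem_filter.mp hiP).1
      have hxi : x i ≠ 0 := (Finset.mem_filter.mp hiP).2
      have hxipos : 0 < x i := lt_of_le_of_ne (hx0 i hiK) hxi.symm
      set t := n i / x i with ht
      have htnn : 0 ≤ t := div_nonneg (hn i hiK) hxipos.le
      have htpos : 0 < t := by
        refine div_pos (lt_of_le_of_ne (hn i hiK) ?_) hxipos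
        intro h
        exact hxi (hxn i hiK h.symm)
      set n' : J → ℝ := fun j => n j - t * x j with hn'
      have hn'nn : ∀ j ∈ K, 0 ≤ n' j := by
        intro j hj
        simp only [hn']
        by_cases hxj : x j = 0
        · simp [hxj, hn j hj]
        · have hpos : 0 < x j := lt_of_le_of_ne (hx0 j hj) (Ne.symm hxj)
          have h1 := himin j (Finset.mem_filter.mpr ⟨hj, hxj⟩)
          have h2 : t * x j ≤ n j := by
            rwa [le_div_iff₀ hpos] at h1
          linarith
      have hn'z : ∑ j ∈ K, n' j • c j = 0 := by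
        have h1 : ∀ j ∈ K, n' j • c j = n j • c j - t • (x j • c j) := by
          intro j _
          simp only [hn']
          rw [sub_smul, mul_smul]
        rw [Finset.sum_congr rfl h1, Finset.sum_sub_distrib, hz, ← Finset.smul_sum, hxz, smul_zero,
          sub_zero]
      have hsub : K.filter (fun j => n' j ≠ 0) ⊂ K.filter (fun j => n j ≠ 0) := by
        rw [Finset.ssubset_iff_of_subset]
        · refine ⟨i, Finset.mem_filter.mpr ⟨hiK, fun h => hxi (hxn i hiK h)⟩, ?_⟩
          simp only [Finset.mem_filter, not_and, not_not]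
          intro _
          simp only [hn', ht]
          field_simp
          ring
        · intro j hj
          have hj1 := Finset.mem_filter.mp hj
          refine Finset.mem_filter.mpr ⟨hj1.1, fun h => hj1.2 ?_⟩
          simp only [hn', h, hxn j hj1.1 h]
          ring
      have hlt := Finset.card_lt_card hsub
      obtain ⟨R, x', hR, hx'0, hx's, hx'z, hx'c⟩ := ih n' hn'nn hn'z (by omega)
      refine ⟨R + 1, Fin.cons (fun j => t * x j) x', by omega, ?_, ?_, ?_, ?_⟩
      · intro r j hj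
        refine Fin.cases ?_ (fun r' => ?_) r
        · simpa using mul_nonneg htnn (hx0 j hj)
        · simpa using hx'0 r' j hj
      · intro j hj
        rw [Fin.sum_univ_succ]
        simp only [Fin.cons_zero, Fin.cons_succ]
        rw [hx's j hj]
        simp only [hn']
        ring
      · intro r
        refine Fin.cases ?_ (fun r' => ?_) r
        · simp only [Fin.cons_zero, mul_smul]
          rw [← Finset.smul_sum, hxz, smul_zero]
        · simpa using hx'z r'
      · intro r
        refine Fin.cases ?_ (fun r' => ?_) r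
        · simp only [Fin.cons_zero]
          have : K.filter (fun j => t * x j ≠ 0) = K.filter (fun j => x j ≠ 0) := by
            ext j
            simp [htpos.ne']
          rw [this]
          exact hxs
        · simpa using hx'c r'
    · push Not at hne
      refine ⟨0, fun r => r.elim0, by omega, fun r => r.elim0, ?_, fun r => r.elim0, fun r => r.elim0⟩
      intro j hj
      simp [hne j hj]

end Vale.Agent.Lib.P262.St
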