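import Vale.Agent.Lib.P262.St.Defs

/-!
The number of pieces in the top level of the main induction.
-/

namespace Vale.Agent.Lib.P262.St

/-- numeric parameter of the main induction -/
noncomputable def topCount (C B : ℝ) (d : ℕ) : ℕ :=
  (2 * ⌈Real.sqrt d / (1 / (2 * ((d : ℝ) + 1) * B))⌉₊ + 3) ^ d *
    (2 * (2 * ⌈(Tb C (d + 1) + d + 3) / (1 / Real.sqrt d)⌉₊ + 3) ^ d + (d + 1))

end Vale.Agent.Lib.P262.St
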