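import Vale.Agent.Lib.P262.St.Cells

/-!
Cutting a path that follows a line into few pieces with small sum, by loop erasure on grid cells.
-/

namespace Vale.Agent.Lib.P262.St

/-- A bound for the excursion between two returns to a cell. -/
lemma excursion_bound {d : ℕ} (x y z s : EuclideanSpace ℝ (Fin d)) (t₀ t₁ t₂ e : ℝ)
    (h01 : t₀ ≤ t₁) (h12 : t₁ ≤ t₂) (hx : ‖x - t₀ • s‖ ≤ e) (hy : ‖y - t₁ • s‖ ≤ e)
    (hz : ‖z - t₂ • s‖ ≤ e) (hxz : ‖z - x‖ ≤ 1) : ‖y - x‖ ≤ 1 + 4 * e := by
  have h1 : ‖(t₂ - t₀) • s‖ ≤ 1 + 2 * e := by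
    have : (t₂ - t₀) • s = (z - x) - (z - t₂ • s) + (x - t₀ • s) := by
      rw [sub_smul]
      abel
    rw [this]
    calc ‖(z - x) - (z - t₂ • s) + (x - t₀ • s)‖
        ≤ ‖z - x‖ + ‖z - t₂ • s‖ + ‖x - t₀ • s‖ :=
          (norm_add_le _ _).trans (add_le_add_left (norm_sub_le _ _) _)
      _ ≤ 1 + 2 * e := by linarith
  have h2 : ‖(t₁ - t₀) • s‖ ≤ ‖(t₂ - t₀) • s‖ := by
    rw [norm_smul, norm_smul, Real.norm_eq_abs, Real.norm_eq_abs,
      abs_of_nonneg (by linarith), abs_of_nonneg (by linarith)]
    exact mul_le_mul_of_nonneg_right (by linarith) (norm_nonneg _)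
  have h3 : y - x = (y - t₁ • s) - (x - t₀ • s) + (t₁ - t₀) • s := by
    rw [sub_smul]
    abel
  rw [h3]
  calc ‖(y - t₁ • s) - (x - t₀ • s) + (t₁ - t₀) • s‖
      ≤ ‖y - t₁ • s‖ + ‖x - t₀ • s‖ + ‖(t₁ - t₀) • s‖ :=
        (norm_add_le _ _).trans (add_le_add_left (norm_sub_le _ _) _)
    _ ≤ 1 + 4 * e := by linarith

lemma sum_take_succ_of_lt {A : Type*} [AddCommMonoid A] (a : List A) (l : ℕ) (hl : l < a.length) :
    (a.take (l + 1)).sum = (a.take l).sum + a[l] := by
  rw [List.take_succ_eq_append_getElem hl, List.sum_append]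
  simp

/-- General form of the cutting lemma, with a base point. -/
theorem cut_path_aux {d : ℕ} (hd : 1 ≤ d) (s : EuclideanSpace ℝ (Fin d)) (e : ℝ) (he : 0 ≤ e)
    (n : ℕ) :
    ∀ (a : List (EuclideanSpace ℝ (Fin d))) (b : EuclideanSpace ℝ (Fin d)) (t : ℕ → ℝ)
      (K : Finset (Fin d → ℤ)), K.card ≤ n → (∀ v ∈ a, ‖v‖ ≤ 1) → Monotone t →
      (∀ k, k ≤ a.length → ‖b + (a.take k).sum - t k • s‖ ≤ e) →
      (∀ k, k ≤ a.length → cellOf (1 / Real.sqrt d) (b + (a.take k).sum) ∈ K) →
      ∃ P : List (List (EuclideanSpace ℝ (Fin d))), P.flatten = a ∧ P.length ≤ 2 * K.card ∧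
        ∀ q ∈ P, ‖q.sum‖ ≤ 1 ∧ PrefixBd q (1 + 4 * e) := by
  classical
  have hsqrt : (0 : ℝ) < Real.sqrt d := Real.sqrt_pos.2 (by exact_mod_cast hd)
  have hh : (0 : ℝ) < 1 / Real.sqrt d := by positivity
  have hcell : ∀ {v w : EuclideanSpace ℝ (Fin d)},
      cellOf (1 / Real.sqrt d) v = cellOf (1 / Real.sqrt d) w → ‖v - w‖ ≤ 1 := by
    intro v w hvw
    have := cell_dist hh hvw
    rwa [one_div, inv_mul_cancel₀ hsqrt.ne'] at this
  induction n with
  | zero =>
    intro a b t K hK ha ht hpos hKm
    have hK0 : K = ∅ := by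
      apply Finset.card_eq_zero.1
      omega
    have := hKm 0 (by omega)
    simp [hK0] at this
  | succ n ih =>
    intro a b t K hK ha ht hpos hKm
    by_cases ha0 : a = []
    · subst ha0
      exact ⟨[], rfl, by simp, by simp⟩
    let pos : ℕ → EuclideanSpace ℝ (Fin d) := fun k => b + (a.take k).sum
    have hpos0 : pos 0 = b := by simp [pos]
    let C₀ := cellOf (1 / Real.sqrt d) (pos 0)
    have hC₀K : C₀ ∈ K := hKm 0 (by omega)
    -- last return to the first cell
    let F := (Finset.range (a.length + 1)).filter (fun k => cellOf (1 / Real.sqrt d) (pos k) = C₀)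
    have hFne : F.Nonempty := ⟨0, Finset.mem_filter.2 ⟨by simp, rfl⟩⟩
    let l := F.max' hFne
    have hlF : l ∈ F := Finset.max'_mem F hFne
    have hl1 := Finset.mem_filter.1 hlF
    have hlen : l ≤ a.length := by
      have := Finset.mem_range.1 hl1.1
      omega
    have hlmax : ∀ k, k ≤ a.length → cellOf (1 / Real.sqrt d) (pos k) = C₀ → k ≤ l := by
      intro k hk hkc
      exact Finset.le_max' F k (Finset.mem_filter.2 ⟨Finset.mem_range.2 (by omega), hkc⟩)
    have hsum1 : ∀ k, k ≤ l → ((a.take l).take k).sum = pos k - pos 0 := by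
      intro k hk
      rw [List.take_take, min_eq_left hk, hpos0]
      simp only [pos]
      abel
    have hpiece1 : ‖(a.take l).sum‖ ≤ 1 ∧ PrefixBd (a.take l) (1 + 4 * e) := by
      have h1 : ‖pos l - pos 0‖ ≤ 1 := hcell hl1.2
      have h2 : (a.take l).sum = pos l - pos 0 := by
        have := hsum1 l le_rfl
        rwa [List.take_take, min_self] at this
      refine ⟨by rw [h2]; exact h1, ?_⟩
      intro k
      have hk' : ((a.take l).take k).sum = ((a.take l).take (min k l)).sum := by
        rw [List.take_take, List.take_take]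
        congr 2
        omega
      rw [hk', hsum1 _ (min_le_right _ _)]
      exact excursion_bound (pos 0) (pos (min k l)) (pos l) s (t 0) (t (min k l)) (t l) e
        (ht (Nat.zero_le _)) (ht (min_le_right _ _)) (hpos 0 (by omega))
        (hpos _ (by omega)) (hpos l hlen) h1
    rcases Nat.lt_or_ge l a.length with hlt | hge
    · -- continue after the next item
      let a' := a.drop (l + 1)
      let b' := pos (l + 1)
      let t' : ℕ → ℝ := fun k => t (l + 1 + k)
      have hlen' : a'.length = a.length - (l + 1) := by simp [a']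
      have hpos' : ∀ k, b' + (a'.take k).sum = pos (l + 1 + k) := by
        intro k
        simp only [b', a', pos]
        have h : a.take (l + 1 + k) = a.take (l + 1) ++ (a.drop (l + 1)).take k := List.take_add
        rw [h, List.sum_append, add_assoc]
      obtain ⟨P', hP1, hP2, hP3⟩ := ih a' b' t' (K.erase C₀)
        (by rw [Finset.card_erase_of_mem hC₀K]; omega)
        (fun v hv => ha v (List.mem_of_mem_drop hv))
        (fun i j hij => ht (by omega))
        (by
          intro k hk
          rw [hpos']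
          exact hpos _ (by omega))
        (by
          intro k hk
          rw [hpos', Finset.mem_erase]
          refine ⟨?_, hKm _ (by omega)⟩
          intro hc
          have := hlmax (l + 1 + k) (by omega) hc
          omega)
      refine ⟨(a.take l) :: [a[l]] :: P', ?_, ?_, ?_⟩
      · rw [List.flatten_cons, List.flatten_cons, hP1]
        simp only [a']
        rw [List.singleton_append]
        have : a[l] :: a.drop (l + 1) = a.drop l := (List.drop_eq_getElem_cons hlt).symm
        rw [this, List.take_append_drop]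
      · rw [Finset.card_erase_of_mem hC₀K] at hP2
        have : 1 ≤ K.card := Finset.card_pos.2 ⟨_, hC₀K⟩
        simp only [List.length_cons]
        omega
      · intro q hq
        rcases List.mem_cons.1 hq with h | h
        · rw [h]
          exact hpiece1
        rcases List.mem_cons.1 h with h | h
        · rw [h]
          have hnorm : ‖a[l]‖ ≤ 1 := ha _ (List.getElem_mem hlt)
          refine ⟨by simpa using hnorm, ?_⟩
          intro k
          cases k with
          | zero =>
            simp only [List.take_zero, List.sum_nil, norm_zero]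
            linarith
          | succ k =>
            simp only [List.take_succ_cons, List.take_nil, List.sum_cons, List.sum_nil, add_zero]
            linarith
        · exact hP3 q h
    · -- the last return is the end
      have hlm : l = a.length := le_antisymm hlen hge
      refine ⟨[a], by simp, ?_, ?_⟩
      · have : 1 ≤ K.card := Finset.card_pos.2 ⟨_, hC₀K⟩
        simp only [List.length_cons, List.length_nil]
        omega
      · intro q hq
        rw [List.mem_singleton] at hq
        rw [hq]
        have : a.take l = a := by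
          rw [hlm, List.take_length]
        rw [this] at hpiece1
        exact hpiece1

/-- The cutting lemma. -/
theorem cut_path {d : ℕ} (hd : 1 ≤ d) (a : List (EuclideanSpace ℝ (Fin d))) (hnorm : ∀ v ∈ a, ‖v‖ ≤ 1)
    (s : EuclideanSpace ℝ (Fin d)) (t : ℕ → ℝ) (ht : Monotone t) (e : ℝ) (he : 0 ≤ e)
    (hpos : ∀ k, k ≤ a.length → ‖(a.take k).sum - t k • s‖ ≤ e)
    (K : Finset (Fin d → ℤ))
    (hK : ∀ k, k ≤ a.length → cellOf (1 / Real.sqrt d) (a.take k).sum ∈ K) :
    ∃ P : List (List (EuclideanSpace ℝ (Fin d))), P.flatten = a ∧ P.length ≤ 2 * K.card ∧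
      ∀ q ∈ P, ‖q.sum‖ ≤ 1 ∧ PrefixBd q (1 + 4 * e) :=
  cut_path_aux hd s e he K.card a 0 t K le_rfl hnorm ht (by simpa using hpos) (by simpa using hK)

end Vale.Agent.Lib.P262.St
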