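import Vale.Agent.Lib.P262.St.Count

/-!
The numeric inequality closing the main induction.
-/

namespace Vale.Agent.Lib.P262.St

lemma one_le_log_add_two {x : ℝ} (hx : 1 ≤ x) : 1 ≤ Real.log (x + 2) := by
  rw [Real.le_log_iff_exp_le (by linarith)]
  have := Real.exp_one_lt_d9
  linarith

lemma log_648_le : Real.log 648 ≤ 7 := by
  rw [Real.log_le_iff_le_exp (by norm_num)]
  have h : (2.7 : ℝ) ≤ Real.exp 1 := by
    have := Real.exp_one_gt_d9
    linarith
  have h7 : Real.exp 7 = Real.exp 1 ^ 7 := by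
    rw [← Real.exp_nat_mul]
    norm_num
  rw [h7]
  calc (648 : ℝ) ≤ 2.7 ^ 7 := by norm_num
    _ ≤ Real.exp 1 ^ 7 := pow_le_pow_left₀ (by norm_num) h 7

lemma Tb_nonneg {C : ℝ} (hC : 0 ≤ C) (n : ℕ) : 0 ≤ Tb C n := by
  unfold Tb
  have h1 : 0 ≤ Real.sqrt (Real.log (648 * (n : ℝ) ^ 2)) := Real.sqrt_nonneg _
  have h2 : 0 ≤ Real.sqrt (n : ℝ) := Real.sqrt_nonneg _
  positivity

lemma Tb_le {C : ℝ} (hC : 0 ≤ C) {d : ℕ} (hd : 1 ≤ d) :
    Tb C (d + 1) ≤ (15 + 32 * C) * Real.sqrt (d * Real.log (d + 2)) := by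
  have hx : (1 : ℝ) ≤ d := by exact_mod_cast hd
  set x : ℝ := (d : ℝ) with hxdef
  set l : ℝ := Real.log (x + 2) with hl
  have hl1 : 1 ≤ l := one_le_log_add_two hx
  have hsx : 1 ≤ Real.sqrt x := by
    rw [Real.one_le_sqrt]; exact hx
  have hsl : 1 ≤ Real.sqrt l := by
    rw [Real.one_le_sqrt]; exact hl1
  have hs : Real.sqrt (x * l) = Real.sqrt x * Real.sqrt l := Real.sqrt_mul (by linarith) l
  have h1 : Real.sqrt (x + 1) ≤ 2 * Real.sqrt x := by
    have : x + 1 ≤ 2 ^ 2 * x := by nlinarith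
    calc Real.sqrt (x + 1) ≤ Real.sqrt (2 ^ 2 * x) := Real.sqrt_le_sqrt this
      _ = 2 * Real.sqrt x := by
        rw [Real.sqrt_mul (by norm_num), Real.sqrt_sq (by norm_num)]
  have hlogle : Real.log (648 * (x + 1) ^ 2) ≤ 3 ^ 2 * l := by
    rw [Real.log_mul (by norm_num) (by positivity), Real.log_pow]
    have h2 : Real.log (x + 1) ≤ l := Real.log_le_log (by linarith) (by linarith)
    have := log_648_le
    push_cast
    nlinarith
  have h3 : Real.sqrt (Real.log (648 * (x + 1) ^ 2)) ≤ 3 * Real.sqrt l := by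
    calc _ ≤ Real.sqrt (3 ^ 2 * l) := Real.sqrt_le_sqrt hlogle
      _ = 3 * Real.sqrt l := by
        rw [Real.sqrt_mul (by norm_num), Real.sqrt_sq (by norm_num)]
  unfold Tb
  push_cast
  rw [hs]
  set a := Real.sqrt x
  set b := Real.sqrt l
  have hq : 7 + 4 * C * (1 + Real.sqrt (Real.log (648 * (x + 1) ^ 2))) ≤ (7 + 16 * C) * b := by
    have : 4 * C * (1 + Real.sqrt (Real.log (648 * (x + 1) ^ 2))) ≤ 4 * C * (b + 3 * b) := by
      apply mul_le_mul_of_nonneg_left _ (by positivity)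
      linarith
    nlinarith
  have hq0 : 0 ≤ 7 + 4 * C * (1 + Real.sqrt (Real.log (648 * (x + 1) ^ 2))) := by
    have := Real.sqrt_nonneg (Real.log (648 * (x + 1) ^ 2))
    positivity
  have hab : 1 ≤ a * b := by nlinarith
  calc Real.sqrt (x + 1) * (7 + 4 * C * (1 + Real.sqrt (Real.log (648 * (x + 1) ^ 2)))) + 1
      ≤ (2 * a) * ((7 + 16 * C) * b) + 1 := by
        have := mul_le_mul h1 hq hq0 (by positivity)
        linarith
    _ ≤ (15 + 32 * C) * (a * b) := by nlinarith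

lemma succ_le_three_pow (d : ℕ) : d + 1 ≤ 3 ^ d := by
  induction d with
  | zero => simp
  | succ k ih => rw [pow_succ]; omega

/-- The logarithm of the count. -/
lemma log_top_le {C B K c : ℝ} {d : ℕ} (hC : 0 ≤ C) (hd : 1 ≤ d) (hK : 1 ≤ K) (hc : 1 ≤ c)
    (hB0 : 0 ≤ B) (hB : B ≤ K * (d + 2))
    (hT : Tb C (d + 1) + d + 3 ≤ c * (d + 2)) :
    Real.log ((topCount C B d : ℝ) + 1) ≤
      d * (Real.log (252 * K * c) + 5 * Real.log (d + 2)) := by
  have hx : (1 : ℝ) ≤ d := by exact_mod_cast hd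
  set x : ℝ := (d : ℝ) with hxdef
  set w : ℝ := x + 2 with hw
  have hw1 : 1 ≤ w := by linarith
  have hT0 : 0 ≤ Tb C (d + 1) := Tb_nonneg hC _
  have hsx0 : 0 < Real.sqrt x := Real.sqrt_pos.2 (by linarith)
  have hsxw : Real.sqrt x ≤ w := by
    have : Real.sqrt x ≤ x := by
      rw [Real.sqrt_le_left (by linarith)]
      nlinarith
    linarith
  -- first factor
  set n1 : ℕ := ⌈Real.sqrt x / (1 / (2 * (x + 1) * B))⌉₊ with hn1
  set n2 : ℕ := ⌈(Tb C (d + 1) + x + 3) / (1 / Real.sqrt x)⌉₊ with hn2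
  have e1 : Real.sqrt x / (1 / (2 * (x + 1) * B)) = Real.sqrt x * (2 * (x + 1) * B) := by
    rw [one_div, div_inv_eq_mul]
  have e2 : (Tb C (d + 1) + x + 3) / (1 / Real.sqrt x) = (Tb C (d + 1) + x + 3) * Real.sqrt x := by
    rw [one_div, div_inv_eq_mul]
  have hx1nn : 0 ≤ Real.sqrt x * (2 * (x + 1) * B) := by positivity
  have hn1le : (n1 : ℝ) ≤ Real.sqrt x * (2 * (x + 1) * B) + 1 := by
    rw [hn1, e1]
    exact (Nat.ceil_lt_add_one hx1nn).le
  have hx2nn : 0 ≤ (Tb C (d + 1) + x + 3) * Real.sqrt x := by positivity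
  have hn2le : (n2 : ℝ) ≤ (Tb C (d + 1) + x + 3) * Real.sqrt x + 1 := by
    rw [hn2, e2]
    exact (Nat.ceil_lt_add_one hx2nn).le
  have hA1 : (2 * (n1 : ℝ) + 3) ≤ 9 * K * w ^ 3 := by
    have h1 : Real.sqrt x * (2 * (x + 1) * B) ≤ w * (2 * w * (K * w)) := by
      apply mul_le_mul hsxw _ (by positivity) (by linarith)
      apply mul_le_mul _ hB hB0 (by linarith)
      linarith
    have hw3 : 1 ≤ w ^ 3 := one_le_pow₀ hw1
    have hKw : w ^ 3 ≤ K * w ^ 3 := by nlinarith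
    nlinarith
  have hA2 : (2 * (n2 : ℝ) + 3) ≤ 7 * c * w ^ 2 := by
    have h1 : (Tb C (d + 1) + x + 3) * Real.sqrt x ≤ (c * w) * w :=
      mul_le_mul hT hsxw hsx0.le (by positivity)
    have hw2 : 1 ≤ w ^ 2 := one_le_pow₀ hw1
    have hcw : w ^ 2 ≤ c * w ^ 2 := by nlinarith
    nlinarith
  -- the count
  have hcount : ((topCount C B d : ℕ) : ℝ) + 1 ≤
      4 * ((2 * (n1 : ℝ) + 3) * (2 * (n2 : ℝ) + 3)) ^ d := by
    have hdef : topCount C B d = (2 * n1 + 3) ^ d * (2 * (2 * n2 + 3) ^ d + (d + 1)) := rfl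
    rw [hdef]
    push_cast
    set A1 : ℝ := 2 * (n1 : ℝ) + 3 with hA1def
    set A2 : ℝ := 2 * (n2 : ℝ) + 3 with hA2def
    have hA13 : 3 ≤ A1 := by
      have : (0 : ℝ) ≤ n1 := Nat.cast_nonneg _
      linarith
    have hA23 : 3 ≤ A2 := by
      have : (0 : ℝ) ≤ n2 := Nat.cast_nonneg _
      linarith
    have h3d : (d : ℝ) + 1 ≤ A2 ^ d := by
      have h1 : (d : ℝ) + 1 ≤ 3 ^ d := by
        have : d + 1 ≤ 3 ^ d := succ_le_three_pow d
        exact_mod_cast this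
      exact h1.trans (pow_le_pow_left₀ (by norm_num) hA23 d)
    have hP1 : 1 ≤ A1 ^ d := one_le_pow₀ (by linarith)
    have hP2 : 1 ≤ A2 ^ d := one_le_pow₀ (by linarith)
    rw [mul_pow]
    have hPP : 1 ≤ A1 ^ d * A2 ^ d := by nlinarith
    nlinarith
  -- logarithms
  set A1 : ℝ := 2 * (n1 : ℝ) + 3 with hA1def
  set A2 : ℝ := 2 * (n2 : ℝ) + 3 with hA2def
  have hA10 : 0 < A1 := by
    have : (0 : ℝ) ≤ n1 := Nat.cast_nonneg _
    positivity
  have hA20 : 0 < A2 := by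
    have : (0 : ℝ) ≤ n2 := Nat.cast_nonneg _
    positivity
  have hw0 : 0 < w := by linarith
  have hK0 : 0 < K := by linarith
  have hc0 : 0 < c := by linarith
  have hlog1 : Real.log ((topCount C B d : ℝ) + 1) ≤ Real.log (4 * (A1 * A2) ^ d) :=
    Real.log_le_log (by positivity) hcount
  have hlog2 : Real.log (4 * (A1 * A2) ^ d) = Real.log 4 + d * Real.log (A1 * A2) := by
    rw [Real.log_mul (by norm_num) (by positivity), Real.log_pow]
  have hlog3 : Real.log (4 * (A1 * A2)) ≤ Real.log (252 * K * c) + 5 * Real.log w := by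
    have h5 : 5 * Real.log w = Real.log (w ^ 5) := by
      rw [Real.log_pow]; norm_num
    rw [h5, ← Real.log_mul (by positivity) (by positivity)]
    apply Real.log_le_log (by positivity)
    have : A1 * A2 ≤ (9 * K * w ^ 3) * (7 * c * w ^ 2) :=
      mul_le_mul hA1 hA2 hA20.le (by positivity)
    calc 4 * (A1 * A2) ≤ 4 * ((9 * K * w ^ 3) * (7 * c * w ^ 2)) := by linarith
      _ = 252 * K * c * w ^ 5 := by ring
  have hlog4 : Real.log (4 * (A1 * A2)) = Real.log 4 + Real.log (A1 * A2) :=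
    Real.log_mul (by norm_num) (by positivity)
  have hlog40 : 0 ≤ Real.log 4 := Real.log_nonneg (by norm_num)
  calc Real.log ((topCount C B d : ℝ) + 1) ≤ Real.log 4 + x * Real.log (A1 * A2) := by
        rw [hlog2] at hlog1
        exact hlog1
    _ ≤ x * Real.log (4 * (A1 * A2)) := by
        rw [hlog4]
        nlinarith
    _ ≤ x * (Real.log (252 * K * c) + 5 * Real.log w) :=
        mul_le_mul_of_nonneg_left hlog3 (by linarith)

lemma sm_bound {C K m : ℝ} (hC : 0 ≤ C) (hK : 8 * C ^ 2 ≤ K) (hK0 : 0 ≤ K) (hm2 : m ≤ 2 * K) :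
    C * Real.sqrt m ≤ K / 2 := by
  have h1 : Real.sqrt m ≤ Real.sqrt (2 * K) := Real.sqrt_le_sqrt hm2
  have htt : Real.sqrt (2 * K) ^ 2 = 2 * K := Real.sq_sqrt (by linarith)
  have ht0 : 0 ≤ Real.sqrt (2 * K) := Real.sqrt_nonneg _
  have h4C : 4 * C ≤ Real.sqrt (2 * K) := Real.le_sqrt_of_sq_le (by nlinarith)
  have h2 : C * Real.sqrt m ≤ C * Real.sqrt (2 * K) := mul_le_mul_of_nonneg_left h1 hC
  nlinarith

lemma sqrt_add_bound {m l : ℝ} (hm : 0 ≤ m) (hl : 0 ≤ l) :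
    Real.sqrt (m + 3 ^ 2 * l) ≤ Real.sqrt m + 3 * Real.sqrt l := by
  rw [Real.sqrt_le_left (by positivity)]
  have hmm : Real.sqrt m ^ 2 = m := Real.sq_sqrt hm
  have hll : Real.sqrt l ^ 2 = l := Real.sq_sqrt hl
  have h := mul_nonneg (Real.sqrt_nonneg m) (Real.sqrt_nonneg l)
  nlinarith

lemma root_bound {L x m l s : ℝ} (hL : L ≤ x * (m + 5 * l)) (hx : 1 ≤ x) (hl : 1 ≤ l) (hm : 0 ≤ m)
    (hs : s = Real.sqrt x * Real.sqrt l) : Real.sqrt L ≤ (Real.sqrt m + 3) * s := by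
  have h1 : Real.sqrt L ≤ Real.sqrt (x * (m + 3 ^ 2 * l)) := by
    apply Real.sqrt_le_sqrt
    refine hL.trans ?_
    apply mul_le_mul_of_nonneg_left _ (by linarith)
    linarith
  have h2 : Real.sqrt (x * (m + 3 ^ 2 * l)) = Real.sqrt x * Real.sqrt (m + 3 ^ 2 * l) :=
    Real.sqrt_mul (by linarith) _
  have h3 := sqrt_add_bound hm (show 0 ≤ l by linarith)
  have hsl : 1 ≤ Real.sqrt l := by rw [Real.one_le_sqrt]; exact hl
  have hsx : 0 ≤ Real.sqrt x := Real.sqrt_nonneg _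
  have hxs : Real.sqrt x ≤ s := by rw [hs]; nlinarith
  rw [h2] at h1
  refine h1.trans ?_
  calc Real.sqrt x * Real.sqrt (m + 3 ^ 2 * l)
      ≤ Real.sqrt x * (Real.sqrt m + 3 * Real.sqrt l) :=
        mul_le_mul_of_nonneg_left h3 hsx
    _ = Real.sqrt m * Real.sqrt x + 3 * s := by rw [hs]; ring
    _ ≤ Real.sqrt m * s + 3 * s := by
        have := mul_le_mul_of_nonneg_left hxs (Real.sqrt_nonneg m)
        linarith
    _ = (Real.sqrt m + 3) * s := by ring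

lemma m_bounds {C K c : ℝ} (hC : 0 ≤ C) (hc : 1 ≤ c) (hK : K = 252 * c * (1 + C)) :
    0 ≤ Real.log (252 * K * c) ∧ Real.log (252 * K * c) ≤ 2 * K := by
  have hK1 : 1 ≤ K := by rw [hK]; nlinarith
  have hy : 252 * K * c * (1 + C) = K ^ 2 := by rw [hK]; ring
  constructor
  · apply Real.log_nonneg
    nlinarith
  · have h1 : 252 * K * c ≤ K ^ 2 := by
      rw [← hy]
      have : 0 ≤ 252 * K * c := by positivity
      nlinarith
    have h2 : Real.log (252 * K * c) ≤ Real.log (K ^ 2) :=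
      Real.log_le_log (by positivity) h1
    rw [Real.log_pow] at h2
    have h3 := Real.log_le_sub_one_of_pos (show 0 < K by linarith)
    push_cast at h2
    linarith

lemma sqrt_bounds {x l : ℝ} (hx : 1 ≤ x) (hl : 1 ≤ l) (hlx : l ≤ x + 2) :
    1 ≤ Real.sqrt (x * l) ∧ Real.sqrt (x * l) ≤ x + 2 := by
  constructor
  · rw [Real.one_le_sqrt]; nlinarith
  · rw [Real.sqrt_le_left (by linarith)]
    nlinarith

/-- M11. -/
theorem numbers {C : ℝ} (hC : 0 ≤ C) :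
    ∃ K : ℝ, 1 ≤ K ∧ ∀ d : ℕ, 1 ≤ d →
      C * (Real.sqrt d + Real.sqrt (Real.log (topCount C (K * Real.sqrt (d * Real.log (d + 2))) d + 1)))
        + 5 + 4 * Tb C (d + 1) ≤ K * Real.sqrt (d * Real.log (d + 2)) := by
  obtain ⟨c, hcdef⟩ : ∃ c : ℝ, c = 17 + 32 * C := ⟨_, rfl⟩
  obtain ⟨K, hK⟩ : ∃ K : ℝ, K = 252 * c * (1 + C) := ⟨_, rfl⟩
  have hc1' : 17 ≤ c := by rw [hcdef]; linarith
  have hK1 : 4284 + 8064 * C + 8064 * C ^ 2 ≤ K := by
    rw [hK, hcdef]; nlinarith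
  have hK0 : 1 ≤ K := by nlinarith [sq_nonneg C]
  refine ⟨K, hK0, fun d hd => ?_⟩
  have hx : (1 : ℝ) ≤ d := by exact_mod_cast hd
  obtain ⟨x, hxdef⟩ : ∃ x : ℝ, x = (d : ℝ) := ⟨_, rfl⟩
  rw [← hxdef] at hx ⊢
  have hl1 : 1 ≤ Real.log (x + 2) := one_le_log_add_two hx
  have hl2 : Real.log (x + 2) ≤ x + 2 := by
    have := Real.log_le_sub_one_of_pos (show 0 < x + 2 by linarith)
    linarith
  obtain ⟨l, hldef⟩ : ∃ l : ℝ, l = Real.log (x + 2) := ⟨_, rfl⟩
  rw [← hldef] at hl1 hl2 ⊢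
  obtain ⟨hs1, hw⟩ := sqrt_bounds hx hl1 hl2
  have hsprod : Real.sqrt (x * l) = Real.sqrt x * Real.sqrt l := Real.sqrt_mul (by linarith) l
  have hT : Tb C (d + 1) ≤ (15 + 32 * C) * Real.sqrt (x * l) := by
    have := Tb_le hC hd
    rwa [← hxdef, ← hldef] at this
  obtain ⟨s, hsdef⟩ : ∃ s : ℝ, s = Real.sqrt (x * l) := ⟨_, rfl⟩
  rw [← hsdef] at hs1 hw hsprod hT ⊢
  have hsx : 1 ≤ Real.sqrt x := by rw [Real.one_le_sqrt]; exact hx
  have hsl : 1 ≤ Real.sqrt l := by rw [Real.one_le_sqrt]; exact hl1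
  have hxs : Real.sqrt x ≤ s := by rw [hsprod]; nlinarith
  have hB : K * s ≤ K * (x + 2) := mul_le_mul_of_nonneg_left hw (by linarith)
  have hTc : Tb C (d + 1) + x + 3 ≤ c * (x + 2) := by
    have h1 : (15 + 32 * C) * s ≤ (15 + 32 * C) * (x + 2) :=
      mul_le_mul_of_nonneg_left hw (by linarith)
    rw [hcdef]
    nlinarith
  have hlog : Real.log ((topCount C (K * s) d : ℝ) + 1) ≤
      (d : ℝ) * (Real.log (252 * K * c) + 5 * Real.log ((d : ℝ) + 2)) := by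
    refine log_top_le (C := C) (B := K * s) (K := K) (c := c) hC hd hK0 (by linarith)
      (by positivity) ?_ ?_
    · rw [← hxdef]; exact hB
    · rw [← hxdef]; exact hTc
  rw [← hxdef, ← hldef] at hlog
  obtain ⟨hm0, hm2⟩ := m_bounds (C := C) (K := K) (c := c) hC (by linarith) hK
  obtain ⟨m, hmdef⟩ : ∃ m : ℝ, m = Real.log (252 * K * c) := ⟨_, rfl⟩
  rw [← hmdef] at hlog hm0 hm2
  have hsm : C * Real.sqrt m ≤ K / 2 := sm_bound hC (by nlinarith) (by linarith) hm2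
  have hroot := root_bound hlog hx hl1 hm0 hsprod
  have hmain : C * (4 + Real.sqrt m) + 5 + 4 * (15 + 32 * C) ≤ K := by
    nlinarith
  have hs0 : 0 ≤ s := by linarith
  calc C * (Real.sqrt x + Real.sqrt (Real.log ((topCount C (K * s) d : ℝ) + 1))) + 5 + 4 * Tb C (d + 1)
      ≤ C * (s + (Real.sqrt m + 3) * s) + 5 * s + 4 * ((15 + 32 * C) * s) := by
        have h1 : C * (Real.sqrt x + Real.sqrt (Real.log ((topCount C (K * s) d : ℝ) + 1))) ≤
            C * (s + (Real.sqrt m + 3) * s) :=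
          mul_le_mul_of_nonneg_left (by linarith) hC
        linarith
    _ = (C * (4 + Real.sqrt m) + 5 + 4 * (15 + 32 * C)) * s := by ring
    _ ≤ K * s := mul_le_mul_of_nonneg_right hmain hs0

end Vale.Agent.Lib.P262.St
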