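import Vale.Agent.Lib.P262.St.Main
import Vale.Agent.Lib.P262.St.Numbers

/-!
The Steinitz bound `K √(d log (d + 2))`, from Banaszczyk's bound.
-/

namespace Vale.Agent.Lib.P262.St

/-- A list that is a rearrangement of a family comes from a permutation of the indices. -/
lemma exists_perm_of_list_perm {A : Type*} {N : ℕ} (v : Fin N → A) (l : List A)
    (h : l.Perm (List.ofFn v)) : ∃ π : Equiv.Perm (Fin N), List.ofFn (fun i => v (π i)) = l := by
  classical
  have hlen : l.length = N := by
    rw [h.length_eq]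
    simp
  let f : Fin N → A := fun i => l[i.val]'(by omega)
  have hf : List.ofFn f = l := by
    apply List.ext_getElem
    · simp [hlen]
    · intro i h1 h2
      simp [f]
  have hcard : ∀ a, Fintype.card {i : Fin N // f i = a} = Fintype.card {i : Fin N // v i = a} := by
    intro a
    have h1 := count_ofFn f a
    have h2 := count_ofFn v a
    rw [hf] at h1
    have h3 : (Finset.univ.filter (fun i => f i = a)).card = (Finset.univ.filter (fun i => v i = a)).card := by
      rw [← h1, ← h2]
      exact h.count_eq a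
    rw [Fintype.card_subtype, Fintype.card_subtype]
    convert h3
  let e : ∀ a, {i : Fin N // f i = a} ≃ {i : Fin N // v i = a} :=
    fun a => Fintype.equivOfCardEq (hcard a)
  let π : Equiv.Perm (Fin N) := Equiv.ofFiberEquiv e
  refine ⟨π, ?_⟩
  rw [← hf]
  congr 1
  funext i
  exact Equiv.ofFiberEquiv_map e i

/-- The bound of the main theorem, for all dimensions. -/
theorem final {C : ℝ} (hC : 0 ≤ C) (H : BanBound C) :
    ∃ K : ℝ, 0 < K ∧ ∀ (d N : ℕ) (v : Fin N → EuclideanSpace ℝ (Fin d)), (∀ i, ‖v i‖ ≤ 1) →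
      ∑ i, v i = 0 → ∃ π : Equiv.Perm (Fin N), ∀ m : ℕ, m ≤ N →
        ‖∑ i ∈ Finset.univ.filter (fun i : Fin N => i.val < m), v (π i)‖
          ≤ K * Real.sqrt (d * Real.log (d + 2)) := by
  obtain ⟨K, hK1, hK⟩ := numbers hC
  refine ⟨K, by linarith, ?_⟩
  intro d N v hv hs
  rcases Nat.eq_zero_or_pos d with hd | hd
  · subst hd
    refine ⟨1, ?_⟩
    intro m _
    have h0 : ∀ w : EuclideanSpace ℝ (Fin 0), w = 0 := fun w => Subsingleton.elim _ _
    rw [h0 (∑ i ∈ Finset.univ.filter (fun i : Fin N => i.val < m), v ((1 : Equiv.Perm (Fin N)) i))]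
    simp
  · have hdR : (1 : ℝ) ≤ d := by exact_mod_cast hd
    have hlog : 1 ≤ Real.log ((d : ℝ) + 2) := by
      rw [Real.le_log_iff_exp_le (by linarith)]
      have := Real.exp_one_lt_d9
      linarith
    have hsq : 1 ≤ Real.sqrt ((d : ℝ) * Real.log ((d : ℝ) + 2)) := by
      rw [Real.one_le_sqrt]
      nlinarith
    have hB : 1 ≤ K * Real.sqrt ((d : ℝ) * Real.log ((d : ℝ) + 2)) := by nlinarith
    obtain ⟨l', hperm, hpre⟩ := steinitz_main hC H hd _ hB (hK d hd) (List.ofFn v) 1 zero_le_one
      (by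
        intro w hw
        obtain ⟨i, rfl⟩ := (List.mem_ofFn' _ _).1 hw
        exact hv i)
      (by rw [List.sum_ofFn, hs])
    obtain ⟨π, hπ⟩ := exists_perm_of_list_perm v l' hperm
    refine ⟨π, ?_⟩
    intro m _
    have h1 := hpre m
    rw [← hπ, sum_take_ofFn, one_mul] at h1
    exact h1

end Vale.Agent.Lib.P262.St
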