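import Vale.Agent.Lib.P262.St.Defs

/-!
Firing times inside a block.
-/

namespace Vale.Agent.Lib.P262.St

/-- A down-closed finite set of naturals is an initial segment. -/
lemma downset_eq_range (A : Finset ℕ) (hA : ∀ q ∈ A, ∀ q', q' < q → q' ∈ A) :
    A = Finset.range A.card := by
  have h1 : ∀ q ∈ A, q < A.card := by
    intro q hq
    have : Finset.range (q + 1) ⊆ A := by
      intro q' hq'
      rcases Nat.lt_or_ge q' q with h | h
      · exact hA q hq q' h
      · have : q' = q := by
          have := Finset.mem_range.1 hq'
          omega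
        rw [this]
        exact hq
    have := Finset.card_le_card this
    simp at this
    omega
  have h2 : ∀ q, q < A.card → q ∈ A := by
    intro q hq
    by_contra hq'
    have : A ⊆ Finset.range q := by
      intro x hx
      apply Finset.mem_range.2
      by_contra hlt
      have hle : q ≤ x := not_lt.1 hlt
      rcases Nat.lt_or_ge q x with h | h
      · exact hq' (hA x hx q h)
      · have : x = q := le_antisymm h hle
        exact hq' (this ▸ hx)
    have := Finset.card_le_card this
    simp at this
    omega
  ext q
  constructor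
  · intro h
    exact Finset.mem_range.2 (h1 q h)
  · intro h
    exact h2 q (Finset.mem_range.1 h)

/-- For strictly increasing times, the number of those at most `t` describes them. -/
lemma filter_le_eq_range (φ : ℕ → ℝ) (m : ℕ) (hmono : ∀ q, q + 1 < m → φ q < φ (q + 1)) (t : ℝ) :
    (Finset.range m).filter (fun q => φ q ≤ t) =
      Finset.range ((Finset.range m).filter (fun q => φ q ≤ t)).card := by
  apply downset_eq_range
  intro q hq q' hq'
  have hq1 := Finset.mem_filter.1 hq
  have hqm := Finset.mem_range.1 hq1.1
  refine Finset.mem_filter.2 ⟨Finset.mem_range.2 (by omega), ?_⟩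
  have hmono' : ∀ r, q' + r < m → φ q' ≤ φ (q' + r) := by
    intro r
    induction r with
    | zero => intro _; simp
    | succ r ih =>
      intro h
      have := hmono (q' + r) (by omega)
      have h2 := ih (by omega)
      have h3 : q' + (r + 1) = q' + r + 1 := by ring
      rw [h3]
      linarith
  have := hmono' (q - q') (by omega)
  have h4 : q' + (q - q') = q := by omega
  rw [h4] at this
  linarith [hq1.2]

lemma count_spec (φ : ℕ → ℝ) (m : ℕ) (hmono : ∀ q, q + 1 < m → φ q < φ (q + 1)) (t : ℝ) :
    let k : ℕ := ((Finset.range m).filter (fun q => φ q ≤ t)).card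
    k ≤ m ∧ (1 ≤ k → φ (k - 1) ≤ t) ∧ (k < m → t < φ k) := by
  intro k
  have h := filter_le_eq_range φ m hmono t
  have hkm : k ≤ m := by
    have := Finset.card_filter_le (Finset.range m) (fun q => φ q ≤ t)
    simpa using this
  refine ⟨hkm, ?_, ?_⟩
  · intro hk
    have : k - 1 ∈ (Finset.range m).filter (fun q => φ q ≤ t) := by
      rw [h]
      exact Finset.mem_range.2 (by omega)
    exact (Finset.mem_filter.1 this).2
  · intro hk
    by_contra hcon
    have hle : φ k ≤ t := not_lt.1 hcon
    have : k ∈ (Finset.range m).filter (fun q => φ q ≤ t) :=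
      Finset.mem_filter.2 ⟨Finset.mem_range.2 hk, hle⟩
    rw [h] at this
    exact absurd (Finset.mem_range.1 this) (lt_irrefl _)

private lemma frac_le {x b m a τ : ℝ} (hm : 0 < m) (ha : 0 < a) (hτ : τ = m * a) (h : x ≤ b * a) :
    x / τ ≤ b / m := by
  have hτ0 : 0 < τ := by rw [hτ]; positivity
  rw [div_le_div_iff₀ hτ0 hm, hτ]
  nlinarith

private lemma le_frac {x b m a τ : ℝ} (hm : 0 < m) (ha : 0 < a) (hτ : τ = m * a) (h : b * a ≤ x) :
    b / m ≤ x / τ := by
  have hτ0 : 0 < τ := by rw [hτ]; positivity
  rw [div_le_div_iff₀ hm hτ0, hτ]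
  nlinarith

/-- Firing times inside a block. -/
theorem fire_times (T τ μ : ℝ) (m : ℕ) (hm : 0 < m) (hμ : 0 < μ) (hτ : 6 * m * μ ≤ τ)
    (hT0 : 0 ≤ T) (hT1 : T + τ ≤ 1) (A : Set ℝ)
    (hA : ∀ x, 0 ≤ x → x + 2 * μ ≤ 1 → ∃ a ∈ A, x ≤ a ∧ a < x + 2 * μ) (up : Bool) :
    ∃ φ : ℕ → ℝ, (∀ q < m, φ q ∈ A ∧ T < φ q ∧ φ q < T + τ) ∧ (∀ q, q + 1 < m → φ q < φ (q + 1)) ∧
      ∀ t, T ≤ t → t ≤ T + τ →
        let k : ℕ := ((Finset.range m).filter (fun q => φ q ≤ t)).card
        let σ : ℝ := (t - T) / τ
        (up = true → (k < m → 0 ≤ σ - (k : ℝ) / m ∧ σ - (k : ℝ) / m ≤ 2 / m) ∧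
            (k = m → 1 - σ ≤ 3 * μ / τ)) ∧
        (up = false → (1 ≤ k → 0 ≤ (k : ℝ) / m - σ ∧ (k : ℝ) / m - σ ≤ 2 / m) ∧
            (k = 0 → σ ≤ 3 * μ / τ)) := by
  classical
  have hmR : (0 : ℝ) < m := by exact_mod_cast hm
  have hm1R : (1 : ℝ) ≤ m := by exact_mod_cast hm
  set a : ℝ := τ / m with ha
  have hτm : τ = m * a := by rw [ha]; field_simp
  have ha6 : 6 * μ ≤ a := by
    rw [ha, le_div_iff₀ hmR]
    nlinarith
  have ha0 : 0 < a := by linarith
  have hτ0 : 0 < τ := by rw [hτm]; positivity
  have hτa : a ≤ τ := by rw [hτm]; nlinarith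
  -- choice of points
  let pick : ℝ → ℝ := fun x => if h : 0 ≤ x ∧ x + 2 * μ ≤ 1 then (hA x h.1 h.2).choose else 0
  have hpick : ∀ x, 0 ≤ x → x + 2 * μ ≤ 1 → pick x ∈ A ∧ x ≤ pick x ∧ pick x < x + 2 * μ := by
    intro x h1 h2
    have h : 0 ≤ x ∧ x + 2 * μ ≤ 1 := ⟨h1, h2⟩
    simp only [pick, dif_pos h]
    exact (hA x h1 h2).choose_spec
  have hq_le : ∀ q : ℕ, q + 1 < m → ((q : ℝ) + 1) * a ≤ τ - a := by
    intro q hq
    have : ((q : ℝ) + 2) ≤ m := by exact_mod_cast hq
    rw [hτm]
    nlinarith
  cases up with
  | true =>
    let x : ℕ → ℝ := fun q => if q + 1 < m then T + ((q : ℝ) + 1) * a else T + τ - 3 * μ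
    have hx1 : ∀ q, q + 1 < m → x q = T + ((q : ℝ) + 1) * a := by
      intro q hq
      simp [x, hq]
    have hx2 : ∀ q, ¬ q + 1 < m → x q = T + τ - 3 * μ := by
      intro q hq
      simp [x, hq]
    have hxv : ∀ q, q < m → 0 ≤ x q ∧ x q + 2 * μ ≤ 1 ∧ T + μ < x q := by
      intro q hq
      by_cases h : q + 1 < m
      · rw [hx1 q h]
        have := hq_le q h
        have h0 : 0 ≤ ((q : ℝ) + 1) * a := by positivity
        have h1 : 1 * a ≤ ((q : ℝ) + 1) * a := by
          apply mul_le_mul_of_nonneg_right _ ha0.le
          have : (0 : ℝ) ≤ q := by positivity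
          linarith
        refine ⟨by linarith, by linarith, by linarith⟩
      · rw [hx2 q h]
        refine ⟨by linarith, by linarith, by linarith⟩
    refine ⟨fun q => pick (x q), ?_, ?_, ?_⟩
    · intro q hq
      obtain ⟨h1, h2, h3⟩ := hxv q hq
      obtain ⟨p1, p2, p3⟩ := hpick (x q) h1 h2
      refine ⟨p1, show T < pick (x q) by linarith, ?_⟩
      show pick (x q) < T + τ
      by_cases h : q + 1 < m
      · have e_p3 := hx1 q h
        have := hq_le q h
        linarith
      · have e_p3 := hx2 q h
        linarith
    · intro q hq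
      obtain ⟨h1, h2, _⟩ := hxv q (by omega)
      obtain ⟨_, _, p3⟩ := hpick (x q) h1 h2
      obtain ⟨h1', h2', _⟩ := hxv (q + 1) hq
      obtain ⟨_, p2', _⟩ := hpick (x (q + 1)) h1' h2'
      have e_p3 := hx1 q hq
      by_cases h : q + 1 + 1 < m
      · have e_p2q := hx1 (q + 1) h
        push_cast at e_p2q
        have : ((q : ℝ) + 1 + 1) * a = ((q : ℝ) + 1) * a + a := by ring
        show pick (x q) < pick (x (q + 1))
        linarith
      · have e_p2q := hx2 (q + 1) h
        have := hq_le q hq
        show pick (x q) < pick (x (q + 1))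
        linarith
    · intro t ht1 ht2
      have hmono : ∀ q, q + 1 < m → pick (x q) < pick (x (q + 1)) := by
        intro q hq
        obtain ⟨h1, h2, _⟩ := hxv q (by omega)
        obtain ⟨_, _, p3⟩ := hpick (x q) h1 h2
        obtain ⟨h1', h2', _⟩ := hxv (q + 1) hq
        obtain ⟨_, p2', _⟩ := hpick (x (q + 1)) h1' h2'
        have e_p3 := hx1 q hq
        by_cases h : q + 1 + 1 < m
        · have e_p2q := hx1 (q + 1) h
          push_cast at e_p2q
          have : ((q : ℝ) + 1 + 1) * a = ((q : ℝ) + 1) * a + a := by ring
          linarith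
        · have e_p2q := hx2 (q + 1) h
          have := hq_le q hq
          linarith
      obtain ⟨hkm, hk1, hk2⟩ := count_spec (fun q => pick (x q)) m hmono t
      intro k σ
      have hσ0 : 0 ≤ σ := div_nonneg (by linarith) hτ0.le
      have hkm : k ≤ m := hkm
      have hk1 : 1 ≤ k → pick (x (k - 1)) ≤ t := hk1
      have hk2 : k < m → t < pick (x k) := hk2
      clear_value k
      have hkR : (0 : ℝ) ≤ k := by positivity
      constructor
      · intro _
        constructor
        · intro hk
          constructor
          · -- lower bound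
            rcases Nat.eq_zero_or_pos k with h0 | h0
            · simp [h0, hσ0]
            · have h3 := hk1 h0
              have hq1 : (k - 1) + 1 < m := by omega
              obtain ⟨h1, h2, _⟩ := hxv (k - 1) (by omega)
              obtain ⟨_, p2, _⟩ := hpick (x (k - 1)) h1 h2
              have e2 := hx1 (k - 1) hq1
              have hcast : (((k - 1 : ℕ) : ℝ) + 1) = k := by
                have : k - 1 + 1 = k := by omega
                exact_mod_cast this
              rw [hcast] at e2
              have hle : (k : ℝ) * a ≤ t - T := by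
                have : pick (x (k - 1)) ≤ t := h3
                linarith
              have := le_frac hmR ha0 hτm hle
              show 0 ≤ (t - T) / τ - (k : ℝ) / m
              linarith
          · -- upper bound
            have h3 := hk2 hk
            obtain ⟨h1, h2, _⟩ := hxv k hk
            obtain ⟨_, _, p3⟩ := hpick (x k) h1 h2
            have hle : t - T ≤ ((k : ℝ) + 2) * a := by
              by_cases h : k + 1 < m
              · have e_p3 := hx1 k h
                have : t < pick (x k) := h3
                nlinarith
              · have e_p3 := hx2 k h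
                have hk' : k + 1 = m := by omega
                have : t < pick (x k) := h3
                have h5 : τ = ((k : ℝ) + 1) * a := by
                  rw [hτm]
                  congr 1
                  exact_mod_cast hk'.symm
                nlinarith
            have := frac_le hmR ha0 hτm hle
            have h6 : ((k : ℝ) + 2) / m = (k : ℝ) / m + 2 / m := by ring
            show (t - T) / τ - (k : ℝ) / m ≤ 2 / m
            linarith
        · intro hk
          have h0 : 1 ≤ k := by omega
          have h3 := hk1 h0
          have hq1 : ¬ (k - 1) + 1 < m := by omega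
          obtain ⟨h1, h2, _⟩ := hxv (k - 1) (by omega)
          obtain ⟨_, p2, _⟩ := hpick (x (k - 1)) h1 h2
          have e_p2 := hx2 (k - 1) hq1
          have hle : τ - 3 * μ ≤ t - T := by
            have : pick (x (k - 1)) ≤ t := h3
            linarith
          show 1 - (t - T) / τ ≤ 3 * μ / τ
          have : (τ - 3 * μ) / τ ≤ (t - T) / τ := div_le_div_of_nonneg_right hle hτ0.le
          have h7 : (τ - 3 * μ) / τ = 1 - 3 * μ / τ := by
            field_simp
          linarith
      · intro h
        exact Bool.noConfusion h
  | false =>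
    let x : ℕ → ℝ := fun q => if q = 0 then T + μ else T + (q : ℝ) * a - 2 * μ
    have hx0 : x 0 = T + μ := by simp [x]
    have hx1 : ∀ q, q ≠ 0 → x q = T + (q : ℝ) * a - 2 * μ := by
      intro q hq
      simp [x, hq]
    have hq_le' : ∀ q : ℕ, q < m → (q : ℝ) * a ≤ τ - a := by
      intro q hq
      have : ((q : ℝ) + 1) ≤ m := by exact_mod_cast hq
      rw [hτm]
      nlinarith
    have hxv : ∀ q, q < m → 0 ≤ x q ∧ x q + 2 * μ ≤ 1 ∧ T + μ ≤ x q := by
      intro q hq
      by_cases h : q = 0
      · subst h
        rw [hx0]
        refine ⟨by linarith, by linarith, le_rfl⟩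
      · rw [hx1 q h]
        have := hq_le' q hq
        have h1 : 1 * a ≤ (q : ℝ) * a := by
          apply mul_le_mul_of_nonneg_right _ ha0.le
          have : 1 ≤ q := Nat.one_le_iff_ne_zero.2 h
          exact_mod_cast this
        refine ⟨by linarith, by linarith, by linarith⟩
    have hmono : ∀ q, q + 1 < m → pick (x q) < pick (x (q + 1)) := by
      intro q hq
      obtain ⟨h1, h2, _⟩ := hxv q (by omega)
      obtain ⟨_, _, p3⟩ := hpick (x q) h1 h2
      obtain ⟨h1', h2', _⟩ := hxv (q + 1) hq
      obtain ⟨_, p2', _⟩ := hpick (x (q + 1)) h1' h2'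
      have e_p2q := hx1 (q + 1) (by omega)
      push_cast at e_p2q
      have h4 : ((q : ℝ) + 1) * a = (q : ℝ) * a + a := by ring
      by_cases h : q = 0
      · subst h
        have e0 : x 0 = T + μ := hx0
        simp at e_p2q
        linarith
      · have e_p3 := hx1 q h
        linarith
    refine ⟨fun q => pick (x q), ?_, hmono, ?_⟩
    · intro q hq
      obtain ⟨h1, h2, h3⟩ := hxv q hq
      obtain ⟨p1, p2, p3⟩ := hpick (x q) h1 h2
      refine ⟨p1, show T < pick (x q) by linarith, ?_⟩
      show pick (x q) < T + τ
      by_cases h : q = 0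
      · subst h
        have e0 : x 0 = T + μ := hx0
        have : 6 * μ ≤ τ := by linarith
        linarith
      · have e_p3 := hx1 q h
        have := hq_le' q hq
        linarith
    · intro t ht1 ht2
      obtain ⟨hkm, hk1, hk2⟩ := count_spec (fun q => pick (x q)) m hmono t
      intro k σ
      have hσ0 : 0 ≤ σ := div_nonneg (by linarith) hτ0.le
      have hkm : k ≤ m := hkm
      have hk1 : 1 ≤ k → pick (x (k - 1)) ≤ t := hk1
      have hk2 : k < m → t < pick (x k) := hk2
      clear_value k
      have hkR : (0 : ℝ) ≤ k := by positivity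
      constructor
      · intro h
        exact absurd h (Bool.false_ne_true)
      · intro _
        constructor
        · intro hk
          constructor
          · rcases Nat.lt_or_ge k m with h | h
            · have h3 := hk2 h
              obtain ⟨h1, h2, _⟩ := hxv k h
              obtain ⟨_, _, p3⟩ := hpick (x k) h1 h2
              have e_p3 := hx1 k (by omega)
              have hle : t - T ≤ (k : ℝ) * a := by
                have : t < pick (x k) := h3
                linarith
              have := frac_le hmR ha0 hτm hle
              show 0 ≤ (k : ℝ) / m - (t - T) / τ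
              linarith
            · have hkm' : k = m := le_antisymm hkm h
              have : (t - T) / τ ≤ 1 := by
                rw [div_le_one hτ0]
                linarith
              have h5 : (k : ℝ) / m = 1 := by
                rw [hkm']
                field_simp
              show 0 ≤ (k : ℝ) / m - (t - T) / τ
              linarith
          · have h3 := hk1 hk
            obtain ⟨h1, h2, h4⟩ := hxv (k - 1) (by omega)
            obtain ⟨_, p2, _⟩ := hpick (x (k - 1)) h1 h2
            have hcast : ((k - 1 : ℕ) : ℝ) = (k : ℝ) - 1 := by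
              have : k - 1 + 1 = k := by omega
              have h6 : (((k - 1 : ℕ) : ℝ) + 1) = k := by exact_mod_cast this
              linarith
            have hle : ((k : ℝ) - 2) * a ≤ t - T := by
              have ht : pick (x (k - 1)) ≤ t := h3
              by_cases h : k - 1 = 0
              · have hk1' : k = 1 := by omega
                rw [hk1']
                push_cast
                nlinarith
              · have e2 := hx1 (k - 1) h
                rw [hcast] at e2
                nlinarith
            have := le_frac hmR ha0 hτm hle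
            have h6 : ((k : ℝ) - 2) / m = (k : ℝ) / m - 2 / m := by ring
            show (k : ℝ) / m - (t - T) / τ ≤ 2 / m
            linarith
        · intro hk0
          have hk' : k < m := by omega
          have h3 := hk2 hk'
          obtain ⟨h1, h2, _⟩ := hxv k hk'
          obtain ⟨_, _, p3⟩ := hpick (x k) h1 h2
          rw [hk0] at p3
          have e0 : x 0 = T + μ := hx0
          have ht : t < pick (x 0) := by
            have := h3
            rw [hk0] at this
            exact this
          have hle : t - T ≤ 3 * μ := by linarith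
          show (t - T) / τ ≤ 3 * μ / τ
          exact div_le_div_of_nonneg_right hle hτ0.le

end Vale.Agent.Lib.P262.St
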