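import Vale.Agent.Lib.P262.St.Ban

/-!
Closed orders: a list with a prescribed direction `p` can be ordered so that all its partial sums
stay near the segment from `0` to the total, on the nonpositive side of `p`.
-/

namespace Vale.Agent.Lib.P262.St

open scoped RealInnerProductSpace

variable {E : Type*} [NormedAddCommGroup E] [InnerProductSpace ℝ E]

omit [NormedAddCommGroup E] [InnerProductSpace ℝ E] in
lemma sum_map_sub_const {J : Type*} [AddCommGroup E] [Module ℝ E] (c : J → E) (a : E) (l : List J) :
    (l.map (fun j => c j - a)).sum = (l.map c).sum - (l.length : ℝ) • a := by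
  induction l with
  | nil => simp
  | cons x l ih =>
    simp only [List.map_cons, List.sum_cons, ih, List.length_cons]
    push_cast
    rw [add_smul, one_smul]
    abel

omit [InnerProductSpace ℝ E] in
lemma norm_sum_map_le {J : Type*} (c : J → E) (l : List J) (hl : ∀ j ∈ l, ‖c j‖ ≤ 1) :
    ‖(l.map c).sum‖ ≤ l.length := by
  induction l with
  | nil => simp
  | cons x l ih =>
    simp only [List.map_cons, List.sum_cons, List.length_cons]
    push_cast
    have h1 := hl x (by simp)
    have h2 := ih (fun j hj => hl j (by simp [hj]))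
    calc ‖c x + (l.map c).sum‖ ≤ ‖c x‖ + ‖(l.map c).sum‖ := norm_add_le _ _
      _ ≤ _ := by linarith

/-- Rotating an order: every prefix of `drop k₀ ++ take k₀` is a difference of prefixes of `l`,
if `l` has zero sum. -/
lemma rotate_prefix {A : Type*} [AddCommGroup A] (l : List A) (hs : l.sum = 0) (k₀ k : ℕ) :
    ∃ k' : ℕ, ((l.drop k₀ ++ l.take k₀).take k).sum = (l.take k').sum - (l.take k₀).sum := by
  have hsplit : (l.take k₀).sum + (l.drop k₀).sum = 0 := by
    rw [← List.sum_append, List.take_append_drop, hs]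
  rcases Nat.le_total k (l.drop k₀).length with h | h
  · refine ⟨k₀ + k, ?_⟩
    rw [List.take_append_of_le_length h, List.take_add, List.sum_append]
    abel
  · refine ⟨min (k - (l.drop k₀).length) k₀, ?_⟩
    rw [List.take_append, List.take_of_length_le h, List.sum_append, List.take_take]
    have : (l.drop k₀).sum = - (l.take k₀).sum := by
      rw [eq_neg_iff_add_eq_zero, add_comm]
      exact hsplit
    rw [this]
    abel

/-- The closed order lemma. -/
theorem closed_order {C : ℝ} (hC : 0 ≤ C) (H : BanBound C) {J : Type*} [DecidableEq J] (c : J → E)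
    (S : Finset J) (hc : ∀ j ∈ S, ‖c j‖ ≤ 1) (ls : List J) (hls : ∀ j ∈ ls, j ∈ S) (hm : ls ≠ [])
    (p : E) :
    ∃ ls' : List J, ls'.Perm ls ∧ ∀ k : ℕ, k ≤ ls.length →
      ⟪p, ((ls'.take k).map c).sum - ((k : ℝ) / ls.length) • (ls.map c).sum⟫ ≤ 0 ∧
      ‖((ls'.take k).map c).sum - ((k : ℝ) / ls.length) • (ls.map c).sum‖
        ≤ 4 * C * (Real.sqrt S.card + Real.sqrt (Real.log (ls.length + 1))) := by
  classical
  set m := ls.length with hmdef
  have hm0 : 0 < m := List.length_pos_iff.2 hm
  have hmR : (0 : ℝ) < m := by exact_mod_cast hm0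
  set s := (ls.map c).sum with hs
  have hsnorm : ‖s‖ ≤ m := norm_sum_map_le c ls (fun j hj => hc j (hls j hj))
  let a : E := (1 / (m : ℝ)) • s
  let f : J → E := fun j => c j - a
  have ha : ‖a‖ ≤ 1 := by
    simp only [a]
    rw [norm_smul, Real.norm_eq_abs, abs_of_pos (by positivity)]
    rw [one_div, inv_mul_le_iff₀ hmR]
    linarith
  have hf : ∀ j ∈ ls, ‖f j‖ ≤ 2 := by
    intro j hj
    calc ‖c j - a‖ ≤ ‖c j‖ + ‖a‖ := norm_sub_le _ _
      _ ≤ 1 + 1 := add_le_add (hc j (hls j hj)) ha
      _ = 2 := by norm_num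
  have hma : (m : ℝ) • a = s := by
    simp only [a]
    rw [smul_smul, mul_one_div_cancel hmR.ne', one_smul]
  have hsum : (ls.map f).sum = 0 := by
    rw [sum_map_sub_const, ← hmdef, hma, ← hs, sub_self]
  let V : Submodule ℝ E := Submodule.span ℝ ((S.image c : Finset E) : Set E)
  have hVc : ∀ j ∈ S, c j ∈ V := by
    intro j hj
    apply Submodule.subset_span
    simp only [Finset.coe_image]
    exact ⟨j, hj, rfl⟩
  have hVsum : ∀ l : List J, (∀ j ∈ l, j ∈ S) → (l.map c).sum ∈ V := by
    intro l
    induction l with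
    | nil => intro _; simp
    | cons x l ih =>
      intro h
      simp only [List.map_cons, List.sum_cons]
      exact V.add_mem (hVc x (h x (by simp))) (ih (fun j hj => h j (by simp [hj])))
  have hVs : s ∈ V := hVsum ls hls
  have hVa : a ∈ V := V.smul_mem _ hVs
  have hVf : ∀ j ∈ ls, f j ∈ V := fun j hj => V.sub_mem (hVc j (hls j hj)) hVa
  have hfin : Module.finrank ℝ V ≤ S.card :=
    (finrank_span_finset_le_card (R := ℝ) (S.image c)).trans Finset.card_image_le
  obtain ⟨l₀, hperm, hpre⟩ := ban_labelled hC H f ls 2 (by norm_num) hf hsum V hVf S.card hfin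
  set R0 : ℝ := 2 * (C * (Real.sqrt S.card + Real.sqrt (Real.log ((m : ℝ) + 1)))) with hR0
  have hR0' : 4 * C * (Real.sqrt S.card + Real.sqrt (Real.log ((m : ℝ) + 1))) = 2 * R0 := by
    rw [hR0]
    ring
  -- the function along the closed order
  let D : ℕ → E := fun k => (((l₀.map f)).take k).sum
  have hDn : ∀ k, ‖D k‖ ≤ R0 := fun k => hpre k
  have hl₀len : l₀.length = m := hperm.length_eq
  have hsum₀ : (l₀.map f).sum = 0 := by
    rw [(hperm.map f).sum_eq]
    exact hsum
  obtain ⟨k₀, hk₀, hmax⟩ := Finset.exists_max_image (Finset.range (m + 1)) (fun k => ⟪p, D k⟫)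
    ⟨0, by simp⟩
  have hmaxall : ∀ k, ⟪p, D k⟫ ≤ ⟪p, D k₀⟫ := by
    intro k
    rcases Nat.lt_or_ge k (m + 1) with h | h
    · exact hmax k (Finset.mem_range.2 h)
    · have h1 : D k = D m := by
        simp only [D]
        rw [List.take_of_length_le (by simp; omega), List.take_of_length_le (by simp; omega)]
      rw [h1]
      exact hmax m (by simp)
  let ls' : List J := l₀.drop k₀ ++ l₀.take k₀
  have hperm' : ls'.Perm ls := by
    refine List.Perm.trans ?_ hperm
    refine List.perm_append_comm.trans ?_
    rw [List.take_append_drop]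
  refine ⟨ls', hperm', ?_⟩
  intro k hk
  have hlen' : ls'.length = m := by rw [hperm'.length_eq]
  have hkey : ((ls'.take k).map c).sum - ((k : ℝ) / m) • s = ((ls'.map f).take k).sum := by
    rw [← List.map_take, sum_map_sub_const]
    have h1 : (ls'.take k).length = k := by
      rw [List.length_take, hlen']
      omega
    rw [h1]
    congr 1
    simp only [a]
    rw [smul_smul]
    congr 1
    ring
  rw [hkey]
  obtain ⟨k', hk'⟩ : ∃ k', ((ls'.map f).take k).sum = D k' - D k₀ := by
    have h := rotate_prefix (l₀.map f) hsum₀ k₀ k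
    simp only [ls', List.map_append, List.map_drop, List.map_take]
    simpa [D] using h
  rw [hk']
  constructor
  · rw [inner_sub_right]
    linarith [hmaxall k']
  · rw [hR0']
    calc ‖D k' - D k₀‖ ≤ ‖D k'‖ + ‖D k₀‖ := norm_sub_le _ _
      _ ≤ R0 + R0 := add_le_add (hDn _) (hDn _)
      _ = 2 * R0 := by ring

end Vale.Agent.Lib.P262.St
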