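import Vale.Agent.Lib.P262.St.Round
import Vale.Agent.Lib.P262.St.Order
import Vale.Agent.Lib.P262.St.Fire

/-!
Group lemma of the few-distinct-vectors schedule (module M4).
-/

namespace Vale.Agent.Lib.P262.St

open scoped RealInnerProductSpace
open Set

section ListLemmas

variable {J : Type*} [DecidableEq J]

theorem exists_list_count (S : Finset J) (w : J → ℕ) :
    ∃ l : List J, (∀ j ∈ l, j ∈ S) ∧ (∀ j ∈ S, l.count j = w j) ∧ l.length = ∑ j ∈ S, w j := by
  induction S using Finset.induction_on with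
  | empty => exact ⟨[], by simp, by simp, by simp⟩
  | insert a S ha ih =>
    obtain ⟨l, h1, h2, h3⟩ := ih
    refine ⟨List.replicate (w a) a ++ l, ?_, ?_, ?_⟩
    · intro j hj
      rcases List.mem_append.mp hj with h | h
      · rw [List.eq_of_mem_replicate h]; exact Finset.mem_insert_self _ _
      · exact Finset.mem_insert_of_mem (h1 j h)
    · intro j hj
      rw [List.count_append]
      rcases Finset.mem_insert.mp hj with rfl | h
      · have h0 : l.count j = 0 := List.count_eq_zero.mpr (fun h' => ha (h1 _ h'))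
        simp [h0]
      · have hne : j ≠ a := fun e => ha (e ▸ h)
        rw [h2 j h, List.count_replicate]
        simp [hne.symm]
    · simp [Finset.sum_insert ha, h3]

theorem map_sum_eq_sum_count {E : Type*} [AddCommGroup E] [Module ℝ E] (S : Finset J) (c : J → E)
    (l : List J) (hl : ∀ j ∈ l, j ∈ S) :
    (l.map c).sum = ∑ j ∈ S, (l.count j : ℝ) • c j := by
  induction l with
  | nil => simp
  | cons a l ih =>
    have ha : a ∈ S := hl a (by simp)
    have h1 := ih (fun j hj => hl j (by simp [hj]))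
    rw [List.map_cons, List.sum_cons, h1]
    have h2 : ∀ j ∈ S, (((a :: l).count j : ℕ) : ℝ) • c j
        = (l.count j : ℝ) • c j + (if j = a then c a else 0) := by
      intro j _
      rw [List.count_cons]
      by_cases h : j = a
      · subst h; simp [add_smul]
      · have h' : ¬ a = j := fun e => h e.symm
        simp [h, h']
    rw [Finset.sum_congr rfl h2, Finset.sum_add_distrib, Finset.sum_ite_eq' S a, if_pos ha, add_comm]

theorem card_idx (L : List J) (j : J) :
    ((Finset.range L.length).filter (fun q => L[q]? = some j)).card = L.count j := by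
  induction L with
  | nil => simp
  | cons a L ih =>
    rw [List.length_cons, Finset.card_filter, Finset.sum_range_succ', List.count_cons]
    have h1 : (∑ q ∈ Finset.range L.length, if (a :: L)[q + 1]? = some j then 1 else 0)
        = L.count j := by
      rw [← ih, Finset.card_filter]
      simp
    rw [h1]
    by_cases h : a = j
    · subst h; simp
    · simp [h]

theorem card_idx_take (L : List J) (j : J) (k : ℕ) :
    ((Finset.range L.length).filter (fun q => q < k ∧ L[q]? = some j)).card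
      = (L.take k).count j := by
  rw [← card_idx]
  congr 1
  ext q
  simp only [Finset.mem_filter, Finset.mem_range, List.length_take, List.getElem?_take]
  constructor
  · rintro ⟨h1, h2, h3⟩
    refine ⟨lt_min h2 h1, ?_⟩
    simp [h2, h3]
  · rintro ⟨h1, h2⟩
    have h3 := lt_min_iff.mp h1
    refine ⟨h3.2, h3.1, ?_⟩
    simpa [h3.1] using h2

theorem mono_steps (φ : ℕ → ℝ) (m : ℕ) (hφ : ∀ q, q + 1 < m → φ q < φ (q + 1)) :
    ∀ q q', q < q' → q' < m → φ q < φ q' := by
  intro q q' hqq'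
  induction q' with
  | zero => omega
  | succ r ih =>
    intro hr
    rcases Nat.lt_succ_iff_lt_or_eq.mp hqq' with h | h
    · exact (ih h (by omega)).trans (hφ r hr)
    · subst h; exact hφ _ hr

theorem filter_le_iff (φ : ℕ → ℝ) (t : ℝ) (m : ℕ) (hφ : ∀ q, q + 1 < m → φ q < φ (q + 1))
    (q : ℕ) (hq : q < m) :
    φ q ≤ t ↔ q < ((Finset.range m).filter (fun q => φ q ≤ t)).card := by
  have h := downset_eq_range ((Finset.range m).filter (fun q => φ q ≤ t)) (by
    intro a ha b hb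
    simp only [Finset.mem_filter, Finset.mem_range] at ha ⊢
    exact ⟨by omega, ((mono_steps φ m hφ b a hb ha.1).le).trans ha.2⟩)
  constructor
  · intro h1
    have h2 : q ∈ (Finset.range m).filter (fun q => φ q ≤ t) := by simp [hq, h1]
    rw [h] at h2
    simpa using h2
  · intro h1
    have h2 : q ∈ Finset.range ((Finset.range m).filter (fun q => φ q ≤ t)).card := by simpa using h1
    rw [← h] at h2
    exact (Finset.mem_filter.mp h2).2

/-- Assembled event set of class `j`. -/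
noncomputable def evOf (L : ℕ → List J) (φ : ℕ → ℕ → ℝ) (I : ℕ) (j : J) : Finset ℝ :=
  (Finset.range I).biUnion fun i =>
    ((Finset.range (L i).length).filter (fun q => (L i)[q]? = some j)).image (φ i)

section Assembly

variable (L : ℕ → List J) (φ : ℕ → ℕ → ℝ) (I : ℕ) (T : ℕ → ℝ) (hT : Monotone T)
  (hφ : ∀ i, i < I → ∀ q, q < (L i).length → T i < φ i q ∧ φ i q < T (i + 1))
  (hinc : ∀ i, i < I → ∀ q, q + 1 < (L i).length → φ i q < φ i (q + 1))

include hT hφ in
theorem block_disj (i i' : ℕ) (hi : i < I) (hi' : i' < I) (hne : i ≠ i') (q q' : ℕ)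
    (hq : q < (L i).length) (hq' : q' < (L i').length) : φ i q ≠ φ i' q' := by
  intro he
  rcases lt_or_gt_of_ne hne with h | h
  · have h1 := (hφ i hi q hq).2
    have h2 := (hφ i' hi' q' hq').1
    have h3 : T (i + 1) ≤ T i' := hT (by omega)
    linarith
  · have h1 := (hφ i' hi' q' hq').2
    have h2 := (hφ i hi q hq).1
    have h3 : T (i' + 1) ≤ T i := hT (by omega)
    linarith

include hinc in
theorem block_inj (i : ℕ) (hi : i < I) (q q' : ℕ)
    (hq : q < (L i).length) (hq' : q' < (L i).length) (he : φ i q = φ i q') : q = q' := by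
  rcases lt_trichotomy q q' with h | h | h
  · exact absurd he (ne_of_lt (mono_steps (φ i) _ (hinc i hi) q q' h hq'))
  · exact h
  · exact absurd he.symm (ne_of_lt (mono_steps (φ i) _ (hinc i hi) q' q h hq))

include hT hφ hinc in
theorem card_evOf (j : J) : (evOf L φ I j).card = ∑ i ∈ Finset.range I, (L i).count j := by
  unfold evOf
  rw [Finset.card_biUnion]
  · refine Finset.sum_congr rfl fun i hi => ?_
    have hi' := Finset.mem_range.mp hi
    rw [Finset.card_image_of_injOn, card_idx]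
    intro q hq q' hq' he
    have h1 := Finset.mem_filter.mp (Finset.mem_coe.mp hq)
    have h2 := Finset.mem_filter.mp (Finset.mem_coe.mp hq')
    exact block_inj L φ I hinc i hi' q q' (Finset.mem_range.mp h1.1) (Finset.mem_range.mp h2.1) he
  · intro i hi i' hi' hne
    change Disjoint _ _
    rw [Finset.disjoint_left]
    intro x hx hx'
    obtain ⟨q, hq, rfl⟩ := Finset.mem_image.mp hx
    obtain ⟨q', hq', he⟩ := Finset.mem_image.mp hx'
    exact block_disj L φ I T hT hφ i i' (Finset.mem_range.mp hi) (Finset.mem_range.mp hi') hne q q'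
      (Finset.mem_range.mp (Finset.mem_filter.mp hq).1)
      (Finset.mem_range.mp (Finset.mem_filter.mp hq').1) he.symm

include hT hφ hinc in
theorem disjoint_evOf (j j' : J) (hne : j ≠ j') : Disjoint (evOf L φ I j) (evOf L φ I j') := by
  rw [Finset.disjoint_left]
  intro x hx hx'
  obtain ⟨i, hi, hx⟩ := Finset.mem_biUnion.mp hx
  obtain ⟨i', hi', hx'⟩ := Finset.mem_biUnion.mp hx'
  obtain ⟨q, hq, rfl⟩ := Finset.mem_image.mp hx
  obtain ⟨q', hq', he⟩ := Finset.mem_image.mp hx'
  have h1 := Finset.mem_filter.mp hq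
  have h2 := Finset.mem_filter.mp hq'
  have hi1 := Finset.mem_range.mp hi
  have hi2 := Finset.mem_range.mp hi'
  have hq1 := Finset.mem_range.mp h1.1
  have hq2 := Finset.mem_range.mp h2.1
  by_cases hii : i = i'
  · subst hii
    have hqq := block_inj L φ I hinc i hi1 q q' hq1 hq2 he.symm
    subst hqq
    rw [h1.2] at h2
    exact hne (Option.some.inj h2.2)
  · exact block_disj L φ I T hT hφ i i' hi1 hi2 hii q q' hq1 hq2 he.symm

include hT hφ hinc in
theorem cnt_evOf (j : J) (i : ℕ) (hi : i < I) (t : ℝ) (h1 : T i ≤ t) (h2 : t ≤ T (i + 1)) :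
    cnt (evOf L φ I) j t = ∑ i' ∈ Finset.range i, (L i').count j
      + ((L i).take (((Finset.range (L i).length).filter (fun q => φ i q ≤ t)).card)).count j := by
  unfold cnt evOf
  rw [Finset.filter_biUnion, Finset.card_biUnion]
  · set g : ℕ → ℕ := fun a => (((((Finset.range (L a).length).filter
      (fun q => (L a)[q]? = some j)).image (φ a))).filter (fun x => x ≤ t)).card with hg
    change ∑ a ∈ Finset.range I, g a = _
    have hsub : Finset.range (i + 1) ⊆ Finset.range I := by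
      intro a ha
      simp only [Finset.mem_range] at ha ⊢
      omega
    have hzero : ∀ a ∈ Finset.range I, a ∉ Finset.range (i + 1) → g a = 0 := by
      intro a ha ha'
      have ha1 := Finset.mem_range.mp ha
      have ha2 : i + 1 ≤ a := by simpa using ha'
      simp only [hg, Finset.card_eq_zero]
      rw [Finset.filter_eq_empty_iff]
      intro x hx hle
      obtain ⟨q, hq, rfl⟩ := Finset.mem_image.mp hx
      have h3 := (hφ a ha1 q (Finset.mem_range.mp (Finset.mem_filter.mp hq).1)).1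
      have h4 : T (i + 1) ≤ T a := hT ha2
      linarith
    rw [← Finset.sum_subset hsub hzero, Finset.sum_range_succ]
    congr 1
    · refine Finset.sum_congr rfl fun a ha => ?_
      have ha1 := Finset.mem_range.mp ha
      have ha2 : a < I := by omega
      simp only [hg]
      rw [Finset.filter_true_of_mem, Finset.card_image_of_injOn, card_idx]
      · intro q hq q' hq' he
        have h3 := Finset.mem_filter.mp (Finset.mem_coe.mp hq)
        have h4 := Finset.mem_filter.mp (Finset.mem_coe.mp hq')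
        exact block_inj L φ I hinc a ha2 q q' (Finset.mem_range.mp h3.1)
          (Finset.mem_range.mp h4.1) he
      · intro x hx
        obtain ⟨q, hq, rfl⟩ := Finset.mem_image.mp hx
        have h3 := (hφ a ha2 q (Finset.mem_range.mp (Finset.mem_filter.mp hq).1)).2
        have h4 : T (a + 1) ≤ T i := hT (by omega)
        linarith
    · simp only [hg]
      rw [← card_idx_take, Finset.filter_image, Finset.card_image_of_injOn]
      · congr 1
        ext q
        simp only [Finset.mem_filter, Finset.mem_range]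
        constructor
        · rintro ⟨⟨h3, h4⟩, h5⟩
          exact ⟨h3, (filter_le_iff (φ i) t _ (hinc i hi) q h3).mp h5, h4⟩
        · rintro ⟨h3, h4, h5⟩
          exact ⟨⟨h3, h5⟩, (filter_le_iff (φ i) t _ (hinc i hi) q h3).mpr h4⟩
      · intro q hq q' hq' he
        have h3 := Finset.mem_filter.mp (Finset.mem_coe.mp hq)
        have h4 := Finset.mem_filter.mp (Finset.mem_coe.mp hq')
        have h5 := Finset.mem_filter.mp h3.1
        have h6 := Finset.mem_filter.mp h4.1
        exact block_inj L φ I hinc i hi q q' (Finset.mem_range.mp h5.1)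
          (Finset.mem_range.mp h6.1) he
  · intro a ha a' ha' hne
    change Disjoint _ _
    rw [Finset.disjoint_left]
    intro x hx hx'
    obtain ⟨q, hq, rfl⟩ := Finset.mem_image.mp (Finset.mem_filter.mp hx).1
    obtain ⟨q', hq', he⟩ := Finset.mem_image.mp (Finset.mem_filter.mp hx').1
    exact block_disj L φ I T hT hφ a a' (Finset.mem_range.mp ha) (Finset.mem_range.mp ha') hne q q'
      (Finset.mem_range.mp (Finset.mem_filter.mp hq).1)
      (Finset.mem_range.mp (Finset.mem_filter.mp hq').1) he.symm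

end Assembly

end ListLemmas

section Analysis

variable {E : Type*} [NormedAddCommGroup E] [InnerProductSpace ℝ E]

theorem key_ineq (P p p' O O' Z : E) (σ B ι ω ζ : ℝ) (hσ0 : 0 ≤ σ) (hσ1 : σ ≤ 1) (hP : ‖P‖ ≤ B)
    (hp : ‖p‖ ≤ B) (hPp : ‖P - p‖ ≤ 2) (hPp' : ‖P - p'‖ ≤ 2) (hO : ⟪p, O⟫ ≤ 0) (hO' : ⟪p', O'⟫ ≤ 0)
    (hOn : ‖O‖ ≤ ω) (hOn' : ‖O'‖ ≤ ω) (hZ1 : ⟪p, Z⟫ ≤ ι * ‖p‖) (hZ2 : ‖Z‖ ≤ ζ) (hι : 0 ≤ ι)
    (hB : 0 ≤ B) :
    ‖P + ((1 - σ) • O + σ • O' + Z)‖ ≤ Real.sqrt (B ^ 2 + (ω + ζ + 2) ^ 2) + ι := by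
  have hω : 0 ≤ ω := (norm_nonneg _).trans hOn
  have hζ : 0 ≤ ζ := (norm_nonneg _).trans hZ2
  set X : E := (1 - σ) • O + σ • O' + Z with hX
  have h1 : ‖X‖ ≤ ω + ζ := by
    calc ‖X‖ ≤ ‖(1 - σ) • O‖ + ‖σ • O'‖ + ‖Z‖ := norm_add₃_le
      _ = (1 - σ) * ‖O‖ + σ * ‖O'‖ + ‖Z‖ := by
          rw [norm_smul, norm_smul, Real.norm_of_nonneg (by linarith), Real.norm_of_nonneg hσ0]
      _ ≤ (1 - σ) * ω + σ * ω + ζ := by
          gcongr
      _ = ω + ζ := by ring
  have h2 : ⟪P, O⟫ ≤ 2 * ω := by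
    have : ⟪P, O⟫ = ⟪p, O⟫ + ⟪P - p, O⟫ := by rw [inner_sub_left]; ring
    rw [this]
    have h3 := real_inner_le_norm (P - p) O
    nlinarith [norm_nonneg (P - p), norm_nonneg O]
  have h3 : ⟪P, O'⟫ ≤ 2 * ω := by
    have : ⟪P, O'⟫ = ⟪p', O'⟫ + ⟪P - p', O'⟫ := by rw [inner_sub_left]; ring
    rw [this]
    have h3 := real_inner_le_norm (P - p') O'
    nlinarith [norm_nonneg (P - p'), norm_nonneg O']
  have h4 : ⟪P, Z⟫ ≤ ι * B + 2 * ζ := by
    have : ⟪P, Z⟫ = ⟪p, Z⟫ + ⟪P - p, Z⟫ := by rw [inner_sub_left]; ring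
    rw [this]
    have h3 := real_inner_le_norm (P - p) Z
    have h5 : ι * ‖p‖ ≤ ι * B := by gcongr
    nlinarith [norm_nonneg (P - p), norm_nonneg Z]
  have h5 : ⟪P, X⟫ ≤ 2 * ω + ι * B + 2 * ζ := by
    rw [hX, inner_add_right, inner_add_right, real_inner_smul_right, real_inner_smul_right]
    have h6 : (1 - σ) * ⟪P, O⟫ ≤ (1 - σ) * (2 * ω) := by
      apply mul_le_mul_of_nonneg_left h2; linarith
    have h7 : σ * ⟪P, O'⟫ ≤ σ * (2 * ω) := mul_le_mul_of_nonneg_left h3 hσ0
    nlinarith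
  set W : ℝ := ω + ζ + 2 with hW
  have h6 : ‖P + X‖ ^ 2 ≤ B ^ 2 + W ^ 2 + 2 * ι * B := by
    have h7 : ‖P + X‖ ^ 2 = ‖P‖ ^ 2 + 2 * ⟪P, X⟫ + ‖X‖ ^ 2 := norm_add_sq_real P X
    have h8 : ‖P‖ ^ 2 ≤ B ^ 2 := by gcongr
    have h9 : ‖X‖ ^ 2 ≤ (ω + ζ) ^ 2 := by gcongr
    rw [h7, hW]
    nlinarith
  have h7 : B ≤ Real.sqrt (B ^ 2 + W ^ 2) := by
    apply Real.le_sqrt_of_sq_le
    nlinarith [sq_nonneg W]
  have h8 : 0 ≤ Real.sqrt (B ^ 2 + W ^ 2) + ι := by positivity
  have h9 : ‖P + X‖ ^ 2 ≤ (Real.sqrt (B ^ 2 + W ^ 2) + ι) ^ 2 := by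
    have h10 : Real.sqrt (B ^ 2 + W ^ 2) ^ 2 = B ^ 2 + W ^ 2 := Real.sq_sqrt (by positivity)
    nlinarith [mul_le_mul_of_nonneg_left h7 hι]
  exact abs_le_of_sq_le_sq' h9 h8 |>.2

theorem norm_map_sum_le {J : Type*} (S : Finset J) (c : J → E) (hc : ∀ j ∈ S, ‖c j‖ ≤ 1)
    (l : List J) (hl : ∀ j ∈ l, j ∈ S) : ‖(l.map c).sum‖ ≤ l.length := by
  induction l with
  | nil => simp
  | cons a l ih =>
    have h1 := ih (fun j hj => hl j (by simp [hj]))
    have h2 := hc a (hl a (by simp))
    rw [List.map_cons, List.sum_cons, List.length_cons]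
    push_cast
    calc _ ≤ ‖c a‖ + ‖(l.map c).sum‖ := norm_add_le _ _
      _ ≤ _ := by linarith

/-- Grid values `u i j` of the cumulative counts. -/
theorem exists_grid {J : Type*} [DecidableEq J] (S : Finset J) (c : J → E)
    (hc : ∀ j ∈ S, ‖c j‖ ≤ 1) (y : J → ℕ) (I : ℕ) (hI : 0 < I)
    (hmono : 1 < I → ∀ j ∈ S, 2 ≤ (y j : ℝ) / I) (Λ : ℝ → E) :
    ∃ u : ℕ → J → ℕ, (∀ j, u 0 j = 0) ∧ (∀ j, u I j = y j) ∧
      (∀ i, i < I → ∀ j ∈ S, u i j ≤ u (i + 1) j) ∧
      (∀ i, i < I → ∀ j ∈ S, (u (i + 1) j : ℝ) - u i j ≤ (y j : ℝ) / I + 2) ∧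
      (∀ i, i ≤ I → ⟪Λ ((i : ℝ) / I), ∑ j ∈ S, ((u i j : ℝ) - (i : ℝ) / I * y j) • c j⟫ ≤ 0 ∧
        ‖∑ j ∈ S, ((u i j : ℝ) - (i : ℝ) / I * y j) • c j‖ ≤ 2 * Real.sqrt S.card + 1) := by
  classical
  have hIR : (0 : ℝ) < I := by exact_mod_cast hI
  set x : ℕ → J → ℝ := fun i j => (i : ℝ) / I * y j with hx
  have hx0 : ∀ i j, 0 ≤ x i j := fun i j => by positivity
  set f : ℕ → J → ℝ := fun i j => x i j - (⌊x i j⌋₊ : ℝ) with hf
  have hf1 : ∀ i j, 0 ≤ f i j ∧ f i j ≤ 1 := by
    intro i j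
    have h1 := Nat.floor_le (hx0 i j)
    have h2 := Nat.lt_floor_add_one (x i j)
    simp only [hf]
    constructor <;> linarith
  have hz := fun i : ℕ => rounding S c hc (Λ ((i : ℝ) / I)) (f i) (fun j _ => hf1 i j)
  choose z hz1 hz2 hz3 using hz
  set u : ℕ → J → ℕ := fun i j =>
    if i = 0 then 0 else if i = I then y j else ⌊x i j⌋₊ + (if z i j = 1 then 1 else 0) with hu
  have hu0 : ∀ j, u 0 j = 0 := fun j => by simp [hu]
  have huI : ∀ j, u I j = y j := fun j => by simp [hu, hI.ne']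
  have hinter : ∀ i, i ≠ 0 → i ≠ I → ∀ j ∈ S, (u i j : ℝ) - x i j = z i j - f i j := by
    intro i hi0 hiI j hj
    simp only [hu, hi0, hiI, if_false, hf]
    rcases hz1 i j hj with h | h
    · simp [h]
    · simp [h]
      ring
  -- closeness to the linear interpolation
  have hclose : ∀ i, i ≤ I → ∀ j ∈ S, (u i j : ℝ) ≤ x i j + 1 ∧ x i j - 1 ≤ (u i j : ℝ) := by
    intro i hiI j hj
    by_cases hi0 : i = 0
    · subst hi0
      simp only [hu0, hx]
      norm_num
    by_cases hiI' : i = I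
    · subst hiI'
      simp only [huI, hx]
      rw [div_self hIR.ne']
      constructor <;> linarith
    · have h1 := hinter i hi0 hiI' j hj
      have h2 := hf1 i j
      have h3 : z i j = 0 ∨ z i j = 1 := hz1 i j hj
      rcases h3 with h3 | h3 <;> rw [h3] at h1 <;> constructor <;> linarith [h2.1, h2.2]
  have hxstep : ∀ i j, x (i + 1) j = x i j + (y j : ℝ) / I := by
    intro i j
    simp only [hx]
    push_cast
    ring
  refine ⟨u, hu0, huI, ?_, ?_, ?_⟩
  · intro i hi j hj
    by_cases hI1 : 1 < I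
    · have h1 := (hclose (i + 1) hi j hj).2
      have h2 := (hclose i hi.le j hj).1
      have h3 := hmono hI1 j hj
      have h4 := hxstep i j
      have : (u i j : ℝ) ≤ u (i + 1) j := by linarith
      exact_mod_cast this
    · have hI2 : I = 1 := by omega
      have hi0 : i = 0 := by omega
      subst hi0
      simp [hu0]
  · intro i hi j hj
    have h1 := (hclose (i + 1) hi j hj).1
    have h2 := (hclose i hi.le j hj).2
    have h4 := hxstep i j
    linarith
  · intro i hi
    by_cases hi0 : i = 0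
    · subst hi0
      have : ∀ j ∈ S, (((u 0 j : ℕ) : ℝ) - ((0 : ℕ) : ℝ) / I * y j) • c j = 0 := by
        intro j _
        simp [hu0]
      rw [Finset.sum_eq_zero this]
      simp
      positivity
    by_cases hiI : i = I
    · subst hiI
      have : ∀ j ∈ S, (((u i j : ℕ) : ℝ) - (i : ℝ) / i * y j) • c j = 0 := by
        intro j _
        rw [huI, div_self hIR.ne']
        simp
      rw [Finset.sum_eq_zero this]
      simp
      positivity
    · have : ∀ j ∈ S, (((u i j : ℕ) : ℝ) - (i : ℝ) / I * y j) • c j = (z i j - f i j) • c j := by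
        intro j hj
        rw [← hinter i hi0 hiI j hj]
      rw [Finset.sum_congr rfl this]
      exact ⟨hz2 i, hz3 i⟩

/-- One block: an order and firing times. -/
theorem exists_block {C : ℝ} (hC : 0 ≤ C) (H : BanBound C) {J : Type*} [DecidableEq J]
    (S : Finset J) (c : J → E) (hc : ∀ j ∈ S, ‖c j‖ ≤ 1) (ls : List J) (hls : ∀ j ∈ ls, j ∈ S)
    (T τ μ ι M : ℝ) (hm : (ls.length : ℝ) ≤ M) (hμ : 0 < μ) (hτ0 : 0 < τ) (hτ : 6 * M * μ ≤ τ)
    (hι : 3 * μ * M / τ ≤ ι) (hT0 : 0 ≤ T) (hT1 : T + τ ≤ 1) (A : Set ℝ)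
    (hA : ∀ x, 0 ≤ x → x + 2 * μ ≤ 1 → ∃ a ∈ A, x ≤ a ∧ a < x + 2 * μ) (p : E) :
    ∃ (ls' : List J) (φ : ℕ → ℝ), ls'.Perm ls ∧
      (∀ q, q < ls.length → φ q ∈ A ∧ T < φ q ∧ φ q < T + τ) ∧
      (∀ q, q + 1 < ls.length → φ q < φ (q + 1)) ∧
      ∀ t, T ≤ t → t ≤ T + τ →
        ⟪p, ((ls'.take ((Finset.range ls.length).filter (fun q => φ q ≤ t)).card).map c).sum
            - ((t - T) / τ) • (ls.map c).sum⟫ ≤ ι * ‖p‖ ∧
        ‖((ls'.take ((Finset.range ls.length).filter (fun q => φ q ≤ t)).card).map c).sum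
            - ((t - T) / τ) • (ls.map c).sum‖
          ≤ 4 * C * (Real.sqrt S.card + Real.sqrt (Real.log (M + 1))) + 2 := by
  have hM0 : 0 ≤ M := (Nat.cast_nonneg _).trans hm
  have hι0 : 0 ≤ ι := le_trans (by positivity) hι
  have hRnn : 0 ≤ 4 * C * (Real.sqrt S.card + Real.sqrt (Real.log (M + 1))) := by positivity
  rcases List.eq_nil_or_concat' ls with rfl | hne
  · refine ⟨[], fun _ => 0, List.Perm.refl _, by simp, by simp, ?_⟩
    intro t _ _
    simp only [List.take_nil, List.map_nil, List.sum_nil, smul_zero, sub_zero, inner_zero_right,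
      norm_zero]
    exact ⟨by positivity, by linarith⟩
  have hls0 : ls ≠ [] := by
    obtain ⟨L, b, rfl⟩ := hne
    simp
  set m := ls.length with hmdef
  have hm0 : 0 < m := List.length_pos_iff.mpr hls0
  have hmR : (0 : ℝ) < m := by exact_mod_cast hm0
  set s : E := (ls.map c).sum with hs
  have hsn : ‖s‖ ≤ m := norm_map_sum_le S c hc ls hls
  obtain ⟨ls', hperm, hord⟩ := closed_order hC H c S hc ls hls hls0 p
  have hτ' : 6 * (m : ℝ) * μ ≤ τ := by
    refine le_trans ?_ hτ
    gcongr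
  obtain ⟨φ, hφ1, hφ2, hφ3⟩ := fire_times T τ μ m hm0 hμ hτ' hT0 hT1 A hA (decide (0 ≤ ⟪p, s⟫))
  refine ⟨ls', φ, hperm, hφ1, hφ2, ?_⟩
  intro t ht1 ht2
  have hσ := hφ3 t ht1 ht2
  simp only at hσ
  set k : ℕ := ((Finset.range m).filter (fun q => φ q ≤ t)).card with hk
  set σ : ℝ := (t - T) / τ with hσdef
  have hkm : k ≤ m := by
    calc k ≤ (Finset.range m).card := Finset.card_filter_le _ _
      _ = m := Finset.card_range m
  obtain ⟨hD1, hD2⟩ := hord k hkm
  set D : E := ((ls'.take k).map c).sum - ((k : ℝ) / m) • s with hD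
  have hZ : ((ls'.take k).map c).sum - σ • s = D + ((k : ℝ) / m - σ) • s := by
    rw [hD, sub_smul]
    abel
  rw [hZ]
  have hpq : 3 * μ / τ * m ≤ 3 * μ * M / τ := by
    rw [div_mul_eq_mul_div]
    gcongr
  have hpq2 : 3 * μ * M / τ ≤ 1 / 2 := by
    rw [div_le_iff₀ hτ0]
    linarith
  -- bound of the coefficient
  have hcoef : |((k : ℝ) / m - σ)| * ‖s‖ ≤ 2 := by
    have hgen : ∀ b : ℝ, |((k : ℝ) / m - σ)| ≤ b → 0 ≤ b → |((k : ℝ) / m - σ)| * ‖s‖ ≤ b * m := by
      intro b hb hb0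
      exact mul_le_mul hb hsn (norm_nonneg _) hb0
    have h2m : (2 : ℝ) / m * m = 2 := by field_simp
    have h3m : 3 * μ / τ * m ≤ 2 := by linarith
    have h3p : 0 ≤ 3 * μ / τ := by positivity
    have hσ0 : 0 ≤ σ := div_nonneg (by linarith) hτ0.le
    have hσ1 : σ ≤ 1 := by
      rw [hσdef, div_le_one hτ0]; linarith
    by_cases hup : 0 ≤ ⟪p, s⟫
    · have h1 := hσ.1 (by simpa using hup)
      rcases lt_or_eq_of_le hkm with hlt | heq
      · obtain ⟨h3, h4⟩ := h1.1 hlt
        have : |((k : ℝ) / m - σ)| ≤ 2 / m := by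
          rw [abs_le]; constructor <;> linarith [show (0:ℝ) ≤ 2 / m by positivity]
        have := hgen _ this (by positivity)
        linarith
      · have h3 := h1.2 heq
        have hk1 : (k : ℝ) / m = 1 := by
          rw [heq]; field_simp
        have : |((k : ℝ) / m - σ)| ≤ 3 * μ / τ := by
          rw [hk1, abs_le]; constructor <;> linarith
        have := hgen _ this h3p
        linarith
    · have h1 := hσ.2 (by simpa using hup)
      rcases Nat.eq_zero_or_pos k with heq | hpos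
      · have h3 := h1.2 heq
        have hk1 : (k : ℝ) / m = 0 := by
          rw [heq]; simp
        have : |((k : ℝ) / m - σ)| ≤ 3 * μ / τ := by
          rw [hk1, abs_le]; constructor <;> linarith
        have := hgen _ this h3p
        linarith
      · obtain ⟨h3, h4⟩ := h1.1 hpos
        have : |((k : ℝ) / m - σ)| ≤ 2 / m := by
          rw [abs_le]; constructor <;> linarith [show (0:ℝ) ≤ 2 / m by positivity]
        have := hgen _ this (by positivity)
        linarith
  constructor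
  · -- inner product
    rw [inner_add_right, real_inner_smul_right]
    have hpn := norm_nonneg p
    have hps : |⟪p, s⟫| ≤ ‖p‖ * m := by
      refine (abs_real_inner_le_norm p s).trans ?_
      gcongr
    have hbound : 3 * μ / τ * (‖p‖ * m) ≤ ι * ‖p‖ := by
      have : 3 * μ / τ * m ≤ ι := hpq.trans hι
      nlinarith
    have h3p : 0 ≤ 3 * μ / τ := by positivity
    have hps1 := (abs_le.mp hps).1
    have hps2 := (abs_le.mp hps).2
    have hσ0 : 0 ≤ σ := div_nonneg (by linarith) hτ0.le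
    by_cases hup : 0 ≤ ⟪p, s⟫
    · have h1 := hσ.1 (by simpa using hup)
      rcases lt_or_eq_of_le hkm with hlt | heq
      · obtain ⟨h3, _⟩ := h1.1 hlt
        have : ((k : ℝ) / m - σ) * ⟪p, s⟫ ≤ 0 :=
          mul_nonpos_of_nonpos_of_nonneg (by linarith) hup
        have : 0 ≤ ι * ‖p‖ := by positivity
        linarith
      · have h3 := h1.2 heq
        have hk1 : (k : ℝ) / m = 1 := by
          rw [heq]; field_simp
        rw [hk1]
        have : (1 - σ) * ⟪p, s⟫ ≤ 3 * μ / τ * (‖p‖ * m) :=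
          (mul_le_mul_of_nonneg_right h3 hup).trans (mul_le_mul_of_nonneg_left hps2 h3p)
        linarith
    · push Not at hup
      have h1 := hσ.2 (by simpa using hup.not_ge)
      rcases Nat.eq_zero_or_pos k with heq | hpos
      · have h3 := h1.2 heq
        have hk1 : (k : ℝ) / m = 0 := by
          rw [heq]; simp
        rw [hk1]
        have h5 : σ * (-⟪p, s⟫) ≤ 3 * μ / τ * (‖p‖ * m) :=
          (mul_le_mul_of_nonneg_right h3 (by linarith)).trans
            (mul_le_mul_of_nonneg_left (by linarith) h3p)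
        nlinarith
      · obtain ⟨h3, _⟩ := h1.1 hpos
        have : ((k : ℝ) / m - σ) * ⟪p, s⟫ ≤ 0 :=
          mul_nonpos_of_nonneg_of_nonpos h3 hup.le
        have : 0 ≤ ι * ‖p‖ := by positivity
        linarith
  · -- norm
    have hRm : 4 * C * (Real.sqrt S.card + Real.sqrt (Real.log (m + 1)))
        ≤ 4 * C * (Real.sqrt S.card + Real.sqrt (Real.log (M + 1))) := by
      have h1 : Real.log ((m : ℝ) + 1) ≤ Real.log (M + 1) :=
        Real.log_le_log (by positivity) (by linarith)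
      have h2 := Real.sqrt_le_sqrt h1
      gcongr
    calc ‖D + ((k : ℝ) / m - σ) • s‖ ≤ ‖D‖ + ‖((k : ℝ) / m - σ) • s‖ := norm_add_le _ _
      _ = ‖D‖ + |((k : ℝ) / m - σ)| * ‖s‖ := by rw [norm_smul, Real.norm_eq_abs]
      _ ≤ _ := by linarith

/-- M4: the group lemma. -/
theorem group_step {C : ℝ} (hC : 0 ≤ C) (H : BanBound C) {J : Type*} [DecidableEq J] (S : Finset J)
    (c : J → E) (hc : ∀ j ∈ S, ‖c j‖ ≤ 1) (y : J → ℕ) (I : ℕ) (hI : 0 < I)
    (hmono : 1 < I → ∀ j ∈ S, 2 ≤ (y j : ℝ) / I) (M : ℝ)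
    (hM : ∑ j ∈ S, ((y j : ℝ) / I + 2) ≤ M) (μ : ℝ) (hμ : 0 < μ) (hμ' : 6 * M * μ ≤ 1 / (I : ℝ))
    (ι : ℝ) (hθ : 3 * μ * M * I ≤ ι)
    (A : Set ℝ) (hA : ∀ x, 0 ≤ x → x + 2 * μ ≤ 1 → ∃ a ∈ A, x ≤ a ∧ a < x + 2 * μ)
    (Λ : ℝ → E) (B : ℝ) (hB : 0 ≤ B) (hΛ : ∀ t ∈ Icc (0 : ℝ) 1, ‖Λ t‖ ≤ B)
    (hmod : ∀ s ∈ Icc (0 : ℝ) 1, ∀ t ∈ Icc (0 : ℝ) 1, |s - t| ≤ 1 / (I : ℝ) → ‖Λ s - Λ t‖ ≤ 2) :
    ∃ ev : J → Finset ℝ, (∀ j ∈ S, (ev j).card = y j) ∧
      (∀ j ∈ S, ∀ x ∈ ev j, x ∈ A ∧ 0 < x ∧ x < 1) ∧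
      (∀ j ∈ S, ∀ j' ∈ S, j ≠ j' → Disjoint (ev j) (ev j')) ∧
      ∀ t ∈ Icc (0 : ℝ) 1, ‖Λ t + Off c y ev S t‖ ≤
        Real.sqrt (B ^ 2 + (2 * Real.sqrt S.card + 5 +
          4 * C * (Real.sqrt S.card + Real.sqrt (Real.log (M + 1)))) ^ 2) + ι := by
  classical
  have hIR : (0 : ℝ) < I := by exact_mod_cast hI
  set τ : ℝ := 1 / (I : ℝ) with hτdef
  have hτ0 : 0 < τ := by positivity
  obtain ⟨u, hu0, huI, humono, hustep, huO⟩ := exists_grid S c hc y I hI hmono Λ
  have hls := fun i : ℕ => exists_list_count S (fun j => u (i + 1) j - u i j)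
  choose ls hls1 hls2 hls3 using hls
  have hlen : ∀ i, i < I → ((ls i).length : ℝ) ≤ M := by
    intro i hi
    rw [hls3 i]
    push_cast
    refine le_trans (Finset.sum_le_sum fun j hj => ?_) hM
    rw [Nat.cast_sub (humono i hi j hj)]
    exact hustep i hi j hj
  have hM0 : 0 ≤ M := le_trans (Finset.sum_nonneg fun j _ => by positivity) hM
  set T : ℕ → ℝ := fun i => (i : ℝ) / I with hT
  have hTmono : Monotone T := by
    intro a b hab
    simp only [hT]
    have : (a : ℝ) ≤ b := by exact_mod_cast hab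
    gcongr
  have hTstep : ∀ i, T i + τ = T (i + 1) := by
    intro i
    simp only [hT, hτdef]
    push_cast
    ring
  have hT0 : ∀ i, 0 ≤ T i := fun i => by
    simp only [hT]
    positivity
  have hT1 : ∀ i, i ≤ I → T i ≤ 1 := by
    intro i hi
    simp only [hT]
    rw [div_le_one hIR]
    exact_mod_cast hi
  have hιτ : 3 * μ * M / τ ≤ ι := by
    have : 3 * μ * M / τ = 3 * μ * M * I := by
      rw [hτdef]
      field_simp
    rw [this]
    exact hθ
  have hι0 : 0 ≤ ι := le_trans (by positivity) hιτ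
  have hblock : ∀ i, i < I → _ := fun i hi =>
    exists_block hC H S c hc (ls i) (hls1 i) (T i) τ μ ι M (hlen i hi) hμ hτ0 hμ' hιτ (hT0 i)
      (by rw [hTstep]; exact hT1 _ hi) A hA (Λ (T i))
  choose! L φ hL1 hL2 hL3 hL4 using hblock
  have hLlen : ∀ i, i < I → (L i).length = (ls i).length := fun i hi => (hL1 i hi).length_eq
  have hφ : ∀ i, i < I → ∀ q, q < (L i).length → T i < φ i q ∧ φ i q < T (i + 1) := by
    intro i hi q hq
    rw [hLlen i hi] at hq
    have := (hL2 i hi q hq).2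
    rw [hTstep] at this
    exact this
  have hinc : ∀ i, i < I → ∀ q, q + 1 < (L i).length → φ i q < φ i (q + 1) := by
    intro i hi q hq
    rw [hLlen i hi] at hq
    exact hL3 i hi q hq
  have hLcount : ∀ i, i < I → ∀ j ∈ S, (L i).count j = u (i + 1) j - u i j := by
    intro i hi j hj
    rw [(hL1 i hi).count_eq, hls2 i j hj]
  have hLmem : ∀ i, i < I → ∀ j ∈ L i, j ∈ S := fun i hi j hj =>
    hls1 i j ((hL1 i hi).mem_iff.mp hj)
  have hpartial : ∀ i, i ≤ I → ∀ j ∈ S, ∑ i' ∈ Finset.range i, (L i').count j = u i j := by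
    intro i
    induction i with
    | zero => intro _ j _; simp [hu0]
    | succ r ih =>
      intro hr j hj
      rw [Finset.sum_range_succ, ih (by omega) j hj, hLcount r (by omega) j hj]
      have := humono r (by omega) j hj
      omega
  set ω : ℝ := 2 * Real.sqrt S.card + 1 with hω
  set R : ℝ := 4 * C * (Real.sqrt S.card + Real.sqrt (Real.log (M + 1))) with hR
  refine ⟨evOf L φ I, ?_, ?_, ?_, ?_⟩
  · intro j hj
    rw [card_evOf L φ I T hTmono hφ hinc j, hpartial I le_rfl j hj, huI]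
  · intro j _ x hx
    obtain ⟨i, hi, hx⟩ := Finset.mem_biUnion.mp hx
    have hi1 := Finset.mem_range.mp hi
    obtain ⟨q, hq, rfl⟩ := Finset.mem_image.mp hx
    have hq1 := Finset.mem_range.mp (Finset.mem_filter.mp hq).1
    have h1 := hφ i hi1 q hq1
    have h2 := hL2 i hi1 q (by rwa [hLlen i hi1] at hq1)
    refine ⟨h2.1, lt_of_le_of_lt (hT0 i) h1.1, lt_of_lt_of_le h1.2 (hT1 _ hi1)⟩
  · intro j _ j' _ hne
    exact disjoint_evOf L φ I T hTmono hφ hinc j j' hne
  · intro t ht
    -- locate the block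
    have hex : ∃ i, i < I ∧ T i ≤ t ∧ t ≤ T (i + 1) := by
      by_cases h1 : t = 1
      · refine ⟨I - 1, by omega, ?_, ?_⟩
        · rw [h1]; exact hT1 _ (by omega)
        · have : I - 1 + 1 = I := by omega
          rw [this, h1]
          simp only [hT]
          rw [div_self hIR.ne']
      · have ht1 : t < 1 := lt_of_le_of_ne ht.2 h1
        have htI : 0 ≤ t * I := mul_nonneg ht.1 hIR.le
        refine ⟨⌊t * I⌋₊, ?_, ?_, ?_⟩
        · rw [Nat.floor_lt htI]
          nlinarith
        · simp only [hT]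
          rw [div_le_iff₀ hIR]
          exact Nat.floor_le htI
        · simp only [hT]
          rw [le_div_iff₀ hIR]
          push_cast
          exact (Nat.lt_floor_add_one _).le
    obtain ⟨i, hi, hti1, hti2⟩ := hex
    have hTi01 : T i ∈ Icc (0 : ℝ) 1 := ⟨hT0 i, hT1 i hi.le⟩
    have hTs01 : T (i + 1) ∈ Icc (0 : ℝ) 1 := ⟨hT0 _, hT1 _ hi⟩
    set k : ℕ := ((Finset.range (ls i).length).filter (fun q => φ i q ≤ t)).card with hk
    have hcnt : ∀ j ∈ S, cnt (evOf L φ I) j t = u i j + ((L i).take k).count j := by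
      intro j hj
      have := cnt_evOf L φ I T hTmono hφ hinc j i hi t hti1 hti2
      rw [hpartial i hi.le j hj, hLlen i hi] at this
      exact this
    set O : ℕ → E := fun a => ∑ j ∈ S, ((u a j : ℝ) - (a : ℝ) / I * y j) • c j with hOdef
    set V : E := (((L i).take k).map c).sum with hV
    set s : E := ((ls i).map c).sum with hs
    set D : E := ∑ j ∈ S, (y j : ℝ) • c j with hD
    have hV2 : V = ∑ j ∈ S, ((((L i).take k).count j : ℕ) : ℝ) • c j :=
      map_sum_eq_sum_count S c _ (fun j hj => hLmem i hi j (List.mem_of_mem_take hj))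
    have hs2 : s = ∑ j ∈ S, (((u (i + 1) j : ℝ) - u i j)) • c j := by
      rw [hs, map_sum_eq_sum_count S c _ (hls1 i)]
      refine Finset.sum_congr rfl fun j hj => ?_
      rw [hls2 i j hj, Nat.cast_sub (humono i hi j hj)]
    have hOstep : O (i + 1) = O i + s - τ • D := by
      simp only [hOdef]
      rw [hs2, hD, Finset.smul_sum, ← Finset.sum_add_distrib, ← Finset.sum_sub_distrib]
      refine Finset.sum_congr rfl fun j _ => ?_
      have hττ : ((i + 1 : ℕ) : ℝ) / I = (i : ℝ) / I + τ := by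
        rw [hτdef]
        push_cast
        ring
      rw [hττ]
      module
    have hOff : Off c y (evOf L φ I) S t = O i + V - (t - T i) • D := by
      unfold Off
      rw [hV2, hD, Finset.smul_sum]
      simp only [hOdef]
      rw [← Finset.sum_add_distrib, ← Finset.sum_sub_distrib]
      refine Finset.sum_congr rfl fun j hj => ?_
      rw [hcnt j hj]
      push_cast
      simp only [hT]
      module
    set σ : ℝ := (t - T i) / τ with hσ
    have hσ0 : 0 ≤ σ := div_nonneg (by linarith) hτ0.le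
    have hσ1 : σ ≤ 1 := by
      rw [hσ, div_le_one hτ0]
      have := hTstep i
      linarith
    have hστ : t - T i = σ * τ := by
      rw [hσ]
      field_simp
    have hdec : Off c y (evOf L φ I) S t = (1 - σ) • O i + σ • O (i + 1) + (V - σ • s) := by
      rw [hOff, hOstep, hστ]
      module
    obtain ⟨hZ1, hZ2⟩ := hL4 i hi t hti1 (by rw [hTstep]; exact hti2)
    have hperm : ((L i).take k).map c = ((L i).take k).map c := rfl
    have hZ1' : ⟪Λ (T i), V - σ • s⟫ ≤ ι * ‖Λ (T i)‖ := hZ1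
    have hZ2' : ‖V - σ • s‖ ≤ R + 2 := hZ2
    rw [hdec]
    have hfinal := key_ineq (Λ t) (Λ (T i)) (Λ (T (i + 1))) (O i) (O (i + 1)) (V - σ • s) σ B ι ω
      (R + 2) hσ0 hσ1 (hΛ t ht) (hΛ _ hTi01)
      (hmod t ht _ hTi01 (by
        rw [abs_of_nonneg (by linarith)]
        have := hTstep i
        linarith))
      (hmod t ht _ hTs01 (by
        rw [abs_sub_comm, abs_of_nonneg (by linarith)]
        have := hTstep i
        linarith))
      (huO i hi.le).1 (huO (i + 1) hi).1 (huO i hi.le).2 (huO (i + 1) hi).2 hZ1' hZ2' hι0 hB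
    have hWeq : ω + (R + 2) + 2 = 2 * Real.sqrt S.card + 5 + R := by
      rw [hω]
      ring
    rw [hWeq] at hfinal
    exact hfinal

end Analysis

end Vale.Agent.Lib.P262.St
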