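import Vale.Agent.Lib.P262.St.Defs

/-!
Bookkeeping for the main induction: instantiating a label list with stocks of vectors,
cutting a list into consecutive runs.
-/

namespace Vale.Agent.Lib.P262.St

section Inst

variable {J A : Type*} [DecidableEq J] [AddCommMonoid A]

/-- Replace the `i`-th occurrence of a label by the `i`-th item of its stock. -/
lemma instantiate (S : Finset J) (l : List J) (hl : ∀ j ∈ l, j ∈ S) :
    ∀ stock : J → List A, (∀ j ∈ S, (stock j).length = l.count j) →
    ∃ a : List A, a.length = l.length ∧
      (∀ k, (a.take k).sum = ∑ j ∈ S, ((stock j).take ((l.take k).count j)).sum) ∧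
      ((a : Multiset A) = ∑ j ∈ S, ((stock j : List A) : Multiset A)) := by
  induction l with
  | nil =>
    intro stock hs
    have h0 : ∀ j ∈ S, stock j = [] := by
      intro j hj
      have := hs j hj
      simpa using this
    refine ⟨[], rfl, ?_, ?_⟩
    · intro k
      simp only [List.take_nil, List.sum_nil, List.count_nil, List.take_zero]
      simp
    · symm
      apply Finset.sum_eq_zero
      intro j hj
      rw [h0 j hj]
      rfl
  | cons j₀ l ih =>
    intro stock hs
    have hj₀ : j₀ ∈ S := hl j₀ (by simp)
    have hlen := hs j₀ hj₀
    rw [List.count_cons_self] at hlen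
    obtain ⟨v, rest, hv⟩ : ∃ v rest, stock j₀ = v :: rest := by
      cases hst : stock j₀ with
      | nil =>
        rw [hst] at hlen
        simp at hlen
      | cons v rest => exact ⟨v, rest, rfl⟩
    have hrest : rest.length = l.count j₀ := by
      rw [hv] at hlen
      simpa using hlen
    let stock' : J → List A := Function.update stock j₀ rest
    have hs1 : stock' j₀ = rest := by simp [stock']
    have hs2 : ∀ j, j ≠ j₀ → stock' j = stock j := by
      intro j hj
      simp [stock', hj]
    obtain ⟨a, h1, h2, h3⟩ := ih (fun j hj => hl j (by simp [hj])) stock' (by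
      intro j hj
      by_cases hjj : j = j₀
      · subst hjj
        rw [hs1, hrest]
      · rw [hs2 j hjj, hs j hj, List.count_cons_of_ne (Ne.symm hjj)])
    refine ⟨v :: a, by simp [h1], ?_, ?_⟩
    · intro k
      cases k with
      | zero => simp
      | succ k =>
        rw [List.take_succ_cons, List.take_succ_cons, List.sum_cons, h2 k]
        rw [← Finset.add_sum_erase S _ hj₀, ← Finset.add_sum_erase S _ hj₀]
        have h4 : ∑ j ∈ S.erase j₀, ((stock' j).take ((l.take k).count j)).sum
            = ∑ j ∈ S.erase j₀, ((stock j).take (((j₀ :: l.take k)).count j)).sum := by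
          apply Finset.sum_congr rfl
          intro j hj
          have hne := Finset.ne_of_mem_erase hj
          rw [hs2 j hne, List.count_cons_of_ne (Ne.symm hne)]
        rw [h4, hs1, hv, List.count_cons_self, List.take_succ_cons, List.sum_cons, add_assoc]
    · have h5 : ((v :: a : List A) : Multiset A) = {v} + (a : Multiset A) := rfl
      rw [h5, h3, ← Finset.add_sum_erase S _ hj₀, ← Finset.add_sum_erase S _ hj₀]
      have h6 : ∑ j ∈ S.erase j₀, ((stock' j : List A) : Multiset A)
          = ∑ j ∈ S.erase j₀, ((stock j : List A) : Multiset A) := by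
        apply Finset.sum_congr rfl
        intro j hj
        rw [hs2 j (Finset.ne_of_mem_erase hj)]
      rw [h6, hs1, hv, ← add_assoc]
      rfl

end Inst

section Runs

variable {A : Type*}

/-- Cut a list into consecutive runs of prescribed sizes and a leftover. -/
lemma cut_runs (R : ℕ) : ∀ (L : List A) (y : Fin R → ℕ), ∑ r, y r ≤ L.length →
    ∃ (run : Fin R → List A) (left : List A),
      (∀ r, (run r).length = y r ∧ ∃ a, a + y r ≤ L.length ∧ run r = (L.drop a).take (y r)) ∧
      ((L : Multiset A) = ∑ r, ((run r : List A) : Multiset A) + (left : Multiset A)) := by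
  induction R with
  | zero =>
    intro L y _
    exact ⟨Fin.elim0, L, fun r => r.elim0, by simp⟩
  | succ R ih =>
    intro L y hy
    rw [Fin.sum_univ_succ] at hy
    obtain ⟨run, left, h1, h2⟩ := ih (L.drop (y 0)) (fun r => y r.succ) (by
      rw [List.length_drop]
      omega)
    refine ⟨Fin.cons (L.take (y 0)) run, left, ?_, ?_⟩
    · intro r
      refine Fin.cases ?_ (fun r => ?_) r
      · simp only [Fin.cons_zero]
        refine ⟨by rw [List.length_take]; omega, 0, by omega, by simp⟩
      · simp only [Fin.cons_succ]
        obtain ⟨hl, a, ha, hr⟩ := h1 r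
        refine ⟨hl, y 0 + a, ?_, ?_⟩
        · rw [List.length_drop] at ha
          omega
        · rw [hr, List.drop_drop]
    · rw [Fin.sum_univ_succ]
      simp only [Fin.cons_zero, Fin.cons_succ]
      rw [add_assoc, ← h2, Multiset.coe_add, List.take_append_drop]

end Runs

section Part

variable {J A : Type*} [DecidableEq J]

/-- A list is the sum of its classes. -/
lemma multiset_partition [AddCommMonoid A] (g : A → J) (K : Finset J) (l : List A) (hl : ∀ v ∈ l, g v ∈ K) :
    (l : Multiset A) = ∑ j ∈ K, ((l.filter (fun v => g v = j) : List A) : Multiset A) := by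
  induction l with
  | nil => simp
  | cons v l ih =>
    have hv := hl v (by simp)
    have h1 := ih (fun w hw => hl w (by simp [hw]))
    have h5 : ((v :: l : List A) : Multiset A) = {v} + (l : Multiset A) := rfl
    rw [h5, h1, ← Finset.add_sum_erase K _ hv, ← Finset.add_sum_erase K _ hv]
    have h6 : ∑ j ∈ K.erase (g v), ((l.filter (fun w => g w = j) : List A) : Multiset A)
        = ∑ j ∈ K.erase (g v), (((v :: l).filter (fun w => g w = j) : List A) : Multiset A) := by
      apply Finset.sum_congr rfl
      intro j hj
      have hne := Finset.ne_of_mem_erase hj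
      rw [List.filter_cons_of_neg]
      simpa using Ne.symm hne
    rw [h6, List.filter_cons_of_pos (by simp), ← add_assoc]
    rfl

end Part

end Vale.Agent.Lib.P262.St
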