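import Vale.Agent.Lib.P262.St.Ban

/-!
Assembly of the top level of the main induction: a zero-sum family of pieces is ordered by
Banaszczyk's bound, and the pieces are then expanded.
-/

namespace Vale.Agent.Lib.P262.St

variable {E : Type*} [NormedAddCommGroup E]

lemma prefix_flatten_aux {A X : ℝ} (hX : 0 ≤ X) (L : List (List E)) (a : E)
    (hL : ∀ q ∈ L, PrefixBd q X) (hA : ∀ k, ‖a + ((L.map List.sum).take k).sum‖ ≤ A) (m : ℕ) :
    ‖a + (L.flatten.take m).sum‖ ≤ A + X := by
  induction L generalizing a m with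
  | nil =>
    have := hA 0
    simp at this ⊢
    linarith
  | cons q r ih =>
    have h0 : ‖a‖ ≤ A := by simpa using hA 0
    rw [List.flatten_cons, List.take_append, List.sum_append]
    rcases Nat.le_total m q.length with hm | hm
    · have e : m - q.length = 0 := by omega
      rw [e, List.take_zero, List.sum_nil, add_zero]
      have h1 := hL q (by simp) m
      calc ‖a + (q.take m).sum‖ ≤ ‖a‖ + ‖(q.take m).sum‖ := norm_add_le _ _
        _ ≤ A + X := by linarith
    · rw [List.take_of_length_le hm, ← add_assoc]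
      refine ih (a + q.sum) (fun q' hq' => hL q' (by simp [hq'])) (fun k => ?_) _
      have := hA (k + 1)
      simpa [add_assoc] using this

/-- A list of pieces with bounded partial sums of pieces and bounded prefixes inside pieces. -/
lemma prefix_flatten {A X : ℝ} (hX : 0 ≤ X) (L : List (List E))
    (hL : ∀ q ∈ L, PrefixBd q X) (hA : PrefixBd (L.map List.sum) A) :
    PrefixBd L.flatten (A + X) := by
  intro m
  have := prefix_flatten_aux hX L 0 hL (fun k => by simpa using hA k) m
  simpa using this

/-- M10a. -/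
theorem top_assemble {C : ℝ} (hC : 0 ≤ C) (H : BanBound C) {d : ℕ}
    (P : List (List (EuclideanSpace ℝ (Fin d)))) (X : ℝ) (hX : 0 ≤ X) (W : ℕ) (hW : P.length ≤ W)
    (hP : ∀ q ∈ P, ‖q.sum‖ ≤ 1 ∧ PrefixBd q X) (hs : (P.map List.sum).sum = 0) :
    ∃ P' : List (List (EuclideanSpace ℝ (Fin d))), P'.Perm P ∧
      PrefixBd P'.flatten (C * (Real.sqrt d + Real.sqrt (Real.log (W + 1))) + X) := by
  obtain ⟨P', hperm, hP'⟩ := ban_labelled (E := EuclideanSpace ℝ (Fin d)) hC H List.sum P 1
    zero_le_one (fun q hq => (hP q hq).1) hs ⊤ (fun _ _ => Submodule.mem_top) d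
    (by simp)
  refine ⟨P', hperm, ?_⟩
  refine prefix_flatten hX P' (fun q hq => (hP q (hperm.mem_iff.1 hq)).2) ?_
  intro k
  refine (hP' k).trans ?_
  rw [one_mul]
  refine mul_le_mul_of_nonneg_left ?_ hC
  have hlog : Real.log ((P.length : ℝ) + 1) ≤ Real.log ((W : ℝ) + 1) := by
    apply Real.log_le_log (by positivity)
    have : (P.length : ℝ) ≤ W := by exact_mod_cast hW
    linarith
  have := Real.sqrt_le_sqrt hlog
  linarith

end Vale.Agent.Lib.P262.St
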