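import Vale.Agent.Lib.P262.St.Simplex
import Vale.Agent.Lib.P262.St.Cone
import Vale.Agent.Lib.P262.St.Top
import Vale.Agent.Lib.P262.St.Count

/-!
The main induction: removal of the number of vectors from the Steinitz bound.
-/

namespace Vale.Agent.Lib.P262.St

lemma join_pieces {A : Type*} (R : ℕ) (PP : Fin R → List (List A)) :
    ∃ PA : List (List A), PA.length = ∑ r, (PP r).length ∧ (∀ q ∈ PA, ∃ r, q ∈ PP r) ∧
      ((PA.flatten : List A) : Multiset A) = ∑ r, (((PP r).flatten : List A) : Multiset A) := by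
  induction R with
  | zero => exact ⟨[], by simp, by simp, by simp⟩
  | succ R ih =>
    obtain ⟨PA, h1, h2, h3⟩ := ih (fun r => PP r.succ)
    refine ⟨PP 0 ++ PA, ?_, ?_, ?_⟩
    · rw [List.length_append, h1, Fin.sum_univ_succ]
    · intro q hq
      rcases List.mem_append.1 hq with h | h
      · exact ⟨0, h⟩
      · obtain ⟨r, hr⟩ := h2 q h
        exact ⟨r.succ, hr⟩
    · rw [List.flatten_append, Fin.sum_univ_succ, ← h3, Multiset.coe_add]

lemma flatten_map_singleton {A : Type*} (l : List A) : (l.map (fun v => [v])).flatten = l := by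
  induction l with
  | nil => simp
  | cons x l ih => simp [ih]

lemma list_sum_eq_of_multiset {A : Type*} [AddCommMonoid A] {J : Type*} (K : Finset J) (l : List A)
    (L : J → List A) (h : (l : Multiset A) = ∑ j ∈ K, ((L j : List A) : Multiset A)) :
    l.sum = ∑ j ∈ K, (L j).sum := by
  have h1 := congrArg Multiset.sum h
  rw [Multiset.sum_coe] at h1
  rw [h1]
  have h2 := map_sum (Multiset.sumAddMonoidHom (M := A)) (fun j => ((L j : List A) : Multiset A)) K
  simp only [Multiset.coe_sumAddMonoidHom, Multiset.sum_coe] at h2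
  exact h2

/-- The step of the main induction, for lists with maximal norm one. -/
theorem core_step {C : ℝ} (hC : 0 ≤ C) (H : BanBound C) {d : ℕ} (hd : 1 ≤ d) (B : ℝ) (hB : 1 ≤ B)
    (hnum : C * (Real.sqrt d + Real.sqrt (Real.log (topCount C B d + 1))) + 5 + 4 * Tb C (d + 1) ≤ B)
    (l : List (EuclideanSpace ℝ (Fin d))) (hl1 : ∀ v ∈ l, ‖v‖ ≤ 1) (hl2 : ∃ v ∈ l, ‖v‖ = 1)
    (hl3 : l.sum = 0)
    (IH : ∀ l' : List (EuclideanSpace ℝ (Fin d)), l'.length < l.length → ∀ ρ : ℝ, 0 ≤ ρ →
      (∀ v ∈ l', ‖v‖ ≤ ρ) → l'.sum = 0 →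
      ∃ l'' : List (EuclideanSpace ℝ (Fin d)), l''.Perm l' ∧ PrefixBd l'' (ρ * B)) :
    ∃ l' : List (EuclideanSpace ℝ (Fin d)), l'.Perm l ∧ PrefixBd l' B := by
  classical
  have hdR : (1 : ℝ) ≤ d := by exact_mod_cast hd
  have hsq : 0 < Real.sqrt d := Real.sqrt_pos.2 (by linarith)
  have hBpos : 0 < B := by linarith
  have hT := Tb_nonneg_aux hC (d + 1)
  set ε : ℝ := 1 / (2 * ((d : ℝ) + 1) * B) with hε
  have hεpos : 0 < ε := by rw [hε]; positivity
  have hεB : ε * B = 1 / (2 * ((d : ℝ) + 1)) := by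
    rw [hε]
    field_simp
  have hε1 : ε < 1 := by
    rw [hε, div_lt_one (by positivity)]
    nlinarith
  set h : ℝ := ε / Real.sqrt d with hh
  have hhpos : 0 < h := by rw [hh]; positivity
  have hhsq : h * Real.sqrt d = ε := by
    rw [hh]
    field_simp
  obtain ⟨K₁, hK₁c, hK₁⟩ := cell_range (d := d) hhpos 1 zero_le_one
  obtain ⟨K₂, hK₂c, hK₂⟩ := cell_range (d := d) (h := 1 / Real.sqrt d) (by positivity)
    (Tb C (d + 1) + d + 3) (by positivity)
  let L : (Fin d → ℤ) → List (EuclideanSpace ℝ (Fin d)) :=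
    fun j => l.filter (fun v => cellOf h v = j)
  have hLmem : ∀ j v, v ∈ L j → v ∈ l ∧ cellOf h v = j := by
    intro j v hv
    have := List.mem_filter.1 hv
    exact ⟨this.1, by simpa using this.2⟩
  have hLlt : ∀ j, (L j).length < l.length := by
    intro j
    rw [List.length_filter_lt_length_iff_exists]
    obtain ⟨v₀, hv₀, hv₀1⟩ := hl2
    by_contra hcon
    push_neg at hcon
    have hall : ∀ w ∈ l, cellOf h w = j := by
      intro w hw
      simpa using hcon w hw
    have hsm := small_of_diam l hl3 ε v₀ hv₀ (fun w hw => by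
      have := cell_dist hhpos ((hall v₀ hv₀).trans (hall w hw).symm)
      rwa [hhsq] at this)
    rw [hv₀1] at hsm
    linarith
  have hclass : ∀ j, ∃ (c : EuclideanSpace ℝ (Fin d)) (L' : List (EuclideanSpace ℝ (Fin d))),
      L'.Perm (L j) ∧ ‖c‖ ≤ 1 ∧ ((L j).length : ℝ) • c = (L j).sum ∧
      ∀ k, k ≤ (L j).length → ‖(L'.take k).sum - (k : ℝ) • c‖ ≤ ε * B := by
    intro j
    apply class_prep (L j) ε B
    · intro v hv
      exact hl1 v (hLmem j v hv).1
    · intro v hv w hw
      have := cell_dist hhpos ((hLmem j v hv).2.trans (hLmem j w hw).2.symm)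
      rwa [hhsq] at this
    · intro l' hl' hnorm hsum
      exact IH l' (by rw [hl']; exact hLlt j) ε hεpos.le hnorm hsum
  choose c L' hL'1 hL'2 hL'3 hL'4 using hclass
  have hpart : (l : Multiset (EuclideanSpace ℝ (Fin d)))
      = ∑ j ∈ K₁, ((L j : List (EuclideanSpace ℝ (Fin d))) : Multiset (EuclideanSpace ℝ (Fin d))) :=
    multiset_partition (fun v => cellOf h v) K₁ l (fun v hv => hK₁ v (hl1 v hv))
  have hrel : ∑ j ∈ K₁, ((L j).length : ℝ) • c j = 0 := by
    rw [← hl3, list_sum_eq_of_multiset K₁ l L hpart]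
    apply Finset.sum_congr rfl
    intro j _
    exact hL'3 j
  obtain ⟨R, x, hR, hx0, hxsum, hxrel, hxsupp⟩ := cone_decomp K₁ c (fun j => ((L j).length : ℝ))
    (fun j _ => by positivity) hrel
  let y : Fin R → (Fin d → ℤ) → ℕ := fun r j => ⌊x r j⌋₊
  have hy1 : ∀ r, ∀ j ∈ K₁, (y r j : ℝ) ≤ x r j := fun r j hj => Nat.floor_le (hx0 r j hj)
  have hy2 : ∀ r, ∀ j ∈ K₁, x r j < (y r j : ℝ) + 1 := fun r j _ => Nat.lt_floor_add_one _
  have hcut : ∀ j ∈ K₁, ∃ (run : Fin R → List (EuclideanSpace ℝ (Fin d)))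
      (left : List (EuclideanSpace ℝ (Fin d))),
      (∀ r, (run r).length = y r j ∧
        ∃ a, a + y r j ≤ (L' j).length ∧ run r = ((L' j).drop a).take (y r j)) ∧
      ((L' j : List (EuclideanSpace ℝ (Fin d))) : Multiset (EuclideanSpace ℝ (Fin d)))
        = ∑ r, ((run r : List (EuclideanSpace ℝ (Fin d))) : Multiset (EuclideanSpace ℝ (Fin d)))
          + (left : Multiset (EuclideanSpace ℝ (Fin d))) := by
    intro j hj
    apply cut_runs R (L' j) (fun r => y r j)
    rw [(hL'1 j).length_eq]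
    have h1 : ((∑ r, y r j : ℕ) : ℝ) ≤ ((L j).length : ℝ) := by
      push_cast
      rw [← hxsum j hj]
      exact Finset.sum_le_sum (fun r _ => hy1 r j hj)
    exact_mod_cast h1
  choose! run left hrun hleft using hcut
  -- the pieces of each simplex
  have hitem : ∀ j v, v ∈ L' j → ‖v‖ ≤ 1 := by
    intro j v hv
    exact hl1 v (hLmem j v ((hL'1 j).mem_iff.1 hv)).1
  have hpieces : ∀ r : Fin R, ∃ P : List (List (EuclideanSpace ℝ (Fin d))),
      P.length ≤ 2 * K₂.card ∧
      (∀ q ∈ P, ‖q.sum‖ ≤ 1 ∧ PrefixBd q (5 + 4 * Tb C (d + 1))) ∧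
      ((P.flatten : List (EuclideanSpace ℝ (Fin d))) : Multiset (EuclideanSpace ℝ (Fin d)))
        = ∑ j ∈ K₁.filter (fun j => x r j ≠ 0),
          ((run j r : List (EuclideanSpace ℝ (Fin d))) : Multiset (EuclideanSpace ℝ (Fin d))) := by
    intro r
    have hmemK : ∀ j ∈ K₁.filter (fun j => x r j ≠ 0), j ∈ K₁ := fun j hj => (Finset.mem_filter.1 hj).1
    apply simplex_pieces hC H hd (K₁.filter (fun j => x r j ≠ 0)) (hxsupp r) c
      (fun j _ => hL'2 j) (y r) _ (fun j => run j r)
      (fun j hj => (hrun j (hmemK j hj) r).1) _ _ K₂ hK₂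
    · -- the sum of the simplex is small
      have h1 : ∑ j ∈ K₁.filter (fun j => x r j ≠ 0), x r j • c j = 0 := by
        rw [← hxrel r]
        apply Finset.sum_subset (Finset.filter_subset _ _)
        intro j hj hj'
        have : x r j = 0 := by
          by_contra hcon
          exact hj' (Finset.mem_filter.2 ⟨hj, hcon⟩)
        simp [this]
      have h2 : ∑ j ∈ K₁.filter (fun j => x r j ≠ 0), (y r j : ℝ) • c j
          = ∑ j ∈ K₁.filter (fun j => x r j ≠ 0), ((y r j : ℝ) - x r j) • c j := by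
        have : ∀ j ∈ K₁.filter (fun j => x r j ≠ 0), ((y r j : ℝ) - x r j) • c j
            = (y r j : ℝ) • c j - x r j • c j := fun j _ => sub_smul _ _ _
        rw [Finset.sum_congr rfl this, Finset.sum_sub_distrib, h1, sub_zero]
      rw [h2]
      calc ‖∑ j ∈ K₁.filter (fun j => x r j ≠ 0), ((y r j : ℝ) - x r j) • c j‖
          ≤ ∑ j ∈ K₁.filter (fun j => x r j ≠ 0), ‖((y r j : ℝ) - x r j) • c j‖ := norm_sum_le _ _
        _ ≤ ∑ _j ∈ K₁.filter (fun j => x r j ≠ 0), (1 : ℝ) := by
            apply Finset.sum_le_sum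
            intro j hj
            have hjK := hmemK j hj
            rw [norm_smul, Real.norm_eq_abs]
            have h3 : |(y r j : ℝ) - x r j| ≤ 1 := by
              rw [abs_le]
              constructor <;> linarith [hy1 r j hjK, hy2 r j hjK]
            calc |(y r j : ℝ) - x r j| * ‖c j‖ ≤ 1 * 1 :=
                  mul_le_mul h3 (hL'2 j) (norm_nonneg _) (by norm_num)
              _ = 1 := by norm_num
        _ = ((K₁.filter (fun j => x r j ≠ 0)).card : ℝ) := by simp
        _ ≤ (d : ℝ) + 1 := by exact_mod_cast hxsupp r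
    · -- the items have norm at most one
      intro j hj v hv
      obtain ⟨_, a, _, ha⟩ := hrun j (hmemK j hj) r
      rw [ha] at hv
      exact hitem j v (List.mem_of_mem_drop (List.mem_of_mem_take hv))
    · -- the noise is small
      intro j hj m hm
      obtain ⟨_, a, ha1, ha2⟩ := hrun j (hmemK j hj) r
      rw [ha2]
      have h1 : ∀ k, k ≤ (L' j).length → ‖((L' j).take k).sum - (k : ℝ) • c j‖ ≤ ε * B := by
        intro k hk
        apply hL'4 j k
        rwa [(hL'1 j).length_eq] at hk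
      have h2 := segment_bound (L' j) (c j) (ε * B) h1 a (y r j) ha1 m hm
      have h3 : 2 * (ε * B) = 1 / ((d : ℝ) + 1) := by
        rw [hεB]
        field_simp
      rwa [h3] at h2
  choose PP hPP1 hPP2 hPP3 using hpieces
  obtain ⟨PA, hPA1, hPA2, hPA3⟩ := join_pieces R PP
  -- the leftovers
  let Lom : Multiset (EuclideanSpace ℝ (Fin d)) :=
    ∑ j ∈ K₁, ((left j : List (EuclideanSpace ℝ (Fin d))) : Multiset (EuclideanSpace ℝ (Fin d)))
  let Lo : List (EuclideanSpace ℝ (Fin d)) := Lom.toList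
  have hLo : (Lo : Multiset (EuclideanSpace ℝ (Fin d))) = Lom := Multiset.coe_toList Lom
  let P : List (List (EuclideanSpace ℝ (Fin d))) := PA ++ Lo.map (fun v => [v])
  have hPflat : P.flatten = PA.flatten ++ Lo := by
    simp only [P]
    rw [List.flatten_append, flatten_map_singleton]
  -- the total multiset
  have hmult : ((P.flatten : List (EuclideanSpace ℝ (Fin d))) : Multiset (EuclideanSpace ℝ (Fin d)))
      = (l : Multiset (EuclideanSpace ℝ (Fin d))) := by
    rw [hPflat, ← Multiset.coe_add, hLo, hPA3]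
    have h1 : ∀ r, (((PP r).flatten : List (EuclideanSpace ℝ (Fin d))) : Multiset (EuclideanSpace ℝ (Fin d)))
        = ∑ j ∈ K₁, ((run j r : List (EuclideanSpace ℝ (Fin d))) : Multiset (EuclideanSpace ℝ (Fin d))) := by
      intro r
      rw [hPP3 r]
      apply Finset.sum_subset (Finset.filter_subset _ _)
      intro j hj hj'
      have h0 : x r j = 0 := by
        by_contra hcon
        exact hj' (Finset.mem_filter.2 ⟨hj, hcon⟩)
      have h2 : (run j r).length = 0 := by
        rw [(hrun j hj r).1]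
        simp [y, h0]
      rw [List.length_eq_zero_iff.1 h2]
      rfl
    simp only [h1]
    rw [Finset.sum_comm]
    simp only [Lom]
    rw [← Finset.sum_add_distrib, hpart]
    apply Finset.sum_congr rfl
    intro j hj
    rw [← hleft j hj]
    exact Multiset.coe_eq_coe.2 (hL'1 j)
  have hPperm : P.flatten.Perm l := Multiset.coe_eq_coe.1 hmult
  -- counting
  have hleftlen : ∀ j ∈ K₁, ((left j).length : ℝ) = ∑ r, (x r j - (y r j : ℝ)) := by
    intro j hj
    have h1 := congrArg Multiset.card (hleft j hj)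
    rw [Multiset.card_add, Multiset.card_sum] at h1
    simp only [Multiset.coe_card] at h1
    have h2 : ∀ r, (run j r).length = y r j := fun r => (hrun j hj r).1
    simp only [h2] at h1
    rw [(hL'1 j).length_eq] at h1
    have h3 : ((L j).length : ℝ) = ∑ r, (y r j : ℝ) + ((left j).length : ℝ) := by
      rw [h1]
      push_cast
      rfl
    rw [Finset.sum_sub_distrib, hxsum j hj, h3]
    ring
  have hLolen : (Lo.length : ℝ) ≤ (R : ℝ) * ((d : ℝ) + 1) := by
    have h1 : Lo.length = ∑ j ∈ K₁, (left j).length := by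
      have h2 := congrArg Multiset.card hLo
      rw [Multiset.coe_card] at h2
      rw [h2]
      simp only [Lom]
      rw [Multiset.card_sum]
      simp
    rw [h1]
    push_cast
    rw [Finset.sum_congr rfl hleftlen, Finset.sum_comm]
    calc ∑ r : Fin R, ∑ j ∈ K₁, (x r j - (y r j : ℝ)) ≤ ∑ _r : Fin R, ((d : ℝ) + 1) := by
          apply Finset.sum_le_sum
          intro r _
          calc ∑ j ∈ K₁, (x r j - (y r j : ℝ))
              ≤ ∑ j ∈ K₁, (if x r j ≠ 0 then (1 : ℝ) else 0) := by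
                apply Finset.sum_le_sum
                intro j hj
                by_cases h0 : x r j = 0
                · simp [h0, y]
                · rw [if_pos h0]
                  linarith [hy2 r j hj]
            _ = ((K₁.filter (fun j => x r j ≠ 0)).card : ℝ) := by
                rw [Finset.sum_boole]
            _ ≤ (d : ℝ) + 1 := by exact_mod_cast hxsupp r
      _ = (R : ℝ) * ((d : ℝ) + 1) := by
          simp only [Finset.sum_const, Finset.card_univ, Fintype.card_fin, nsmul_eq_mul]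
  have hPlen : P.length ≤ topCount C B d := by
    have h1 : P.length = PA.length + Lo.length := by
      simp only [P]
      rw [List.length_append, List.length_map]
    have h2 : PA.length ≤ R * (2 * K₂.card) := by
      rw [hPA1]
      calc ∑ r, (PP r).length ≤ ∑ _r : Fin R, 2 * K₂.card :=
            Finset.sum_le_sum (fun r _ => hPP1 r)
        _ = R * (2 * K₂.card) := by simp
    have h3 : Lo.length ≤ R * (d + 1) := by exact_mod_cast hLolen
    have h4 : 1 / h = Real.sqrt d / (1 / (2 * ((d : ℝ) + 1) * B)) := by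
      rw [hh, one_div_div]
    rw [h4] at hK₁c
    rw [h1]
    unfold topCount
    have h5 : R ≤ (2 * ⌈Real.sqrt d / (1 / (2 * ((d : ℝ) + 1) * B))⌉₊ + 3) ^ d := hR.trans hK₁c
    calc PA.length + Lo.length ≤ R * (2 * K₂.card) + R * (d + 1) := add_le_add h2 h3
      _ = R * (2 * K₂.card + (d + 1)) := by ring
      _ ≤ _ := Nat.mul_le_mul h5 (by omega)
  have hpieceall : ∀ q ∈ P, ‖q.sum‖ ≤ 1 ∧ PrefixBd q (5 + 4 * Tb C (d + 1)) := by
    intro q hq
    rcases List.mem_append.1 hq with h | h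
    · obtain ⟨r, hr⟩ := hPA2 q h
      exact hPP2 r q hr
    · obtain ⟨v, hv, rfl⟩ := List.mem_map.1 h
      have hv' : v ∈ (Lo : Multiset (EuclideanSpace ℝ (Fin d))) := by simpa using hv
      rw [hLo] at hv'
      obtain ⟨j, hj, hvj⟩ := mem_of_mem_multiset_sum K₁ left v hv'
      have hvL' : v ∈ (L' j : Multiset (EuclideanSpace ℝ (Fin d))) := by
        rw [hleft j hj]
        exact Multiset.mem_add.2 (Or.inr (by simpa using hvj))
      have hv1 : ‖v‖ ≤ 1 := hitem j v (by simpa using hvL')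
      refine ⟨by simpa using hv1, ?_⟩
      intro k
      cases k with
      | zero =>
        simp only [List.take_zero, List.sum_nil, norm_zero]
        linarith
      | succ k =>
        simp only [List.take_succ_cons, List.take_nil, List.sum_cons, List.sum_nil, add_zero]
        linarith
  have hP0 : (P.map List.sum).sum = 0 := by
    rw [← List.sum_flatten, hPperm.sum_eq, hl3]
  obtain ⟨P', hP'1, hP'2⟩ := top_assemble hC H P (5 + 4 * Tb C (d + 1)) (by linarith)
    (topCount C B d) hPlen hpieceall hP0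
  refine ⟨P'.flatten, (hP'1.flatten).trans hPperm, ?_⟩
  intro k
  refine (hP'2 k).trans ?_
  linarith

lemma sum_map_smul' {E : Type*} [AddCommGroup E] [Module ℝ E] (a : ℝ) (l : List E) :
    (l.map (fun v => a • v)).sum = a • l.sum := by
  induction l with
  | nil => simp
  | cons x l ih =>
    simp only [List.map_cons, List.sum_cons, ih, smul_add]

/-- The main induction. -/
theorem steinitz_main {C : ℝ} (hC : 0 ≤ C) (H : BanBound C) {d : ℕ} (hd : 1 ≤ d) (B : ℝ) (hB : 1 ≤ B)
    (hnum : C * (Real.sqrt d + Real.sqrt (Real.log (topCount C B d + 1))) + 5 + 4 * Tb C (d + 1) ≤ B) :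
    ∀ (l : List (EuclideanSpace ℝ (Fin d))) (ρ : ℝ), 0 ≤ ρ → (∀ v ∈ l, ‖v‖ ≤ ρ) → l.sum = 0 →
      ∃ l' : List (EuclideanSpace ℝ (Fin d)), l'.Perm l ∧ PrefixBd l' (ρ * B) := by
  classical
  suffices h : ∀ (N : ℕ) (l : List (EuclideanSpace ℝ (Fin d))), l.length = N → ∀ ρ : ℝ, 0 ≤ ρ →
      (∀ v ∈ l, ‖v‖ ≤ ρ) → l.sum = 0 →
      ∃ l' : List (EuclideanSpace ℝ (Fin d)), l'.Perm l ∧ PrefixBd l' (ρ * B) from
    fun l ρ h1 h2 h3 => h l.length l rfl ρ h1 h2 h3
  intro N
  induction N using Nat.strong_induction_on with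
  | _ N ih =>
    intro l hlN ρ hρ hn hs
    have hρB : 0 ≤ ρ * B := mul_nonneg hρ (by linarith)
    by_cases hz : ∀ v ∈ l, v = 0
    · refine ⟨l, List.Perm.refl _, ?_⟩
      intro k
      have h0 : (l.take k).sum = 0 := by
        apply List.sum_eq_zero
        intro v hv
        exact hz v (List.mem_of_mem_take hv)
      rw [h0, norm_zero]
      exact hρB
    push_neg at hz
    obtain ⟨v₁, hv₁, hv₁ne⟩ := hz
    obtain ⟨v₀, hv₀, hmax⟩ := l.toFinset.exists_max_image norm
      ⟨v₁, List.mem_toFinset.2 hv₁⟩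
    have hv₀' := List.mem_toFinset.1 hv₀
    have hmax' : ∀ v ∈ l, ‖v‖ ≤ ‖v₀‖ := fun v hv => hmax v (List.mem_toFinset.2 hv)
    have hρ₀ : 0 < ‖v₀‖ := lt_of_lt_of_le (norm_pos_iff.2 hv₁ne) (hmax' v₁ hv₁)
    set ρ₀ := ‖v₀‖ with hρ₀def
    have hρ₀ρ : ρ₀ ≤ ρ := hn v₀ hv₀'
    obtain ⟨l₁, hp, hb⟩ := core_step hC H hd B hB hnum (l.map (fun v => ρ₀⁻¹ • v))
      (by
        intro v hv
        obtain ⟨w, hw, rfl⟩ := List.mem_map.1 hv
        rw [norm_smul, Real.norm_eq_abs, abs_of_pos (inv_pos.2 hρ₀), inv_mul_le_iff₀ hρ₀, mul_one]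
        exact hmax' w hw)
      ⟨ρ₀⁻¹ • v₀, List.mem_map.2 ⟨v₀, hv₀', rfl⟩, by
        rw [norm_smul, Real.norm_eq_abs, abs_of_pos (inv_pos.2 hρ₀), ← hρ₀def,
          inv_mul_cancel₀ hρ₀.ne']⟩
      (by rw [sum_map_smul', hs, smul_zero])
      (fun l' hl' ρ' hρ' h1 h2 => ih l'.length (by
        rw [← hlN]
        simpa using hl') l' rfl ρ' hρ' h1 h2)
    refine ⟨l₁.map (fun v => ρ₀ • v), ?_, ?_⟩
    · have h1 := hp.map (fun v => ρ₀ • v)
      rw [List.map_map] at h1
      have h2 : (fun v => ρ₀ • v) ∘ (fun v => ρ₀⁻¹ • v)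
          = (id : EuclideanSpace ℝ (Fin d) → EuclideanSpace ℝ (Fin d)) := by
        funext v
        simp [smul_smul, mul_inv_cancel₀ hρ₀.ne']
      rw [h2, List.map_id] at h1
      exact h1
    · intro k
      rw [← List.map_take, sum_map_smul', norm_smul, Real.norm_eq_abs, abs_of_pos hρ₀]
      calc ρ₀ * ‖(l₁.take k).sum‖ ≤ ρ₀ * B := mul_le_mul_of_nonneg_left (hb k) hρ₀.le
        _ ≤ ρ * B := mul_le_mul_of_nonneg_right hρ₀ρ (by linarith)

end Vale.Agent.Lib.P262.St
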