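import Vale.Agent.Lib.P262.St.Defs

/-!
Rounding lemma: a point of the cube can be rounded to a vertex so that the displacement in the
image has small norm and nonpositive inner product with a given vector.
-/

namespace Vale.Agent.Lib.P262.St

open scoped RealInnerProductSpace

lemma one_coord (x a : ℝ) (hx : 0 < x ∧ x < 1) (ha : a ≠ 0) :
    ∃ r : ℝ, 0 < r ∧ (x + r * a = 0 ∨ x + r * a = 1) ∧
      ∀ l : ℝ, 0 ≤ l → l ≤ r → 0 ≤ x + l * a ∧ x + l * a ≤ 1 := by
  rcases lt_or_gt_of_ne ha with h | h
  · refine ⟨x / (-a), div_pos hx.1 (neg_pos.2 h), Or.inl ?_, ?_⟩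
    · field_simp
      ring
    · intro l hl hlr
      have hna : 0 < -a := neg_pos.2 h
      have h1 : l * (-a) ≤ x := by
        rw [le_div_iff₀ hna] at hlr
        exact hlr
      constructor
      · nlinarith
      · nlinarith [mul_nonneg hl hna.le]
  · refine ⟨(1 - x) / a, div_pos (by linarith [hx.2]) h, Or.inr ?_, ?_⟩
    · field_simp
      ring
    · intro l hl hlr
      have h1 : l * a ≤ 1 - x := by
        rw [le_div_iff₀ h] at hlr
        exact hlr
      constructor
      · nlinarith [mul_nonneg hl h.le, hx.1]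
      · linarith

lemma move_dir (x y a b : ℝ) (hx : 0 < x ∧ x < 1) (hy : 0 < y ∧ y < 1) (hab : a ≠ 0 ∨ b ≠ 0) :
    ∃ l : ℝ, 0 ≤ l ∧ (0 ≤ x + l * a ∧ x + l * a ≤ 1) ∧ (0 ≤ y + l * b ∧ y + l * b ≤ 1) ∧
      ((x + l * a = 0 ∨ x + l * a = 1) ∨ (y + l * b = 0 ∨ y + l * b = 1)) := by
  by_cases ha : a = 0
  · have hb : b ≠ 0 := by
      rcases hab with h | h
      · exact absurd ha h
      · exact h
    obtain ⟨r, hr, hr1, hr2⟩ := one_coord y b hy hb
    refine ⟨r, hr.le, ?_, hr2 r hr.le le_rfl, Or.inr hr1⟩
    simp [ha, hx.1.le, hx.2.le]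
  · by_cases hb : b = 0
    · obtain ⟨r, hr, hr1, hr2⟩ := one_coord x a hx ha
      refine ⟨r, hr.le, hr2 r hr.le le_rfl, ?_, Or.inl hr1⟩
      simp [hb, hy.1.le, hy.2.le]
    · obtain ⟨r, hr, hr1, hr2⟩ := one_coord x a hx ha
      obtain ⟨q, hq, hq1, hq2⟩ := one_coord y b hy hb
      rcases le_total r q with h | h
      · exact ⟨r, hr.le, hr2 r hr.le le_rfl, hq2 r hr.le h, Or.inl hr1⟩
      · exact ⟨q, hq.le, hr2 q hq.le h, hq2 q hq.le le_rfl, Or.inr hq1⟩

/-- One move of the rounding. -/
lemma move_real (x y u v g h : ℝ) (hx : 0 < x ∧ x < 1) (hy : 0 < y ∧ y < 1) :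
    ∃ d₁ d₂ : ℝ, (0 ≤ x + d₁ ∧ x + d₁ ≤ 1) ∧ (0 ≤ y + d₂ ∧ y + d₂ ≤ 1) ∧
      ((x + d₁ = 0 ∨ x + d₁ = 1) ∨ (y + d₂ = 0 ∨ y + d₂ = 1)) ∧
      d₁ * u + d₂ * v = 0 ∧ d₁ * g + d₂ * h ≤ 0 := by
  -- choose a nonzero direction killing the first functional, with the right sign
  obtain ⟨a, b, hab, h0, h1⟩ : ∃ a b : ℝ, (a ≠ 0 ∨ b ≠ 0) ∧ a * u + b * v = 0 ∧ a * g + b * h ≤ 0 := by
    by_cases huv : u = 0 ∧ v = 0
    · rcases le_total g 0 with hg | hg
      · exact ⟨1, 0, Or.inl one_ne_zero, by simp [huv.1], by simpa using hg⟩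
      · exact ⟨-1, 0, Or.inl (by norm_num), by simp [huv.1], by simpa using hg⟩
    · have hne : v ≠ 0 ∨ -u ≠ 0 := by
        by_contra hcon
        push_neg at hcon
        exact huv ⟨by linarith [hcon.2], hcon.1⟩
      rcases le_total (v * g + -u * h) 0 with hs | hs
      · exact ⟨v, -u, hne, by ring, hs⟩
      · refine ⟨-v, u, ?_, by ring, by nlinarith⟩
        rcases hne with h' | h'
        · exact Or.inl (neg_ne_zero.2 h')
        · exact Or.inr (by simpa using h')
  obtain ⟨l, hl, hl1, hl2, hl3⟩ := move_dir x y a b hx hy hab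
  refine ⟨l * a, l * b, hl1, hl2, hl3, ?_, ?_⟩
  · have : l * a * u + l * b * v = l * (a * u + b * v) := by ring
    rw [this, h0, mul_zero]
  · have : l * a * g + l * b * h = l * (a * g + b * h) := by ring
    rw [this]
    exact mul_nonpos_of_nonneg_of_nonpos hl h1

variable {E : Type*} [NormedAddCommGroup E] [InnerProductSpace ℝ E]

lemma rounding_aux {J : Type*} [DecidableEq J] (S : Finset J) (c : J → E) (hc : ∀ j ∈ S, ‖c j‖ ≤ 1)
    (p : E) (f : J → ℝ) (k : ℕ) :
    ∀ z : J → ℝ, (∀ j ∈ S, 0 ≤ z j ∧ z j ≤ 1) →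
      (S.filter (fun j => 0 < z j ∧ z j < 1)).card ≤ k →
      ⟪p, ∑ j ∈ S, (z j - f j) • c j⟫ ≤ 0 →
      ‖∑ j ∈ S, (z j - f j) • c j‖ ^ 2 + 4 * ((S.filter (fun j => 0 < z j ∧ z j < 1)).card : ℝ)
        ≤ 4 * S.card →
      ∃ z' : J → ℝ, (∀ j ∈ S, z' j = 0 ∨ z' j = 1) ∧
        ⟪p, ∑ j ∈ S, (z' j - f j) • c j⟫ ≤ 0 ∧
        ‖∑ j ∈ S, (z' j - f j) • c j‖ ≤ 2 * Real.sqrt S.card + 1 := by
  induction k with
  | zero =>
    intro z hz hk hp hn
    have hF : (S.filter (fun j => 0 < z j ∧ z j < 1)) = ∅ := by
      apply Finset.card_eq_zero.1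
      omega
    refine ⟨z, ?_, hp, ?_⟩
    · intro j hj
      have hj' : j ∉ S.filter (fun j => 0 < z j ∧ z j < 1) := by simp [hF]
      have h1 := hz j hj
      by_contra hcon
      push_neg at hcon
      apply hj'
      refine Finset.mem_filter.2 ⟨hj, ?_, ?_⟩
      · exact lt_of_le_of_ne h1.1 (Ne.symm hcon.1)
      · exact lt_of_le_of_ne h1.2 hcon.2
    · have h2 : ‖∑ j ∈ S, (z j - f j) • c j‖ ^ 2 ≤ 4 * S.card := by
        rw [hF] at hn
        simpa using hn
      have h3 : ‖∑ j ∈ S, (z j - f j) • c j‖ ≤ 2 * Real.sqrt S.card := by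
        apply abs_le_of_sq_le_sq' _ (by positivity) |>.2
        rw [mul_pow, Real.sq_sqrt (by positivity)]
        linarith
      linarith
  | succ k ih =>
    intro z hz hk hp hn
    set F := S.filter (fun j => 0 < z j ∧ z j < 1) with hFdef
    by_cases hcard : F.card ≤ k
    · exact ih z hz hcard hp hn
    have hFc : F.card = k + 1 := by omega
    rcases Nat.lt_or_ge 1 F.card with h2 | h1
    · -- two fractional coordinates
      obtain ⟨a, ha, b, hb, hab⟩ := Finset.one_lt_card.1 h2
      have haS := (Finset.mem_filter.1 ha)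
      have hbS := (Finset.mem_filter.1 hb)
      set O := ∑ j ∈ S, (z j - f j) • c j with hO
      obtain ⟨d₁, d₂, h1a, h1b, hbd, horth, hsign⟩ :=
        move_real (z a) (z b) ⟪O, c a⟫ ⟪O, c b⟫ ⟪p, c a⟫ ⟪p, c b⟫ haS.2 hbS.2
      set z' : J → ℝ := fun j => z j + (if j = a then d₁ else 0) + (if j = b then d₂ else 0) with hz'
      have hza : z' a = z a + d₁ := by simp [hz', hab]
      have hzb : z' b = z b + d₂ := by simp [hz', Ne.symm hab]
      have hzo : ∀ j, j ≠ a → j ≠ b → z' j = z j := by
        intro j h1 h2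
        simp [hz', h1, h2]
      have hsum : ∑ j ∈ S, (z' j - f j) • c j = O + d₁ • c a + d₂ • c b := by
        have h1 : ∀ j ∈ S, (z' j - f j) • c j = (z j - f j) • c j +
            (if j = a then d₁ • c a else 0) + (if j = b then d₂ • c b else 0) := by
          intro j _
          by_cases hja : j = a
          · subst hja
            simp [hz', hab, add_smul, sub_smul]
            abel
          · by_cases hjb : j = b
            · subst hjb
              simp [hz', hja, add_smul, sub_smul]
              abel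
            · simp [hz', hja, hjb]
        rw [Finset.sum_congr rfl h1, Finset.sum_add_distrib, Finset.sum_add_distrib,
          Finset.sum_ite_eq' S a, Finset.sum_ite_eq' S b]
        simp [haS.1, hbS.1, hO]
      have hd₁ : |d₁| ≤ 1 := by
        rw [abs_le]
        constructor <;> linarith [h1a.1, h1a.2, haS.2.1, haS.2.2]
      have hd₂ : |d₂| ≤ 1 := by
        rw [abs_le]
        constructor <;> linarith [h1b.1, h1b.2, hbS.2.1, hbS.2.2]
      -- the new fractional set is strictly smaller
      have hsub : S.filter (fun j => 0 < z' j ∧ z' j < 1) ⊂ F := by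
        refine Finset.ssubset_iff_subset_ne.2 ⟨?_, ?_⟩
        · intro j hj
          have hj' := Finset.mem_filter.1 hj
          refine Finset.mem_filter.2 ⟨hj'.1, ?_⟩
          by_cases hja : j = a
          · subst hja
            exact haS.2
          · by_cases hjb : j = b
            · subst hjb
              exact hbS.2
            · rw [← hzo j hja hjb]
              exact hj'.2
        · intro heq
          rcases hbd with h3 | h3
          · have : a ∈ S.filter (fun j => 0 < z' j ∧ z' j < 1) := heq ▸ ha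
            have h4 := (Finset.mem_filter.1 this).2
            rw [hza] at h4
            rcases h3 with h3 | h3 <;> linarith [h4.1, h4.2]
          · have : b ∈ S.filter (fun j => 0 < z' j ∧ z' j < 1) := heq ▸ hb
            have h4 := (Finset.mem_filter.1 this).2
            rw [hzb] at h4
            rcases h3 with h3 | h3 <;> linarith [h4.1, h4.2]
      have hcard' := Finset.card_lt_card hsub
      apply ih z'
      · intro j hj
        by_cases hja : j = a
        · subst hja
          rw [hza]
          exact h1a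
        · by_cases hjb : j = b
          · subst hjb
            rw [hzb]
            exact h1b
          · rw [hzo j hja hjb]
            exact hz j hj
      · omega
      · rw [hsum, inner_add_right, inner_add_right, inner_smul_right, inner_smul_right]
        have : ⟪p, O⟫ ≤ 0 := hp
        linarith
      · rw [hsum]
        have horth' : ⟪O, d₁ • c a + d₂ • c b⟫ = 0 := by
          rw [inner_add_right, inner_smul_right, inner_smul_right]
          linarith
        have hnew : ‖d₁ • c a + d₂ • c b‖ ≤ 2 := by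
          calc ‖d₁ • c a + d₂ • c b‖ ≤ ‖d₁ • c a‖ + ‖d₂ • c b‖ := norm_add_le _ _
            _ ≤ 1 + 1 := by
              apply add_le_add
              · rw [norm_smul, Real.norm_eq_abs]
                calc |d₁| * ‖c a‖ ≤ 1 * 1 :=
                      mul_le_mul hd₁ (hc a haS.1) (norm_nonneg _) (by norm_num)
                  _ = 1 := by norm_num
              · rw [norm_smul, Real.norm_eq_abs]
                calc |d₂| * ‖c b‖ ≤ 1 * 1 :=
                      mul_le_mul hd₂ (hc b hbS.1) (norm_nonneg _) (by norm_num)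
                  _ = 1 := by norm_num
            _ = 2 := by norm_num
        have hexp : ‖O + d₁ • c a + d₂ • c b‖ ^ 2
            = ‖O‖ ^ 2 + ‖d₁ • c a + d₂ • c b‖ ^ 2 := by
          rw [add_assoc, @norm_add_sq_real, horth']
          ring
        rw [hexp]
        have hle : ((S.filter (fun j => 0 < z' j ∧ z' j < 1)).card : ℝ) + 1 ≤ F.card := by
          exact_mod_cast hcard'
        have hs : ‖d₁ • c a + d₂ • c b‖ ^ 2 ≤ 4 := by
          have := pow_le_pow_left₀ (norm_nonneg (d₁ • c a + d₂ • c b)) hnew 2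
          linarith
        nlinarith
    · -- exactly one fractional coordinate
      have hF1 : F.card = 1 := by omega
      obtain ⟨a, haF⟩ := Finset.card_eq_one.1 hF1
      have ha : a ∈ F := by simp [haF]
      have haS := Finset.mem_filter.1 ha
      set O := ∑ j ∈ S, (z j - f j) • c j with hO
      have hother : ∀ j ∈ S, j ≠ a → z j = 0 ∨ z j = 1 := by
        intro j hj hja
        by_contra hcon
        push_neg at hcon
        have h1 := hz j hj
        have : j ∈ F := Finset.mem_filter.2 ⟨hj, lt_of_le_of_ne h1.1 (Ne.symm hcon.1),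
          lt_of_le_of_ne h1.2 hcon.2⟩
        rw [haF] at this
        exact hja (Finset.mem_singleton.1 this)
      obtain ⟨d, hd0, hd1, hd2⟩ : ∃ d : ℝ, (z a + d = 0 ∨ z a + d = 1) ∧ |d| ≤ 1 ∧ d * ⟪p, c a⟫ ≤ 0 := by
        rcases le_total ⟪p, c a⟫ 0 with h | h
        · refine ⟨1 - z a, Or.inr (by ring), ?_, ?_⟩
          · rw [abs_le]
            constructor <;> linarith [haS.2.1, haS.2.2]
          · exact mul_nonpos_of_nonneg_of_nonpos (by linarith [haS.2.2]) h
        · refine ⟨- z a, Or.inl (by ring), ?_, ?_⟩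
          · rw [abs_le]
            constructor <;> linarith [haS.2.1, haS.2.2]
          · exact mul_nonpos_of_nonpos_of_nonneg (by linarith [haS.2.1]) h
      refine ⟨fun j => z j + (if j = a then d else 0), ?_, ?_, ?_⟩
      · intro j hj
        by_cases hja : j = a
        · subst hja
          simpa using hd0
        · simpa [hja] using hother j hj hja
      all_goals
        have hsum : ∑ j ∈ S, ((z j + (if j = a then d else 0)) - f j) • c j = O + d • c a := by
          have h1 : ∀ j ∈ S, ((z j + (if j = a then d else 0)) - f j) • c j = (z j - f j) • c j +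
              (if j = a then d • c a else 0) := by
            intro j _
            by_cases hja : j = a
            · subst hja
              simp [add_smul, sub_smul]
              abel
            · simp [hja]
          rw [Finset.sum_congr rfl h1, Finset.sum_add_distrib, Finset.sum_ite_eq' S a]
          simp [haS.1, hO]
      · rw [hsum, inner_add_right, inner_smul_right]
        have : ⟪p, O⟫ ≤ 0 := hp
        linarith
      · rw [hsum]
        have hO2 : ‖O‖ ≤ 2 * Real.sqrt S.card := by
          apply abs_le_of_sq_le_sq' _ (by positivity) |>.2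
          rw [mul_pow, Real.sq_sqrt (by positivity)]
          have : (0 : ℝ) ≤ (F.card : ℝ) := by positivity
          linarith
        have hd : ‖d • c a‖ ≤ 1 := by
          rw [norm_smul, Real.norm_eq_abs]
          calc |d| * ‖c a‖ ≤ 1 * 1 := mul_le_mul hd1 (hc a haS.1) (norm_nonneg _) (by norm_num)
            _ = 1 := by norm_num
        calc ‖O + d • c a‖ ≤ ‖O‖ + ‖d • c a‖ := norm_add_le _ _
          _ ≤ _ := by linarith

/-- The rounding lemma. -/
theorem rounding {J : Type*} [DecidableEq J] (S : Finset J) (c : J → E) (hc : ∀ j ∈ S, ‖c j‖ ≤ 1)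
    (p : E) (f : J → ℝ) (hf : ∀ j ∈ S, 0 ≤ f j ∧ f j ≤ 1) :
    ∃ z : J → ℝ, (∀ j ∈ S, z j = 0 ∨ z j = 1) ∧
      ⟪p, ∑ j ∈ S, (z j - f j) • c j⟫ ≤ 0 ∧
      ‖∑ j ∈ S, (z j - f j) • c j‖ ≤ 2 * Real.sqrt S.card + 1 := by
  refine rounding_aux S c hc p f _ f hf le_rfl ?_ ?_
  · simp
  · simp only [sub_self, zero_smul, Finset.sum_const_zero, norm_zero]
    have h1 : ((S.filter (fun j => 0 < f j ∧ f j < 1)).card : ℝ) ≤ S.card := by
      exact_mod_cast Finset.card_filter_le _ _
    nlinarith

end Vale.Agent.Lib.P262.St
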