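import Vale.Agent.Lib.P262.St.Ban

/-!
From a schedule of events to an ordered list.
-/

namespace Vale.Agent.Lib.P262.St

open Set

variable {E : Type*} [NormedAddCommGroup E] [InnerProductSpace ℝ E]

lemma count_ofFn {J : Type*} [DecidableEq J] {L : ℕ} (g : Fin L → J) (j : J) :
    (List.ofFn g).count j = (Finset.univ.filter (fun i => g i = j)).card := by
  induction L with
  | zero => simp
  | succ L ih =>
    rw [List.ofFn_succ, List.count_cons, ih]
    have h1 : (Finset.univ.filter (fun i : Fin (L + 1) => g i = j)).card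
        = (Finset.univ.filter (fun i : Fin L => g i.succ = j)).card + if g 0 = j then 1 else 0 := by
      rw [Finset.card_filter, Finset.card_filter, Fin.sum_univ_succ, add_comm]
    rw [h1]
    simp

/-- From a schedule to an ordered list. -/
theorem schedule_to_list {J : Type*} [DecidableEq J] (S : Finset J) (c : J → E) (y : J → ℕ)
    (ev : J → Finset ℝ) (h1 : ∀ j ∈ S, (ev j).card = y j) (h2 : ∀ j ∈ S, ∀ x ∈ ev j, 0 < x ∧ x < 1)
    (h3 : ∀ j ∈ S, ∀ j' ∈ S, j ≠ j' → Disjoint (ev j) (ev j')) (T : ℝ)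
    (h4 : ∀ t ∈ Icc (0 : ℝ) 1, ‖Off c y ev S t‖ ≤ T) :
    ∃ (l : List J) (t : ℕ → ℝ), (∀ j ∈ S, l.count j = y j) ∧ (∀ j ∈ l, j ∈ S) ∧ Monotone t ∧
      (∀ k, 0 ≤ t k ∧ t k ≤ 1) ∧
      ∀ k, k ≤ l.length →
        ‖((l.take k).map c).sum - t k • ∑ j ∈ S, (y j : ℝ) • c j‖ ≤ T := by
  classical
  set All := S.biUnion ev with hAll
  set L := All.card with hL
  let e : Fin L ↪o ℝ := All.orderEmbOfFin rfl
  have he_mem : ∀ i, e i ∈ All := fun i => Finset.orderEmbOfFin_mem All rfl i
  have he_surj : ∀ x ∈ All, ∃ i, e i = x := by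
    intro x hx
    have : x ∈ Set.range e := by
      simp only [e, Finset.range_orderEmbOfFin]
      exact hx
    exact this
  have hpick : ∀ i, ∃ j, j ∈ S ∧ e i ∈ ev j := by
    intro i
    have := he_mem i
    rw [hAll, Finset.mem_biUnion] at this
    exact this
  choose g hg1 hg2 using hpick
  have heb : ∀ i, 0 < e i ∧ e i < 1 := fun i => h2 _ (hg1 i) _ (hg2 i)
  have huniq : ∀ i, ∀ j ∈ S, e i ∈ ev j → g i = j := by
    intro i j hj hx
    by_contra hne
    exact Finset.disjoint_left.1 (h3 _ (hg1 i) _ hj hne) (hg2 i) hx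
  -- description of the events among the first `k`
  have hfilt : ∀ (k : ℕ) (τ : ℝ), (∀ i : Fin L, i.val < k ↔ e i ≤ τ) → ∀ j ∈ S,
      (Finset.univ.filter (fun i : Fin L => i.val < k ∧ g i = j)).card
        = ((ev j).filter (fun x => x ≤ τ)).card := by
    intro k τ hτ j hj
    rw [← Finset.card_image_of_injective _ e.injective]
    congr 1
    ext x
    simp only [Finset.mem_image, Finset.mem_filter, Finset.mem_univ, true_and]
    constructor
    · rintro ⟨i, ⟨hi1, hi2⟩, rfl⟩
      exact ⟨hi2 ▸ hg2 i, (hτ i).1 hi1⟩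
    · rintro ⟨hx1, hx2⟩
      have hxAll : x ∈ All := Finset.mem_biUnion.2 ⟨j, hj, hx1⟩
      obtain ⟨i, rfl⟩ := he_surj x hxAll
      exact ⟨i, ⟨(hτ i).2 hx2, huniq i j hj hx1⟩, rfl⟩
  let t : ℕ → ℝ := fun k => if h0 : k = 0 then 0 else if h : k ≤ L then e ⟨k - 1, by omega⟩ else 1
  have ht0 : t 0 = 0 := by simp [t]
  have ht1 : ∀ k (hk : k - 1 < L), k ≠ 0 → t k = e ⟨k - 1, hk⟩ := by
    intro k hk hk0
    have hk' : k ≤ L := by omega
    simp [t, hk0, hk']
  have ht2 : ∀ k, L < k → t k = 1 := by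
    intro k hk
    have hk0 : k ≠ 0 := by omega
    have hk' : ¬ k ≤ L := by omega
    simp [t, hk0, hk']
  have htb : ∀ k, 0 ≤ t k ∧ t k ≤ 1 := by
    intro k
    by_cases hk0 : k = 0
    · subst hk0
      rw [ht0]
      norm_num
    · by_cases hk : k ≤ L
      · rw [ht1 k (by omega) hk0]
        exact ⟨(heb _).1.le, (heb _).2.le⟩
      · rw [ht2 k (by omega)]
        norm_num
  have htm : Monotone t := by
    apply monotone_nat_of_le_succ
    intro k
    by_cases hk : k + 1 ≤ L
    · rw [ht1 (k + 1) (by omega) (by omega)]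
      by_cases hk0 : k = 0
      · subst hk0
        rw [ht0]
        exact (heb _).1.le
      · rw [ht1 k (by omega) hk0]
        apply e.monotone
        rw [Fin.le_def]
        simp
    · rw [ht2 (k + 1) (by omega)]
      exact (htb k).2
  have hthr : ∀ k, k ≤ L → ∀ i : Fin L, i.val < k ↔ e i ≤ t k := by
    intro k hk i
    by_cases hk0 : k = 0
    · subst hk0
      rw [ht0]
      constructor
      · intro h
        omega
      · intro h
        linarith [(heb i).1]
    · rw [ht1 k (by omega) hk0, e.le_iff_le, Fin.le_def]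
      simp only
      omega
  refine ⟨List.ofFn g, t, ?_, ?_, htm, htb, ?_⟩
  · intro j hj
    rw [count_ofFn, ← h1 j hj]
    have h5 := hfilt L 1 (fun i => ⟨fun _ => (heb i).2.le, fun _ => i.2⟩) j hj
    have h6 : (ev j).filter (fun x => x ≤ 1) = ev j := by
      apply Finset.filter_true_of_mem
      intro x hx
      exact (h2 j hj x hx).2.le
    rw [h6] at h5
    rw [← h5]
    congr 1
    ext i
    simp
  · intro j hj
    obtain ⟨i, rfl⟩ := (List.mem_ofFn' _ _).1 hj
    exact hg1 i
  · intro k hk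
    have hkL : k ≤ L := by simpa using hk
    have hmap : ((List.ofFn g).take k).map c = (List.ofFn (fun i => c (g i))).take k := by
      rw [List.map_take, List.map_ofFn]
      rfl
    rw [hmap, sum_take_ofFn]
    have hfib : ∑ i ∈ Finset.univ.filter (fun i : Fin L => i.val < k), c (g i)
        = ∑ j ∈ S, (cnt ev j (t k) : ℝ) • c j := by
      rw [← Finset.sum_fiberwise_of_maps_to (t := S) (g := g)
        (fun i _ => hg1 i)]
      apply Finset.sum_congr rfl
      intro j hj
      have h5 : ∀ i ∈ (Finset.univ.filter (fun i : Fin L => i.val < k)).filter (fun i => g i = j),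
          c (g i) = c j := by
        intro i hi
        rw [(Finset.mem_filter.1 hi).2]
      rw [Finset.sum_congr rfl h5, Finset.sum_const, Finset.filter_filter]
      have h6 := hfilt k (t k) (hthr k hkL) j hj
      rw [h6, Nat.cast_smul_eq_nsmul]
      rfl
    rw [hfib, Finset.smul_sum, ← Finset.sum_sub_distrib]
    have h7 : ∑ j ∈ S, ((cnt ev j (t k) : ℝ) • c j - t k • (y j : ℝ) • c j) = Off c y ev S (t k) := by
      apply Finset.sum_congr rfl
      intro j _
      rw [smul_smul, sub_smul]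
    rw [h7]
    exact h4 _ ⟨(htb k).1, (htb k).2⟩

end Vale.Agent.Lib.P262.St
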