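import Vale.Agent.Lib.P262.St.Group

/-!
The few-distinct-vectors schedule: assembling groups (module M5).
-/

namespace Vale.Agent.Lib.P262.St

open scoped RealInnerProductSpace
open Set

section Split

variable {J : Type*} [DecidableEq J]

/-- The top group of a finite family of positive integers. -/
theorem split_top (y : J → ℕ) (Y : ℕ) (hY : 1 ≤ Y) :
    ∀ (k : ℕ) (T : Finset J), T.card ≤ k → T.Nonempty →
      ∃ (G : Finset J) (a : ℕ), G ⊆ T ∧ G.Nonempty ∧ (∃ j ∈ G, y j = a) ∧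
        (∀ j ∈ T \ G, Y * y j ≤ a) ∧ (∀ j ∈ G, a ≤ y j) ∧
        (∀ j ∈ G, y j ≤ a * Y ^ (G.card - 1)) := by
  intro k
  induction k with
  | zero =>
    intro T hk hT
    have : T = ∅ := Finset.card_eq_zero.mp (Nat.le_zero.mp hk)
    rw [this] at hT
    simp at hT
  | succ k ih =>
    intro T hk hT
    obtain ⟨m, hm, hmin⟩ := Finset.exists_min_image T y hT
    set T' := T.erase m with hT'
    have hT'T : T' ⊆ T := Finset.erase_subset _ _
    rcases T'.eq_empty_or_nonempty with h0 | hne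
    · refine ⟨{m}, y m, by simpa using hm, by simp, ⟨m, by simp, rfl⟩, ?_, by simp, by simp⟩
      intro j hj
      have hj1 := Finset.mem_sdiff.mp hj
      have hj2 : j ∈ T' := Finset.mem_erase.mpr ⟨by simpa using hj1.2, hj1.1⟩
      rw [h0] at hj2
      simp at hj2
    · have hcard : T'.card ≤ k := by
        rw [hT', Finset.card_erase_of_mem hm]
        omega
      obtain ⟨G, a, hG, hGne, hGa, hfar, hlow, hup⟩ := ih T' hcard hne
      by_cases hcase : Y * y m ≤ a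
      · refine ⟨G, a, hG.trans hT'T, hGne, hGa, ?_, hlow, hup⟩
        intro j hj
        have hj1 := Finset.mem_sdiff.mp hj
        by_cases hjm : j = m
        · rw [hjm]; exact hcase
        · exact hfar j (Finset.mem_sdiff.mpr ⟨Finset.mem_erase.mpr ⟨hjm, hj1.1⟩, hj1.2⟩)
      · push Not at hcase
        have hGT' : G = T' := by
          apply Finset.Subset.antisymm hG
          intro j hj
          by_contra hjG
          have h1 := hfar j (Finset.mem_sdiff.mpr ⟨hj, hjG⟩)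
          have h2 : y m ≤ y j := hmin j (hT'T hj)
          have h3 : Y * y m ≤ Y * y j := Nat.mul_le_mul_left _ h2
          omega
        subst hGT'
        have hGcard : T.card = T'.card + 1 := by
          rw [hT', Finset.card_erase_of_mem hm]
          have : 0 < T.card := Finset.card_pos.mpr hT
          omega
        refine ⟨T, y m, Finset.Subset.refl _, hT, ⟨m, hm, rfl⟩, by simp, fun j hj => hmin j hj, ?_⟩
        intro j hj
        have hT'pos : 0 < T'.card := Finset.card_pos.mpr hne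
        have hexp : T.card - 1 = (T'.card - 1) + 1 := by omega
        by_cases hjm : j = m
        · rw [hjm]
          exact Nat.le_mul_of_pos_right _ (pow_pos (by omega) _)
        · have hj' : j ∈ T' := Finset.mem_erase.mpr ⟨hjm, hj⟩
          have h1 := hup j hj'
          rw [hexp, pow_succ]
          have hYp : 0 < Y ^ (T'.card - 1) := pow_pos (by omega) _
          calc y j ≤ a * Y ^ (T'.card - 1) := h1
            _ ≤ (Y * y m) * Y ^ (T'.card - 1) := Nat.mul_le_mul_right _ hcase.le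
            _ = y m * (Y ^ (T'.card - 1) * Y) := by ring

end Split

/-- Odd multiples of `μ` are `2μ`-dense. -/
theorem odd_multiples_dense (μ : ℝ) (hμ : 0 < μ) (x : ℝ) (hx : 0 ≤ x) :
    ∃ a ∈ {z : ℝ | ∃ m : ℕ, Odd m ∧ z = m * μ}, x ≤ a ∧ a < x + 2 * μ := by
  set r : ℝ := (x / μ - 1) / 2 with hr
  set q : ℕ := ⌈r⌉₊ with hq
  have h1 : r ≤ q := Nat.le_ceil r
  have hxμ : 0 ≤ x / μ := div_nonneg hx hμ.le
  have h2 : (q : ℝ) < r + 1 := by
    by_cases hr0 : 0 ≤ r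
    · exact Nat.ceil_lt_add_one hr0
    · push Not at hr0
      have : q = 0 := Nat.ceil_eq_zero.mpr hr0.le
      rw [this]
      simp only [Nat.cast_zero]
      rw [hr]
      linarith
  refine ⟨(2 * q + 1 : ℕ) * μ, ⟨2 * q + 1, ⟨q, rfl⟩, rfl⟩, ?_, ?_⟩
  · have h3 : x / μ ≤ 2 * q + 1 := by
      rw [hr] at h1
      linarith
    push_cast
    calc x = x / μ * μ := by field_simp
      _ ≤ _ := by gcongr
  · have h3 : (2 * q + 1 : ℝ) < x / μ + 2 := by
      rw [hr] at h2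
      linarith
    push_cast
    calc (2 * (q : ℝ) + 1) * μ < (x / μ + 2) * μ := by gcongr
      _ = x + 2 * μ := by field_simp

section Modulus

variable {E : Type*} [NormedAddCommGroup E] [NormedSpace ℝ E] {J : Type*} [DecidableEq J]

theorem off_modulus_aux (T : Finset J) (c : J → E) (hc : ∀ j ∈ T, ‖c j‖ ≤ 1) (y : J → ℕ)
    (ev : J → Finset ℝ) (f : ℕ)
    (hmult : ∀ j ∈ T, ∀ x ∈ ev j, ∃ m : ℕ, x = m * (1 / 2 : ℝ) ^ f)
    (hdisj : ∀ j ∈ T, ∀ j' ∈ T, j ≠ j' → Disjoint (ev j) (ev j'))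
    (δ : ℝ) (hδ : δ ≤ (1 / 2 : ℝ) ^ f) (hsum : δ * ∑ j ∈ T, (y j : ℝ) ≤ 1) (s t : ℝ) (hst : s ≤ t)
    (hst' : t - s ≤ δ) : ‖Off c y ev T t - Off c y ev T s‖ ≤ 2 := by
  classical
  set e : J → ℕ := fun j => ((ev j).filter (fun x => s < x ∧ x ≤ t)).card with he
  have hcnt : ∀ j, cnt ev j t = cnt ev j s + e j := by
    intro j
    unfold cnt
    simp only [he]
    rw [← Finset.card_union_of_disjoint]
    · congr 1
      ext x
      simp only [Finset.mem_filter, Finset.mem_union]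
      constructor
      · rintro ⟨h1, h2⟩
        by_cases h3 : x ≤ s
        · exact Or.inl ⟨h1, h3⟩
        · exact Or.inr ⟨h1, not_le.mp h3, h2⟩
      · rintro (⟨h1, h2⟩ | ⟨h1, _, h2⟩)
        · exact ⟨h1, h2.trans hst⟩
        · exact ⟨h1, h2⟩
    · rw [Finset.disjoint_left]
      intro x hx hx'
      have h1 := (Finset.mem_filter.mp hx).2
      have h2 := (Finset.mem_filter.mp hx').2
      linarith [h2.1]
  have hU : ∑ j ∈ T, (e j : ℝ) ≤ 1 := by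
    have h1 : ∑ j ∈ T, e j
        = (T.biUnion (fun j => (ev j).filter (fun x => s < x ∧ x ≤ t))).card := by
      rw [Finset.card_biUnion]
      intro j hj j' hj' hne
      exact Finset.disjoint_of_subset_left (Finset.filter_subset _ _)
        (Finset.disjoint_of_subset_right (Finset.filter_subset _ _) (hdisj j hj j' hj' hne))
    have h2 : (T.biUnion (fun j => (ev j).filter (fun x => s < x ∧ x ≤ t))).card ≤ 1 := by
      rw [Finset.card_le_one]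
      intro x hx x' hx'
      obtain ⟨j, hj, hx⟩ := Finset.mem_biUnion.mp hx
      obtain ⟨j', hj', hx'⟩ := Finset.mem_biUnion.mp hx'
      obtain ⟨hx1, hx2, hx3⟩ := Finset.mem_filter.mp hx
      obtain ⟨hx'1, hx'2, hx'3⟩ := Finset.mem_filter.mp hx'
      obtain ⟨m, rfl⟩ := hmult j hj x hx1
      obtain ⟨m', rfl⟩ := hmult j' hj' x' hx'1
      have hμ : (0 : ℝ) < (1 / 2 : ℝ) ^ f := by positivity
      by_contra hne
      have hmm : m ≠ m' := fun h => hne (by rw [h])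
      rcases lt_or_gt_of_ne hmm with h | h
      · have h3 : (m : ℝ) + 1 ≤ m' := by exact_mod_cast h
        have h4 : ((m : ℝ) + 1) * (1 / 2 : ℝ) ^ f ≤ m' * (1 / 2 : ℝ) ^ f := by gcongr
        nlinarith
      · have h3 : (m' : ℝ) + 1 ≤ m := by exact_mod_cast h
        have h4 : ((m' : ℝ) + 1) * (1 / 2 : ℝ) ^ f ≤ m * (1 / 2 : ℝ) ^ f := by gcongr
        nlinarith
    have h3 : ((∑ j ∈ T, e j : ℕ) : ℝ) ≤ 1 := by
      rw [h1]
      exact_mod_cast h2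
    simpa using h3
  have hdiff : Off c y ev T t - Off c y ev T s
      = ∑ j ∈ T, ((e j : ℝ) - (t - s) * y j) • c j := by
    unfold Off
    rw [← Finset.sum_sub_distrib]
    refine Finset.sum_congr rfl fun j _ => ?_
    rw [hcnt j]
    push_cast
    module
  rw [hdiff]
  have hts : 0 ≤ t - s := by linarith
  have hy0 : 0 ≤ ∑ j ∈ T, (y j : ℝ) := Finset.sum_nonneg fun j _ => by positivity
  calc ‖∑ j ∈ T, ((e j : ℝ) - (t - s) * y j) • c j‖
      ≤ ∑ j ∈ T, ‖((e j : ℝ) - (t - s) * y j) • c j‖ := norm_sum_le _ _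
    _ ≤ ∑ j ∈ T, ((e j : ℝ) + (t - s) * y j) := by
        refine Finset.sum_le_sum fun j hj => ?_
        rw [norm_smul, Real.norm_eq_abs]
        have h1 : |(e j : ℝ) - (t - s) * y j| ≤ (e j : ℝ) + (t - s) * y j := by
          rw [abs_le]
          have h2 : (0 : ℝ) ≤ e j := by positivity
          have h3 : 0 ≤ (t - s) * y j := by positivity
          constructor <;> linarith
        calc _ ≤ ((e j : ℝ) + (t - s) * y j) * ‖c j‖ := by gcongr
          _ ≤ ((e j : ℝ) + (t - s) * y j) * 1 := by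
              gcongr
              exact hc j hj
          _ = _ := mul_one _
    _ = ∑ j ∈ T, (e j : ℝ) + (t - s) * ∑ j ∈ T, (y j : ℝ) := by
        rw [Finset.sum_add_distrib, Finset.mul_sum]
    _ ≤ 1 + 1 := by
        gcongr
        exact (mul_le_mul_of_nonneg_right hst' hy0).trans hsum
    _ = 2 := by norm_num

theorem off_modulus (T : Finset J) (c : J → E) (hc : ∀ j ∈ T, ‖c j‖ ≤ 1) (y : J → ℕ)
    (ev : J → Finset ℝ) (f : ℕ)
    (hmult : ∀ j ∈ T, ∀ x ∈ ev j, ∃ m : ℕ, x = m * (1 / 2 : ℝ) ^ f)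
    (hdisj : ∀ j ∈ T, ∀ j' ∈ T, j ≠ j' → Disjoint (ev j) (ev j'))
    (δ : ℝ) (hδ : δ ≤ (1 / 2 : ℝ) ^ f) (hsum : δ * ∑ j ∈ T, (y j : ℝ) ≤ 1) (s t : ℝ)
    (hst : |s - t| ≤ δ) : ‖Off c y ev T s - Off c y ev T t‖ ≤ 2 := by
  rcases le_total s t with h | h
  · rw [norm_sub_rev]
    refine off_modulus_aux T c hc y ev f hmult hdisj δ hδ hsum s t h ?_
    rw [abs_sub_comm] at hst
    exact (le_abs_self _).trans hst
  · exact off_modulus_aux T c hc y ev f hmult hdisj δ hδ hsum t s h ((le_abs_self _).trans hst)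

end Modulus

/-- The quantity multiplying `√n` in `Tb`. -/
noncomputable def Xb (C : ℝ) (n : ℕ) : ℝ :=
  7 + 4 * C * (1 + Real.sqrt (Real.log (648 * (n : ℝ) ^ 2)))

theorem W_bound {C : ℝ} (hC : 0 ≤ C) (n g : ℕ) (hg : 1 ≤ g) (hgn : g ≤ n) (M : ℝ) (hM : 0 ≤ M)
    (hMup : M + 1 ≤ (648 * (n : ℝ) ^ 2) ^ g) :
    2 * Real.sqrt g + 5 + 4 * C * (Real.sqrt g + Real.sqrt (Real.log (M + 1)))
      ≤ Real.sqrt g * Xb C n := by
  have hn : (1 : ℝ) ≤ n := by exact_mod_cast (hg.trans hgn)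
  have hg1 : (1 : ℝ) ≤ g := by exact_mod_cast hg
  have hsq : 1 ≤ Real.sqrt g := by
    rw [Real.one_le_sqrt]
    exact hg1
  have hL : Real.log (M + 1) ≤ g * Real.log (648 * (n : ℝ) ^ 2) := by
    rw [← Real.log_pow]
    exact Real.log_le_log (by linarith) hMup
  have hL2 : Real.sqrt (Real.log (M + 1)) ≤ Real.sqrt g * Real.sqrt (Real.log (648 * (n : ℝ) ^ 2)) := by
    rw [← Real.sqrt_mul (by positivity)]
    exact Real.sqrt_le_sqrt hL
  unfold Xb
  have h1 : 4 * C * Real.sqrt (Real.log (M + 1))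
      ≤ 4 * C * (Real.sqrt g * Real.sqrt (Real.log (648 * (n : ℝ) ^ 2))) := by
    gcongr
  nlinarith

theorem sqrt_minkowski (A Ee W : ℝ) (hA : 0 ≤ A) (hE : 0 ≤ Ee) :
    Real.sqrt ((A + Ee) ^ 2 + W ^ 2) ≤ Real.sqrt (A ^ 2 + W ^ 2) + Ee := by
  have h0 : 0 ≤ Real.sqrt (A ^ 2 + W ^ 2) := Real.sqrt_nonneg _
  have h1 : A ≤ Real.sqrt (A ^ 2 + W ^ 2) := by
    apply Real.le_sqrt_of_sq_le
    nlinarith [sq_nonneg W]
  rw [Real.sqrt_le_left (by positivity)]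
  have h2 : Real.sqrt (A ^ 2 + W ^ 2) ^ 2 = A ^ 2 + W ^ 2 := Real.sq_sqrt (by positivity)
  nlinarith

section Main

variable {E : Type*} [NormedAddCommGroup E] [InnerProductSpace ℝ E]

theorem sched_empty {J : Type*} [DecidableEq J] (c : J → E) (y : J → ℕ) (C : ℝ) (n : ℕ) :
    ∃ (ev : J → Finset ℝ) (f : ℕ), (∀ j ∈ (∅ : Finset J), (ev j).card = y j) ∧
      (∀ j ∈ (∅ : Finset J), ∀ x ∈ ev j, 0 < x ∧ x < 1 ∧ ∃ m : ℕ, x = m * (1 / 2 : ℝ) ^ f) ∧
      (∀ j ∈ (∅ : Finset J), ∀ j' ∈ (∅ : Finset J), j ≠ j' → Disjoint (ev j) (ev j')) ∧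
      (∀ t ∈ Icc (0 : ℝ) 1, ‖Off c y ev (∅ : Finset J) t‖
        ≤ Real.sqrt ((∅ : Finset J).card : ℝ) * Xb C n + (((∅ : Finset J).card : ℕ) : ℝ) / n) ∧
      (∀ I' : ℕ, 0 < I' → (∀ j ∈ (∅ : Finset J), 36 * n ^ 2 * y j ≤ I') →
        (1 / (I' : ℝ)) ≤ (1 / 2 : ℝ) ^ f) := by
  refine ⟨fun _ => ∅, 0, by simp, by simp, by simp, ?_, ?_⟩
  · intro t _
    simp [Off]
  · intro I' hI' _
    have : (1 : ℝ) ≤ I' := by exact_mod_cast hI'
    simpa using inv_le_one_of_one_le₀ this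

/-- The number of blocks of a group. -/
theorem I_props (a : ℕ) (ha1 : 1 ≤ a) :
    ∃ I : ℕ, 0 < I ∧ a ≤ 3 * I ∧ (1 < I → 2 * I ≤ a) ∧ I ≤ a := by
  refine ⟨max 1 (a / 2), lt_of_lt_of_le Nat.zero_lt_one (le_max_left _ _), ?_, ?_, ?_⟩
  · have : a / 2 ≤ max 1 (a / 2) := le_max_right _ _
    have : 1 ≤ max 1 (a / 2) := le_max_left _ _
    omega
  · intro h
    rcases le_total 1 (a / 2) with h1 | h1
    · rw [max_eq_right h1]; omega
    · rw [max_eq_left h1] at h; omega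
  · rcases le_total 1 (a / 2) with h1 | h1
    · rw [max_eq_right h1]; omega
    · rw [max_eq_left h1]; omega

theorem M_two_le {J : Type*} (y : J → ℕ) (G : Finset J) (hGne : G.Nonempty) (I : ℕ) (hI : 0 < I) :
    2 ≤ ∑ j ∈ G, ((y j : ℝ) / I + 2) := by
  have hGpos : 1 ≤ G.card := Finset.card_pos.mpr hGne
  have hgR : (1 : ℝ) ≤ G.card := by exact_mod_cast hGpos
  have h1 : ∑ _j ∈ G, (2 : ℝ) ≤ ∑ j ∈ G, ((y j : ℝ) / I + 2) := Finset.sum_le_sum fun j _ => by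
    have : 0 ≤ (y j : ℝ) / I := by positivity
    linarith
  simp only [Finset.sum_const, nsmul_eq_mul] at h1
  linarith

theorem M_mul_I_le {J : Type*} (y : J → ℕ) (G : Finset J) (I : ℕ) (hI : 0 < I)
    (hle : ∀ j ∈ G, I ≤ y j) :
    (∑ j ∈ G, ((y j : ℝ) / I + 2)) * I ≤ 3 * ∑ j ∈ G, (y j : ℝ) := by
  have hIR : (0 : ℝ) < I := by exact_mod_cast hI
  rw [Finset.sum_mul, Finset.mul_sum]
  refine Finset.sum_le_sum fun j hj => ?_
  have h1 : ((y j : ℝ) / I + 2) * I = y j + 2 * I := by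
    field_simp
  rw [h1]
  have h2 : (I : ℝ) ≤ y j := by
    exact_mod_cast hle j hj
  linarith

theorem M_up {J : Type*} (y : J → ℕ) (n : ℕ) (hn1 : 1 ≤ n) (G : Finset J) (a : ℕ)
    (hGne : G.Nonempty) (hgn : G.card ≤ n) (hup : ∀ j ∈ G, y j ≤ a * (108 * n ^ 2) ^ (G.card - 1))
    (I : ℕ) (hI : 0 < I) (hIa3 : a ≤ 3 * I) :
    (∑ j ∈ G, ((y j : ℝ) / I + 2)) + 1 ≤ (648 * (n : ℝ) ^ 2) ^ G.card := by
  have hIR : (0 : ℝ) < I := by exact_mod_cast hI
  have hnR : (1 : ℝ) ≤ n := by exact_mod_cast hn1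
  have hGpos : 1 ≤ G.card := Finset.card_pos.mpr hGne
  set g := G.card with hg
  have hgR : (1 : ℝ) ≤ g := by exact_mod_cast hGpos
  set Y : ℝ := 108 * (n : ℝ) ^ 2 with hY
  have hYge : (n : ℝ) ≤ Y := by
    rw [hY]
    nlinarith
  have hY1R : (1 : ℝ) ≤ Y := hnR.trans hYge
  obtain ⟨r, hr⟩ : ∃ r, g = r + 1 := ⟨g - 1, by omega⟩
  have hYr : (1 : ℝ) ≤ Y ^ r := one_le_pow₀ hY1R
  have hterm : ∀ j ∈ G, (y j : ℝ) / I + 2 ≤ 5 * Y ^ r := by
    intro j hj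
    have h1 := hup j hj
    have h2 : g - 1 = r := by omega
    rw [h2] at h1
    have h3 : (y j : ℝ) ≤ a * Y ^ r := by
      have : ((y j : ℕ) : ℝ) ≤ ((a * (108 * n ^ 2) ^ r : ℕ) : ℝ) := by exact_mod_cast h1
      push_cast at this
      exact this
    have h4 : (a : ℝ) ≤ 3 * I := by exact_mod_cast hIa3
    have h5 : (y j : ℝ) / I ≤ 3 * Y ^ r := by
      rw [div_le_iff₀ hIR]
      have : (a : ℝ) * Y ^ r ≤ (3 * I) * Y ^ r := by gcongr
      linarith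
    linarith
  have h1 : ∑ j ∈ G, ((y j : ℝ) / I + 2) ≤ g * (5 * Y ^ r) := by
    have := Finset.sum_le_sum hterm
    simp only [Finset.sum_const, nsmul_eq_mul] at this
    exact this
  have h2 : (648 * (n : ℝ) ^ 2) = 6 * Y := by
    rw [hY]
    ring
  have hgr : (g : ℝ) ≤ Y := (by exact_mod_cast hgn : (g : ℝ) ≤ n).trans hYge
  have h6 : (1 : ℝ) ≤ g * Y ^ r := by
    calc (1 : ℝ) = 1 * 1 := by norm_num
      _ ≤ g * Y ^ r := by gcongr
  have h7 : (∑ j ∈ G, ((y j : ℝ) / I + 2)) + 1 ≤ 6 * ((g : ℝ) * Y ^ r) := by linarith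
  have h3 : (1 : ℝ) ≤ 6 ^ r := one_le_pow₀ (by norm_num)
  have h8 : (g : ℝ) * Y ^ r ≤ 6 ^ r * (Y ^ r * Y) := by
    calc (g : ℝ) * Y ^ r ≤ Y * Y ^ r := by gcongr
      _ = 1 * (Y ^ r * Y) := by ring
      _ ≤ 6 ^ r * (Y ^ r * Y) := by gcongr
  rw [h2, hr, pow_succ, mul_pow]
  calc _ ≤ 6 * ((g : ℝ) * Y ^ r) := h7
    _ ≤ 6 * (6 ^ r * (Y ^ r * Y)) := by gcongr
    _ = _ := by ring

theorem dyadic_params (n I : ℕ) (M : ℝ) (hn1 : 1 ≤ n) (hI : 0 < I) (hM2 : 2 ≤ M) :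
    ∃ f : ℕ, 6 * M * (1 / 2 : ℝ) ^ f ≤ 1 / (I : ℝ) ∧ 3 * (1 / 2 : ℝ) ^ f * M * I ≤ 1 / (n : ℝ) ∧
      (1 / 2 : ℝ) ^ f < 1 / (I : ℝ) ∧ 1 / (12 * (n : ℝ) * (M * I)) ≤ (1 / 2 : ℝ) ^ f := by
  have hnR : (1 : ℝ) ≤ n := by exact_mod_cast hn1
  have hn0 : (0 : ℝ) < n := by linarith
  have hIR : (0 : ℝ) < I := by exact_mod_cast hI
  have hI1R : (1 : ℝ) ≤ I := by exact_mod_cast hI
  have hM0 : 0 < M := by linarith
  set u : ℝ := 1 / (6 * n * M * I) with hu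
  have hD : 0 < 6 * n * M * I := by positivity
  have hu0 : 0 < u := by positivity
  have h2 : 1 * 2 * 1 ≤ (n : ℝ) * M * I := by
    gcongr
  have hD12 : 12 ≤ 6 * n * M * I := by
    have : 6 * n * M * I = 6 * ((n : ℝ) * M * I) := by ring
    rw [this]
    linarith
  have hu1 : u < 1 := by
    rw [hu, div_lt_one hD]
    linarith
  obtain ⟨e, he1, he2⟩ := exists_nat_pow_near_of_lt_one hu0 hu1.le
    (by norm_num : (0 : ℝ) < 1 / 2) (by norm_num : (1 / 2 : ℝ) < 1)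
  have hμ0 : (0 : ℝ) < (1 / 2 : ℝ) ^ (e + 1) := by positivity
  have huμ : u ≤ 2 * (1 / 2 : ℝ) ^ (e + 1) := by
    rw [pow_succ]
    linarith
  have huD : u * (6 * n * M * I) = 1 := by
    rw [hu]
    field_simp
  have hn1' : (1 : ℝ) / n ≤ 1 := by
    rw [div_le_one hn0]
    exact hnR
  have hu6 : 6 * M * u = 1 / ((n : ℝ) * I) := by
    rw [hu]
    field_simp
  have hu3 : 3 * u * M * I = 1 / (2 * (n : ℝ)) := by
    rw [hu]
    field_simp
    ring
  refine ⟨e + 1, ?_, ?_, ?_, ?_⟩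
  · calc 6 * M * (1 / 2 : ℝ) ^ (e + 1) ≤ 6 * M * u := by
          have := he1.le
          gcongr
      _ = 1 / ((n : ℝ) * I) := hu6
      _ ≤ 1 / (I : ℝ) := by
          apply one_div_le_one_div_of_le hIR
          nlinarith
  · calc 3 * (1 / 2 : ℝ) ^ (e + 1) * M * I ≤ 3 * u * M * I := by
          have := he1.le
          gcongr
      _ = 1 / (2 * (n : ℝ)) := hu3
      _ ≤ 1 / (n : ℝ) := by
          apply one_div_le_one_div_of_le hn0
          linarith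
  · refine he1.trans_le ?_
    rw [hu]
    apply one_div_le_one_div_of_le hIR
    have h1 : 1 ≤ 6 * (n : ℝ) * M := by
      have : 1 * 2 ≤ (n : ℝ) * M := by gcongr
      linarith
    calc (I : ℝ) = 1 * I := by ring
      _ ≤ 6 * (n : ℝ) * M * I := by gcongr
  · have h3 : 1 / (12 * (n : ℝ) * (M * I)) = u / 2 := by
      rw [hu]
      field_simp
      ring
    rw [h3]
    linarith

/-- All the numerology of one group. -/
theorem group_params {J : Type*} [DecidableEq J] (y : J → ℕ) (n : ℕ) (hn1 : 1 ≤ n) (G : Finset J)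
    (a : ℕ) (hGne : G.Nonempty) (hgn : G.card ≤ n) (ha1 : 1 ≤ a) (hlow : ∀ j ∈ G, a ≤ y j)
    (hup : ∀ j ∈ G, y j ≤ a * (108 * n ^ 2) ^ (G.card - 1)) :
    ∃ (I : ℕ) (M : ℝ) (f : ℕ), 0 < I ∧ a ≤ 3 * I ∧ (1 < I → ∀ j ∈ G, 2 ≤ (y j : ℝ) / I) ∧
      M = ∑ j ∈ G, ((y j : ℝ) / I + 2) ∧ 0 ≤ M ∧ M + 1 ≤ (648 * (n : ℝ) ^ 2) ^ G.card ∧
      6 * M * (1 / 2 : ℝ) ^ f ≤ 1 / (I : ℝ) ∧ 3 * (1 / 2 : ℝ) ^ f * M * I ≤ 1 / (n : ℝ) ∧
      (1 / 2 : ℝ) ^ f < 1 / (I : ℝ) ∧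
      (∀ I' : ℕ, 0 < I' → (∀ j ∈ G, 36 * n ^ 2 * y j ≤ I') → (1 / (I' : ℝ)) ≤ (1 / 2 : ℝ) ^ f) := by
  have hnR : (1 : ℝ) ≤ n := by exact_mod_cast hn1
  have hn0 : (0 : ℝ) < n := by linarith
  obtain ⟨I, hIpos, hIa3, hI2, hIle⟩ := I_props a ha1
  have hIR : (0 : ℝ) < I := by exact_mod_cast hIpos
  set M : ℝ := ∑ j ∈ G, ((y j : ℝ) / I + 2) with hM
  have hM2 : 2 ≤ M := M_two_le y G hGne I hIpos
  have hMI : M * I ≤ 3 * ∑ j ∈ G, (y j : ℝ) :=
    M_mul_I_le y G I hIpos (fun j hj => hIle.trans (hlow j hj))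
  have hMup : M + 1 ≤ (648 * (n : ℝ) ^ 2) ^ G.card := M_up y n hn1 G a hGne hgn hup I hIpos hIa3
  obtain ⟨f, hf1, hf2, hf3, hf4⟩ := dyadic_params n I M hn1 hIpos hM2
  have hmono : 1 < I → ∀ j ∈ G, 2 ≤ (y j : ℝ) / I := by
    intro h1 j hj
    rw [le_div_iff₀ hIR]
    have h2 := hI2 h1
    have h3 := hlow j hj
    have h4 : 2 * I ≤ y j := h2.trans h3
    exact_mod_cast h4
  refine ⟨I, M, f, hIpos, hIa3, hmono, rfl, by linarith, hMup, hf1, hf2, hf3, ?_⟩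
  intro I' hI' hall
  have hI'R : (0 : ℝ) < I' := by exact_mod_cast hI'
  have h1 : ∀ j ∈ G, (36 * (n : ℝ) ^ 2) * (y j : ℝ) ≤ I' := by
    intro j hj
    exact_mod_cast hall j hj
  have h2 : (36 * (n : ℝ) ^ 2) * ∑ j ∈ G, (y j : ℝ) ≤ G.card * I' := by
    rw [Finset.mul_sum]
    have := Finset.sum_le_sum h1
    simpa only [Finset.sum_const, nsmul_eq_mul] using this
  have hgnR : (G.card : ℝ) ≤ n := by exact_mod_cast hgn
  have h3 : 36 * (n : ℝ) * ∑ j ∈ G, (y j : ℝ) ≤ I' := by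
    have h4 : (n : ℝ) * (36 * (n : ℝ) * ∑ j ∈ G, (y j : ℝ)) ≤ n * I' := by
      calc _ = (36 * (n : ℝ) ^ 2) * ∑ j ∈ G, (y j : ℝ) := by ring
        _ ≤ G.card * I' := h2
        _ ≤ n * I' := by gcongr
    exact le_of_mul_le_mul_left h4 hn0
  have h4 : 12 * (n : ℝ) * (M * I) ≤ I' := by
    have : 12 * (n : ℝ) * (M * I) ≤ 12 * (n : ℝ) * (3 * ∑ j ∈ G, (y j : ℝ)) := by gcongr
    linarith
  have hMIpos : 0 < 12 * (n : ℝ) * (M * I) := by
    have : 0 < M := by linarith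
    positivity
  calc 1 / (I' : ℝ) ≤ 1 / (12 * (n : ℝ) * (M * I)) := one_div_le_one_div_of_le hMIpos h4
    _ ≤ _ := hf4

/-- The lighter classes vary little on the scale `1 / I`. -/
theorem light_sum {J : Type*} [DecidableEq J] (y : J → ℕ) (n : ℕ) (hn1 : 1 ≤ n) (T' : Finset J)
    (hTn : T'.card ≤ n) (I : ℕ) (hI : 0 < I) (hfar : ∀ j ∈ T', 36 * n ^ 2 * y j ≤ I) :
    1 / (I : ℝ) * ∑ j ∈ T', (y j : ℝ) ≤ 1 := by
  have hnR : (1 : ℝ) ≤ n := by exact_mod_cast hn1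
  have hn0 : (0 : ℝ) < n := by linarith
  have hIR : (0 : ℝ) < I := by exact_mod_cast hI
  have h1 : ∀ j ∈ T', (y j : ℝ) ≤ (I : ℝ) / n := by
    intro j hj
    rw [le_div_iff₀ hn0]
    have h2 := hfar j hj
    have h3 : y j * n ≤ 36 * n ^ 2 * y j := by
      have : n ≤ 36 * n ^ 2 := by nlinarith
      calc y j * n ≤ y j * (36 * n ^ 2) := Nat.mul_le_mul_left _ this
        _ = _ := by ring
    exact_mod_cast h3.trans h2
  have h2 : ∑ j ∈ T', (y j : ℝ) ≤ (T'.card : ℝ) * ((I : ℝ) / n) := by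
    have := Finset.sum_le_sum h1
    simpa only [Finset.sum_const, nsmul_eq_mul] using this
  have h3 : (T'.card : ℝ) ≤ n := by
    exact_mod_cast hTn
  have h4 : (T'.card : ℝ) * ((I : ℝ) / n) ≤ I := by
    calc (T'.card : ℝ) * ((I : ℝ) / n) ≤ n * ((I : ℝ) / n) := by gcongr
      _ = I := by field_simp
  rw [div_mul_eq_mul_div, one_mul, div_le_one hIR]
  linarith

/-- Final bookkeeping of the norm bound when a group is added. -/
theorem merge_bound (n g t' tt : ℕ) (hn1 : 1 ≤ n) (hg : 1 ≤ g) (hcard : t' + g = tt) (X W : ℝ)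
    (hX : 0 ≤ X) (hW0 : 0 ≤ W) (hW : W ≤ Real.sqrt g * X) :
    Real.sqrt ((Real.sqrt t' * X + (t' : ℝ) / n) ^ 2 + W ^ 2) + 1 / (n : ℝ)
      ≤ Real.sqrt tt * X + (tt : ℝ) / n := by
  have hnR : (1 : ℝ) ≤ n := by exact_mod_cast hn1
  have hgR : (1 : ℝ) ≤ g := by exact_mod_cast hg
  set A : ℝ := Real.sqrt t' * X with hA
  set Ee : ℝ := (t' : ℝ) / n with hEe
  set W1 : ℝ := Real.sqrt g * X with hW1
  have hA0 : 0 ≤ A := by positivity
  have hE0 : 0 ≤ Ee := by positivity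
  have h1 : Real.sqrt ((A + Ee) ^ 2 + W ^ 2) ≤ Real.sqrt ((A + Ee) ^ 2 + W1 ^ 2) := by
    apply Real.sqrt_le_sqrt
    have : W ^ 2 ≤ W1 ^ 2 := by gcongr
    linarith
  have h2 := sqrt_minkowski A Ee W1 hA0 hE0
  have h3 : A ^ 2 + W1 ^ 2 = (tt : ℝ) * X ^ 2 := by
    rw [hA, hW1, mul_pow, mul_pow, Real.sq_sqrt (by positivity), Real.sq_sqrt (by positivity),
      ← hcard]
    push_cast
    ring
  have h4 : Real.sqrt (A ^ 2 + W1 ^ 2) = Real.sqrt tt * X := by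
    rw [h3, Real.sqrt_mul (by positivity), Real.sqrt_sq hX]
  rw [h4] at h2
  have h5 : Ee + 1 / (n : ℝ) ≤ (tt : ℝ) / n := by
    rw [hEe, ← add_div]
    gcongr
    rw [← hcard]
    push_cast
    linarith
  linarith

/-- Adding one group to a schedule. -/
theorem sched_step {C : ℝ} (hC : 0 ≤ C) (H : BanBound C) {J : Type*} [DecidableEq J]
    (c : J → E) (y : J → ℕ) (n : ℕ) (hn1 : 1 ≤ n) (T G : Finset J) (a : ℕ) (hGT : G ⊆ T)
    (hGne : G.Nonempty) (hTn : T.card ≤ n) (hc : ∀ j ∈ T, ‖c j‖ ≤ 1) (ha1 : 1 ≤ a)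
    (hfar : ∀ j ∈ T \ G, 108 * n ^ 2 * y j ≤ a) (hlow : ∀ j ∈ G, a ≤ y j)
    (hup : ∀ j ∈ G, y j ≤ a * (108 * n ^ 2) ^ (G.card - 1))
    (ev' : J → Finset ℝ) (f' : ℕ) (hev1 : ∀ j ∈ T \ G, (ev' j).card = y j)
    (hev2 : ∀ j ∈ T \ G, ∀ x ∈ ev' j, 0 < x ∧ x < 1 ∧ ∃ m : ℕ, x = m * (1 / 2 : ℝ) ^ f')
    (hev3 : ∀ j ∈ T \ G, ∀ j' ∈ T \ G, j ≠ j' → Disjoint (ev' j) (ev' j'))
    (hev4 : ∀ t ∈ Icc (0 : ℝ) 1, ‖Off c y ev' (T \ G) t‖
      ≤ Real.sqrt (T \ G).card * Xb C n + ((T \ G).card : ℝ) / n)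
    (hev5 : ∀ I' : ℕ, 0 < I' → (∀ j ∈ T \ G, 36 * n ^ 2 * y j ≤ I') →
      (1 / (I' : ℝ)) ≤ (1 / 2 : ℝ) ^ f') :
    ∃ (ev : J → Finset ℝ) (f : ℕ), (∀ j ∈ T, (ev j).card = y j) ∧
      (∀ j ∈ T, ∀ x ∈ ev j, 0 < x ∧ x < 1 ∧ ∃ m : ℕ, x = m * (1 / 2 : ℝ) ^ f) ∧
      (∀ j ∈ T, ∀ j' ∈ T, j ≠ j' → Disjoint (ev j) (ev j')) ∧
      (∀ t ∈ Icc (0 : ℝ) 1, ‖Off c y ev T t‖ ≤ Real.sqrt T.card * Xb C n + (T.card : ℝ) / n) ∧
      (∀ I' : ℕ, 0 < I' → (∀ j ∈ T, 36 * n ^ 2 * y j ≤ I') →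
        (1 / (I' : ℝ)) ≤ (1 / 2 : ℝ) ^ f) := by
  classical
  have hnR : (1 : ℝ) ≤ n := by exact_mod_cast hn1
  have hn0 : (0 : ℝ) < n := by linarith
  have hX0 : 0 ≤ Xb C n := by
    unfold Xb
    positivity
  set T' := T \ G with hT'
  have hT'T : T' ⊆ T := Finset.sdiff_subset
  have hcard : T'.card + G.card = T.card := Finset.card_sdiff_add_card_eq_card hGT
  have hGpos : 1 ≤ G.card := Finset.card_pos.mpr hGne
  have hgn : G.card ≤ n := by omega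
  obtain ⟨I, M, f, hIpos, hIa3, hmono, hM, hM0, hMup, hμ', hθ, hμI, hnew⟩ :=
    group_params y n hn1 G a hGne hgn ha1 hlow hup
  set μ : ℝ := (1 / 2 : ℝ) ^ f with hμdef
  have hμ0 : 0 < μ := by positivity
  have hfar' : ∀ j ∈ T', 36 * n ^ 2 * y j ≤ I := by
    intro j hj
    have h1 := hfar j hj
    have h2 : 108 * n ^ 2 * y j = 3 * (36 * n ^ 2 * y j) := by ring
    omega
  have hδμ : 1 / (I : ℝ) ≤ (1 / 2 : ℝ) ^ f' := hev5 I hIpos hfar'
  have hsum := light_sum y n hn1 T' (by omega) I hIpos hfar'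
  have hff : f' < f := by
    have h1 : (1 / 2 : ℝ) ^ f < (1 / 2 : ℝ) ^ f' := hμI.trans_le hδμ
    exact (pow_lt_pow_iff_right_of_lt_one₀ (by norm_num) (by norm_num)).mp h1
  have hpow : (1 / 2 : ℝ) ^ f' = (2 : ℝ) ^ (f - f') * μ := by
    have h1 : f = f' + (f - f') := by omega
    rw [hμdef]
    conv_rhs => rw [h1, pow_add]
    have h2 : f' + (f - f') - f' = f - f' := by omega
    rw [h2]
    have h3 : (2 : ℝ) ^ (f - f') * (1 / 2 : ℝ) ^ (f - f') = 1 := by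
      rw [← mul_pow]
      norm_num
    linear_combination (-(1 / 2 : ℝ) ^ f') * h3
  set Λ : ℝ → E := Off c y ev' T' with hΛ
  set X : ℝ := Xb C n with hX
  set B : ℝ := Real.sqrt T'.card * X + (T'.card : ℝ) / n with hB
  have hB0 : 0 ≤ B := by positivity
  have hmod : ∀ s ∈ Icc (0 : ℝ) 1, ∀ t ∈ Icc (0 : ℝ) 1, |s - t| ≤ 1 / (I : ℝ) →
      ‖Λ s - Λ t‖ ≤ 2 := fun s _ t _ hst =>
    off_modulus T' c (fun j hj => hc j (hT'T hj)) y ev' f'
      (fun j hj x hx => (hev2 j hj x hx).2.2) hev3 (1 / (I : ℝ)) hδμ hsum s t hst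
  obtain ⟨evg, hg1, hg2, hg3, hg4⟩ := group_step hC H G c (fun j hj => hc j (hGT hj)) y I hIpos
    hmono M hM.symm.le μ hμ0 hμ' (1 / (n : ℝ)) hθ {z : ℝ | ∃ m : ℕ, Odd m ∧ z = m * μ}
    (fun x hx _ => odd_multiples_dense μ hμ0 x hx) Λ B hB0 (fun t ht => hev4 t ht) hmod
  have hdisjAB : ∀ j ∈ G, ∀ j' ∈ T', Disjoint (evg j) (ev' j') := by
    intro j hj j' hj'
    rw [Finset.disjoint_left]
    intro x hx hx'
    obtain ⟨⟨m, hodd, hm⟩, _, _⟩ := hg2 j hj x hx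
    obtain ⟨_, _, m', hm'⟩ := hev2 j' hj' x hx'
    rw [hpow] at hm'
    have h1 : (m : ℝ) = m' * 2 ^ (f - f') := by
      have h2 : (m : ℝ) * μ = m' * 2 ^ (f - f') * μ := by
        rw [← hm]
        rw [hm']
        ring
      exact mul_right_cancel₀ hμ0.ne' h2
    have h2 : m = m' * 2 ^ (f - f') := by exact_mod_cast h1
    have h3 : Even m := by
      rw [h2]
      exact Even.mul_left ((Nat.even_pow.mpr ⟨even_two, by omega⟩)) _
    exact (Nat.not_even_iff_odd.mpr hodd) h3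
  set ev : J → Finset ℝ := fun j => if j ∈ G then evg j else ev' j with hev
  have hevG : ∀ j ∈ G, ev j = evg j := fun j hj => by simp [hev, hj]
  have hevT : ∀ j ∈ T', ev j = ev' j := fun j hj => by
    have := (Finset.mem_sdiff.mp hj).2
    simp [hev, this]
  have hsplit : ∀ j ∈ T, j ∈ G ∨ j ∈ T' := by
    intro j hj
    by_cases h : j ∈ G
    · exact Or.inl h
    · exact Or.inr (Finset.mem_sdiff.mpr ⟨hj, h⟩)
  refine ⟨ev, f, ?_, ?_, ?_, ?_, ?_⟩
  · intro j hj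
    rcases hsplit j hj with h | h
    · rw [hevG j h]; exact hg1 j h
    · rw [hevT j h]; exact hev1 j h
  · intro j hj x hx
    rcases hsplit j hj with h | h
    · rw [hevG j h] at hx
      obtain ⟨⟨m, _, hm⟩, h0, h1⟩ := hg2 j h x hx
      exact ⟨h0, h1, m, hm⟩
    · rw [hevT j h] at hx
      obtain ⟨h0, h1, m, hm⟩ := hev2 j h x hx
      refine ⟨h0, h1, m * 2 ^ (f - f'), ?_⟩
      rw [hm, hpow]
      push_cast
      ring
  · intro j hj j' hj' hne
    rcases hsplit j hj with h | h <;> rcases hsplit j' hj' with h' | h'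
    · rw [hevG j h, hevG j' h']; exact hg3 j h j' h' hne
    · rw [hevG j h, hevT j' h']; exact hdisjAB j h j' h'
    · rw [hevT j h, hevG j' h']; exact (hdisjAB j' h' j h).symm
    · rw [hevT j h, hevT j' h']; exact hev3 j h j' h' hne
  · intro t ht
    have hOff : Off c y ev T t = Λ t + Off c y evg G t := by
      simp only [hΛ, Off]
      rw [← Finset.sum_sdiff hGT]
      congr 1
      · refine Finset.sum_congr rfl fun j hj => ?_
        simp only [cnt]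
        rw [hevT j hj]
      · refine Finset.sum_congr rfl fun j hj => ?_
        simp only [cnt]
        rw [hevG j hj]
    rw [hOff]
    refine (hg4 t ht).trans ?_
    have hW := W_bound hC n G.card hGpos hgn M hM0 hMup
    exact merge_bound n G.card T'.card T.card hn1 hGpos hcard X _ hX0 (by positivity) hW
  · intro I' hI' hall
    exact hnew I' hI' (fun j hj => hall j (hGT hj))

theorem sched_aux {C : ℝ} (hC : 0 ≤ C) (H : BanBound C) {J : Type*} [DecidableEq J]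
    (c : J → E) (y : J → ℕ) (n : ℕ) (hn1 : 1 ≤ n) :
    ∀ (k : ℕ) (T : Finset J), T.card ≤ k → T.card ≤ n → (∀ j ∈ T, ‖c j‖ ≤ 1) →
      (∀ j ∈ T, 0 < y j) →
      ∃ (ev : J → Finset ℝ) (f : ℕ), (∀ j ∈ T, (ev j).card = y j) ∧
        (∀ j ∈ T, ∀ x ∈ ev j, 0 < x ∧ x < 1 ∧ ∃ m : ℕ, x = m * (1 / 2 : ℝ) ^ f) ∧
        (∀ j ∈ T, ∀ j' ∈ T, j ≠ j' → Disjoint (ev j) (ev j')) ∧
        (∀ t ∈ Icc (0 : ℝ) 1, ‖Off c y ev T t‖ ≤ Real.sqrt T.card * Xb C n + (T.card : ℝ) / n) ∧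
        (∀ I' : ℕ, 0 < I' → (∀ j ∈ T, 36 * n ^ 2 * y j ≤ I') →
          (1 / (I' : ℝ)) ≤ (1 / 2 : ℝ) ^ f) := by
  classical
  intro k
  induction k with
  | zero =>
    intro T hk _ _ _
    have hT : T = ∅ := Finset.card_eq_zero.mp (Nat.le_zero.mp hk)
    subst hT
    exact sched_empty c y C n
  | succ k ih =>
    intro T hk hTn hc hpos
    rcases T.eq_empty_or_nonempty with rfl | hTne
    · exact sched_empty c y C n
    have hY1 : 1 ≤ 108 * n ^ 2 := by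
      have : 1 ≤ n ^ 2 := Nat.one_le_pow _ _ hn1
      omega
    obtain ⟨G, a, hGT, hGne, ⟨j₀, hj₀G, hj₀a⟩, hfar, hlow, hup⟩ :=
      split_top y (108 * n ^ 2) hY1 T.card T le_rfl hTne
    have hT'T : T \ G ⊆ T := Finset.sdiff_subset
    have hcard : (T \ G).card + G.card = T.card := Finset.card_sdiff_add_card_eq_card hGT
    have hGpos : 1 ≤ G.card := Finset.card_pos.mpr hGne
    have ha1 : 1 ≤ a := by
      rw [← hj₀a]
      exact hpos j₀ (hGT hj₀G)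
    obtain ⟨ev', f', hev1, hev2, hev3, hev4, hev5⟩ := ih (T \ G) (by omega) (by omega)
      (fun j hj => hc j (hT'T hj)) (fun j hj => hpos j (hT'T hj))
    exact sched_step hC H c y n hn1 T G a hGT hGne hTn hc ha1 hfar hlow hup ev' f' hev1 hev2 hev3
      hev4 hev5

/-- M5 -/
theorem trun_schedule {C : ℝ} (hC : 0 ≤ C) (H : BanBound C) {J : Type*} [DecidableEq J]
    (S : Finset J) (c : J → E) (hc : ∀ j ∈ S, ‖c j‖ ≤ 1) (y : J → ℕ) (n : ℕ) (hn : S.card ≤ n)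
    (hn1 : 1 ≤ n) :
    ∃ ev : J → Finset ℝ, (∀ j ∈ S, (ev j).card = y j) ∧ (∀ j ∈ S, ∀ x ∈ ev j, 0 < x ∧ x < 1) ∧
      (∀ j ∈ S, ∀ j' ∈ S, j ≠ j' → Disjoint (ev j) (ev j')) ∧
      ∀ t ∈ Icc (0 : ℝ) 1, ‖Off c y ev S t‖ ≤ Tb C n := by
  classical
  set T := S.filter (fun j => 0 < y j) with hT
  have hTS : T ⊆ S := Finset.filter_subset _ _
  have hTcard : T.card ≤ n := (Finset.card_le_card hTS).trans hn
  obtain ⟨ev, f, h1, h2, h3, h4, _⟩ := sched_aux hC H c y n hn1 T.card T le_rfl hTcard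
    (fun j hj => hc j (hTS hj)) (fun j hj => (Finset.mem_filter.mp hj).2)
  have hnR : (1 : ℝ) ≤ n := by exact_mod_cast hn1
  set ev2 : J → Finset ℝ := fun j => if j ∈ T then ev j else ∅ with hev2
  have hev2T : ∀ j ∈ T, ev2 j = ev j := fun j hj => by simp [hev2, hj]
  have hev2N : ∀ j, j ∉ T → ev2 j = ∅ := fun j hj => by simp [hev2, hj]
  have hzero : ∀ j ∈ S, j ∉ T → y j = 0 := by
    intro j hj hjT
    by_contra h
    exact hjT (Finset.mem_filter.mpr ⟨hj, Nat.pos_of_ne_zero h⟩)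
  refine ⟨ev2, ?_, ?_, ?_, ?_⟩
  · intro j hj
    by_cases hjT : j ∈ T
    · rw [hev2T j hjT]; exact h1 j hjT
    · rw [hev2N j hjT, hzero j hj hjT]; rfl
  · intro j _ x hx
    by_cases hjT : j ∈ T
    · rw [hev2T j hjT] at hx
      obtain ⟨h5, h6, _⟩ := h2 j hjT x hx
      exact ⟨h5, h6⟩
    · rw [hev2N j hjT] at hx
      simp at hx
  · intro j _ j' _ hne
    by_cases hjT : j ∈ T
    · by_cases hjT' : j' ∈ T
      · rw [hev2T j hjT, hev2T j' hjT']; exact h3 j hjT j' hjT' hne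
      · rw [hev2N j' hjT']; exact Finset.disjoint_empty_right _
    · rw [hev2N j hjT]; exact Finset.disjoint_empty_left _
  · intro t ht
    have hOff : Off c y ev2 S t = Off c y ev T t := by
      unfold Off
      rw [← Finset.sum_subset hTS]
      · refine Finset.sum_congr rfl fun j hj => ?_
        simp only [cnt]
        rw [hev2T j hj]
      · intro j hj hjT
        simp only [cnt]
        rw [hev2N j hjT, hzero j hj hjT]
        simp
    rw [hOff]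
    refine (h4 t ht).trans ?_
    have hX0 : 0 ≤ Xb C n := by
      unfold Xb
      positivity
    have hTR : (T.card : ℝ) ≤ n := by exact_mod_cast hTcard
    have h5 : Real.sqrt T.card * Xb C n ≤ Real.sqrt n * Xb C n := by
      gcongr
    have h6 : (T.card : ℝ) / n ≤ 1 := by
      rw [div_le_one (by linarith)]
      exact hTR
    unfold Tb
    unfold Xb at h5 ⊢
    linarith

end Main

end Vale.Agent.Lib.P262.St
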