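import Vale.Agent.Lib.P262.St.TrunList
import Vale.Agent.Lib.P262.St.Instance
import Vale.Agent.Lib.P262.St.ClassPrep
import Vale.Agent.Lib.P262.St.Cut

/-!
One simplex of the main induction: the run through its classes, cut into pieces with small sums.
-/

namespace Vale.Agent.Lib.P262.St

lemma Tb_nonneg_aux {C : ℝ} (hC : 0 ≤ C) (n : ℕ) : 0 ≤ Tb C n := by
  unfold Tb
  positivity

lemma mem_of_mem_multiset_sum {J A : Type*} (S : Finset J) (stock : J → List A) (v : A)
    (h : v ∈ (∑ j ∈ S, ((stock j : List A) : Multiset A))) : ∃ j ∈ S, v ∈ stock j := by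
  classical
  rcases Multiset.mem_sum.1 h with ⟨j, hj, hv⟩
  exact ⟨j, hj, by simpa using hv⟩

/-- Pieces of one simplex. -/
theorem simplex_pieces {C : ℝ} (hC : 0 ≤ C) (H : BanBound C) {d : ℕ} (hd : 1 ≤ d)
    {J : Type*} [DecidableEq J] (S : Finset J) (hS : S.card ≤ d + 1)
    (c : J → EuclideanSpace ℝ (Fin d)) (hc : ∀ j ∈ S, ‖c j‖ ≤ 1) (y : J → ℕ)
    (hs : ‖∑ j ∈ S, (y j : ℝ) • c j‖ ≤ d + 1)
    (stock : J → List (EuclideanSpace ℝ (Fin d))) (hlen : ∀ j ∈ S, (stock j).length = y j)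
    (hnorm : ∀ j ∈ S, ∀ v ∈ stock j, ‖v‖ ≤ 1)
    (hG : ∀ j ∈ S, ∀ m, m ≤ y j → ‖((stock j).take m).sum - (m : ℝ) • c j‖ ≤ 1 / ((d : ℝ) + 1))
    (K₂ : Finset (Fin d → ℤ))
    (hK₂ : ∀ v : EuclideanSpace ℝ (Fin d), ‖v‖ ≤ Tb C (d + 1) + d + 3 →
      cellOf (1 / Real.sqrt d) v ∈ K₂) :
    ∃ P : List (List (EuclideanSpace ℝ (Fin d))), P.length ≤ 2 * K₂.card ∧
      (∀ q ∈ P, ‖q.sum‖ ≤ 1 ∧ PrefixBd q (5 + 4 * Tb C (d + 1))) ∧
      ((P.flatten : List (EuclideanSpace ℝ (Fin d))) : Multiset (EuclideanSpace ℝ (Fin d)))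
        = ∑ j ∈ S, ((stock j : List (EuclideanSpace ℝ (Fin d))) : Multiset (EuclideanSpace ℝ (Fin d))) := by
  obtain ⟨l, t, h1, h2, h3, h4, h5⟩ := trun_list hC H S c hc y (d + 1) hS (by omega)
  obtain ⟨a, ha1, ha2, ha3⟩ := instantiate S l h2 stock (fun j hj => by rw [hlen j hj, h1 j hj])
  have hT := Tb_nonneg_aux hC (d + 1)
  set s := ∑ j ∈ S, (y j : ℝ) • c j with hsdef
  set e : ℝ := Tb C (d + 1) + 1 with he
  have hpos : ∀ k, k ≤ a.length → ‖(a.take k).sum - t k • s‖ ≤ e := by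
    intro k hk
    have hk' : k ≤ l.length := by omega
    have h6 : ((l.take k).map c).sum = ∑ j ∈ S, (((l.take k).count j : ℕ) : ℝ) • c j :=
      map_sum_eq_sum_count S c (l.take k) (fun j hj => h2 j (List.mem_of_mem_take hj))
    have h7 : ‖(a.take k).sum - ((l.take k).map c).sum‖ ≤ 1 := by
      rw [ha2 k, h6, ← Finset.sum_sub_distrib]
      calc ‖∑ j ∈ S, (((stock j).take ((l.take k).count j)).sum - (((l.take k).count j : ℕ) : ℝ) • c j)‖
          ≤ ∑ j ∈ S, ‖((stock j).take ((l.take k).count j)).sum - (((l.take k).count j : ℕ) : ℝ) • c j‖ :=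
            norm_sum_le _ _
        _ ≤ ∑ _j ∈ S, 1 / ((d : ℝ) + 1) := by
            apply Finset.sum_le_sum
            intro j hj
            apply hG j hj
            rw [← h1 j hj]
            exact (List.take_sublist k l).count_le j
        _ = (S.card : ℝ) * (1 / ((d : ℝ) + 1)) := by simp
        _ ≤ 1 := by
            have hc1 : (S.card : ℝ) ≤ (d : ℝ) + 1 := by exact_mod_cast hS
            have hd1 : (0 : ℝ) < (d : ℝ) + 1 := by positivity
            rw [mul_one_div, div_le_one hd1]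
            exact hc1
    have h8 := h5 k hk'
    calc ‖(a.take k).sum - t k • s‖
        = ‖((a.take k).sum - ((l.take k).map c).sum) + (((l.take k).map c).sum - t k • s)‖ := by
          congr 1
          abel
      _ ≤ ‖(a.take k).sum - ((l.take k).map c).sum‖ + ‖((l.take k).map c).sum - t k • s‖ :=
          norm_add_le _ _
      _ ≤ 1 + Tb C (d + 1) := add_le_add h7 h8
      _ = e := by rw [he]; ring
  have hbound : ∀ k, k ≤ a.length → ‖(a.take k).sum‖ ≤ Tb C (d + 1) + d + 3 := by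
    intro k hk
    have h9 := hpos k hk
    have h10 : ‖t k • s‖ ≤ d + 1 := by
      rw [norm_smul, Real.norm_eq_abs, abs_of_nonneg (h4 k).1]
      calc t k * ‖s‖ ≤ 1 * ((d : ℝ) + 1) :=
            mul_le_mul (h4 k).2 hs (norm_nonneg _) (by norm_num)
        _ = _ := by ring
    calc ‖(a.take k).sum‖ = ‖((a.take k).sum - t k • s) + t k • s‖ := by
          congr 1
          abel
      _ ≤ ‖(a.take k).sum - t k • s‖ + ‖t k • s‖ := norm_add_le _ _
      _ ≤ e + (d + 1) := add_le_add h9 h10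
      _ ≤ Tb C (d + 1) + d + 3 := by rw [he]; linarith
  have hmem : ∀ v ∈ a, ‖v‖ ≤ 1 := by
    intro v hv
    have h11 : v ∈ (a : Multiset (EuclideanSpace ℝ (Fin d))) := by simpa using hv
    rw [ha3] at h11
    obtain ⟨j, hj, hvj⟩ := mem_of_mem_multiset_sum S stock v h11
    exact hnorm j hj v hvj
  obtain ⟨P, hP1, hP2, hP3⟩ := cut_path hd a hmem s t h3 e (by rw [he]; linarith) hpos K₂
    (fun k hk => hK₂ _ (hbound k hk))
  refine ⟨P, hP2, ?_, ?_⟩
  · intro q hq
    have := hP3 q hq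
    have he2 : 1 + 4 * e = 5 + 4 * Tb C (d + 1) := by
      rw [he]
      ring
    rw [he2] at this
    exact this
  · rw [hP1, ha3]

end Vale.Agent.Lib.P262.St
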