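import Vale.Agent.Lib.P262.St.Sched
import Vale.Agent.Lib.P262.St.RunList

/-!
The few-distinct-vectors lemma in list form.
-/

namespace Vale.Agent.Lib.P262.St

variable {E : Type*} [NormedAddCommGroup E] [InnerProductSpace ℝ E]

/-- M6 -/
theorem trun_list {C : ℝ} (hC : 0 ≤ C) (H : BanBound C) {J : Type*} [DecidableEq J] (S : Finset J)
    (c : J → E) (hc : ∀ j ∈ S, ‖c j‖ ≤ 1) (y : J → ℕ) (n : ℕ) (hn : S.card ≤ n) (hn1 : 1 ≤ n) :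
    ∃ (l : List J) (t : ℕ → ℝ), (∀ j ∈ S, l.count j = y j) ∧ (∀ j ∈ l, j ∈ S) ∧ Monotone t ∧
      (∀ k, 0 ≤ t k ∧ t k ≤ 1) ∧
      ∀ k, k ≤ l.length →
        ‖((l.take k).map c).sum - t k • ∑ j ∈ S, (y j : ℝ) • c j‖ ≤ Tb C n := by
  obtain ⟨ev, h1, h2, h3, h4⟩ := trun_schedule hC H S c hc y n hn hn1
  exact schedule_to_list S c y ev h1 h2 h3 _ h4

end Vale.Agent.Lib.P262.St
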